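import Vale.Agent.P144.H365.Cont

/-!
Comparison of two solutions of the boundary value problem in the diamond.
-/

namespace Vale.Agent.P144.H365

open MeasureTheory Filter Topology Complex Vale.Agent.P144

/-- The boundary conditions. -/
structure BdC (F : ℂ → ℂ) : Prop where
  bdd : ∃ δ > 0, ∃ K, ∀ z ∈ Dia, 1 - δ < |z.re| + |z.im| → ‖F z‖ ≤ K
  NE : ∀ p : ℂ, 0 < p.re → 0 < p.im → p.re + p.im = 1 → ∃ r > 0, ∃ L, ∀ z ∈ Dia, ‖z - p‖ < r →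
    ‖F z‖ - (F z).re ≤ L * (1 - z.re - z.im) ^ 2
  NW : ∀ p : ℂ, p.re < 0 → 0 < p.im → -p.re + p.im = 1 → ∃ r > 0, ∃ L, ∀ z ∈ Dia, ‖z - p‖ < r →
    ‖F z‖ + (F z).im ≤ L * (1 + z.re - z.im) ^ 2
  SW : ∀ p : ℂ, p.re < 0 → p.im < 0 → -p.re - p.im = 1 → ∃ r > 0, ∃ L, ∀ z ∈ Dia, ‖z - p‖ < r →
    ‖F z‖ + (F z).re ≤ L * (1 + z.re + z.im) ^ 2
  SE : ∀ p : ℂ, 0 < p.re → p.im < 0 → p.re - p.im = 1 → ∃ r > 0, ∃ L, ∀ z ∈ Dia, ‖z - p‖ < r →
    ‖F z‖ - (F z).im ≤ L * (1 - z.re + z.im) ^ 2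

/-- The residue of the differential of the `H`-function is nonnegative. -/
def ResNN {κ κ' : Type*} [Fintype κ] [Fintype κ'] (ζ : κ → ℂ) (ω : κ' → ℂ) (q : ℂ → ℂ) (m : ℂ) :
    Prop := ∃ c : ℝ, 0 ≤ c ∧ Tendsto (fun z => (z - m) * H170.gq ζ ω q z) (𝓝[≠] m) (𝓝 (c : ℂ))

theorem Dia_open : IsOpen (Dia : Set ℂ) := by
  have : (Dia : Set ℂ) = {z | |z.re| + |z.im| < 1} := rfl
  rw [this]
  exact isOpen_lt (continuous_re.abs.add continuous_im.abs) continuous_const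

theorem exists_sqrt (z : ℂ) : ∃ s : ℂ, s * s = z :=
  ⟨H170.rtu z, H170.rtu_mul_self z⟩

/-- Pointwise comparison. -/
theorem pt_sub {P u q1 q2 : ℂ} (hu : ‖u‖ = 1) :
    ‖(q1 - q2) ^ 2 / P‖ - (u * ((q1 - q2) ^ 2 / P)).re ≤
      2 * (‖q1 ^ 2 / P‖ - (u * (q1 ^ 2 / P)).re) + 2 * (‖q2 ^ 2 / P‖ - (u * (q2 ^ 2 / P)).re) := by
  obtain ⟨s, hs⟩ := exists_sqrt (u / P)
  have key : ∀ x : ℂ, ‖x ^ 2 / P‖ - (u * (x ^ 2 / P)).re = 2 * (s * x).im ^ 2 := by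
    intro x
    have e1 : u * (x ^ 2 / P) = (s * x) ^ 2 := by
      rw [mul_pow, pow_two s, hs]; ring
    have e2 : ‖x ^ 2 / P‖ = ‖s * x‖ ^ 2 := by
      rw [← norm_pow, ← e1, norm_mul, hu, one_mul]
    rw [e1, e2]
    generalize s * x = y
    rw [← normSq_eq_norm_sq, normSq_apply, pow_two y, mul_re]
    ring
  rw [key, key, key, mul_sub, sub_im]
  nlinarith [sq_nonneg ((s * q1).im + (s * q2).im)]

theorem pt_norm {P q1 q2 : ℂ} :
    ‖(q1 - q2) ^ 2 / P‖ ≤ 2 * ‖q1 ^ 2 / P‖ + 2 * ‖q2 ^ 2 / P‖ := by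
  have h : ‖q1 - q2‖ ^ 2 ≤ 2 * ‖q1‖ ^ 2 + 2 * ‖q2‖ ^ 2 := by
    have h1 := norm_sub_le q1 q2
    have h2 : ‖q1 - q2‖ ^ 2 ≤ (‖q1‖ + ‖q2‖) ^ 2 := pow_le_pow_left₀ (norm_nonneg _) h1 2
    nlinarith [sq_nonneg (‖q1‖ - ‖q2‖)]
  rw [norm_div, norm_div, norm_div, norm_pow, norm_pow, norm_pow, ← mul_div_assoc,
    ← mul_div_assoc, ← add_div]
  exact div_le_div_of_nonneg_right h (norm_nonneg _)

section

variable {κ κ' : Type*} [Fintype κ] [Fintype κ'] {ζ : κ → ℂ} {ω : κ' → ℂ} {q q1 q2 : ℂ → ℂ}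
  {T : Set ℂ}

/-- Points of a finite set stay away from the boundary. -/
theorem fin_away (hT : T.Finite) (hTD : T ⊆ Dia) : ∃ δ > 0, ∀ z ∈ T, |z.re| + |z.im| ≤ 1 - δ := by
  by_cases hne : T.Nonempty
  · obtain ⟨m, hm, hmax⟩ := hT.exists_maximalFor (fun z : ℂ => |z.re| + |z.im|) T hne
    have h1 : |m.re| + |m.im| < 1 := hTD hm
    refine ⟨1 - (|m.re| + |m.im|), by linarith, fun z hz => ?_⟩
    rcases le_total (|z.re| + |z.im|) (|m.re| + |m.im|) with h | h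
    · linarith
    · have : |z.re| + |z.im| ≤ |m.re| + |m.im| := hmax hz h
      linarith
  · rw [Set.not_nonempty_iff_eq_empty] at hne
    subst hne
    exact ⟨1, one_pos, fun z hz => absurd hz (Set.notMem_empty z)⟩

theorem l1_lip (z p : ℂ) : |(|z.re| + |z.im|) - (|p.re| + |p.im|)| ≤ 2 * ‖z - p‖ := by
  have h1 := abs_re_le_norm (z - p)
  have h2 := abs_im_le_norm (z - p)
  rw [sub_re] at h1
  rw [sub_im] at h2
  have h3 := abs_abs_sub_abs_le z.re p.re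
  have h4 := abs_abs_sub_abs_le z.im p.im
  rw [abs_le] at h3 h4 ⊢
  constructor <;> linarith

theorem BdC.sub (hT : T.Finite) (hTD : T ⊆ Dia) (he : ∀ z ∈ Dia, z ∉ T → q z = q1 z - q2 z)
    (h1 : BdC (H170.F2 ζ ω q1)) (h2 : BdC (H170.F2 ζ ω q2)) : BdC (H170.F2 ζ ω q) := by
  obtain ⟨δ, hδ, hTδ⟩ := fin_away hT hTD
  have hF : ∀ z ∈ Dia, 1 - δ < |z.re| + |z.im| → q z = q1 z - q2 z := fun z hz hzδ =>
    he z hz fun h => by linarith [hTδ z h]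
  have near : ∀ p : ℂ, |p.re| + |p.im| = 1 → ∀ z ∈ Dia, ‖z - p‖ < δ / 2 → q z = q1 z - q2 z := by
    intro p hp z hz hzp
    refine hF z hz ?_
    have := (abs_le.1 (l1_lip z p)).1
    linarith
  -- the combined estimate
  have comb : ∀ (p : ℂ), |p.re| + |p.im| = 1 → ∀ (u : ℂ), ‖u‖ = 1 → ∀ (Φ : ℂ → ℝ) (hΦ : ∀ z, 0 ≤ Φ z),
      (∃ r > 0, ∃ L, ∀ z ∈ Dia, ‖z - p‖ < r → ‖H170.F2 ζ ω q1 z‖ - (u * H170.F2 ζ ω q1 z).re ≤
        L * Φ z) →
      (∃ r > 0, ∃ L, ∀ z ∈ Dia, ‖z - p‖ < r → ‖H170.F2 ζ ω q2 z‖ - (u * H170.F2 ζ ω q2 z).re ≤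
        L * Φ z) →
      ∃ r > 0, ∃ L, ∀ z ∈ Dia, ‖z - p‖ < r → ‖H170.F2 ζ ω q z‖ - (u * H170.F2 ζ ω q z).re ≤
        L * Φ z := by
    rintro p hp u hu Φ hΦ ⟨r1, hr1, L1, k1⟩ ⟨r2, hr2, L2, k2⟩
    refine ⟨min (min r1 r2) (δ / 2), by positivity, 2 * L1 + 2 * L2, fun z hz hzp => ?_⟩
    have a1 := k1 z hz (hzp.trans_le ((min_le_left _ _).trans (min_le_left _ _)))
    have a2 := k2 z hz (hzp.trans_le ((min_le_left _ _).trans (min_le_right _ _)))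
    have a3 := near p hp z hz (hzp.trans_le (min_le_right _ _))
    unfold H170.F2 at *
    rw [a3]
    refine (pt_sub hu).trans ?_
    linarith
  have n1 : ‖(1:ℂ)‖ = 1 := norm_one
  have n2 : ‖(-1:ℂ)‖ = 1 := by rw [norm_neg, norm_one]
  have n3 : ‖I‖ = 1 := norm_I
  have n4 : ‖-I‖ = 1 := by rw [norm_neg, norm_I]
  refine ⟨?_, ?_, ?_, ?_, ?_⟩
  · obtain ⟨d1, hd1, K1, k1⟩ := h1.bdd
    obtain ⟨d2, hd2, K2, k2⟩ := h2.bdd
    refine ⟨min (min d1 d2) δ, by positivity, 2 * K1 + 2 * K2, fun z hz hzp => ?_⟩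
    have m1 : min (min d1 d2) δ ≤ d1 := (min_le_left _ _).trans (min_le_left _ _)
    have m2 : min (min d1 d2) δ ≤ d2 := (min_le_left _ _).trans (min_le_right _ _)
    have m3 : min (min d1 d2) δ ≤ δ := min_le_right _ _
    have a1 := k1 z hz (by linarith)
    have a2 := k2 z hz (by linarith)
    have a3 := hF z hz (by linarith)
    unfold H170.F2 at *
    rw [a3]
    refine pt_norm.trans ?_
    linarith
  · intro p hp1 hp2 hp3
    have := comb p (by rw [abs_of_pos hp1, abs_of_pos hp2]; exact hp3) 1 n1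
      (fun z => (1 - z.re - z.im) ^ 2) (fun z => sq_nonneg _)
      (by simpa only [one_mul] using h1.NE p hp1 hp2 hp3)
      (by simpa only [one_mul] using h2.NE p hp1 hp2 hp3)
    simpa only [one_mul] using this
  · intro p hp1 hp2 hp3
    have e : ∀ w : ℂ, (I * w).re = -w.im := fun w => by simp
    have := comb p (by rw [abs_of_neg hp1, abs_of_pos hp2]; exact hp3) I n3
      (fun z => (1 + z.re - z.im) ^ 2) (fun z => sq_nonneg _)
      (by simpa only [e, sub_neg_eq_add] using h1.NW p hp1 hp2 hp3)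
      (by simpa only [e, sub_neg_eq_add] using h2.NW p hp1 hp2 hp3)
    simpa only [e, sub_neg_eq_add] using this
  · intro p hp1 hp2 hp3
    have e : ∀ w : ℂ, (-1 * w).re = -w.re := fun w => by simp
    have := comb p (by rw [abs_of_neg hp1, abs_of_neg hp2]; linarith) (-1) n2
      (fun z => (1 + z.re + z.im) ^ 2) (fun z => sq_nonneg _)
      (by simpa only [e, sub_neg_eq_add] using h1.SW p hp1 hp2 hp3)
      (by simpa only [e, sub_neg_eq_add] using h2.SW p hp1 hp2 hp3)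
    simpa only [e, sub_neg_eq_add] using this
  · intro p hp1 hp2 hp3
    have e : ∀ w : ℂ, (-I * w).re = w.im := fun w => by simp
    have := comb p (by rw [abs_of_pos hp1, abs_of_neg hp2]; linarith) (-I) n4
      (fun z => (1 - z.re + z.im) ^ 2) (fun z => sq_nonneg _)
      (by simpa only [e] using h1.SE p hp1 hp2 hp3)
      (by simpa only [e] using h2.SE p hp1 hp2 hp3)
    simpa only [e] using this

theorem BdC.lims {F : ℂ → ℂ} (h : BdC F) :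
    (∀ p : ℂ, 0 < p.re → 0 < p.im → p.re + p.im = 1 →
      Tendsto (fun z => ‖F z‖ - (F z).re) (𝓝[Dia] p) (𝓝 0)) ∧
    (∀ p : ℂ, p.re < 0 → 0 < p.im → -p.re + p.im = 1 →
      Tendsto (fun z => ‖F z‖ + (F z).im) (𝓝[Dia] p) (𝓝 0)) ∧
    (∀ p : ℂ, p.re < 0 → p.im < 0 → -p.re - p.im = 1 →
      Tendsto (fun z => ‖F z‖ + (F z).re) (𝓝[Dia] p) (𝓝 0)) ∧
    (∀ p : ℂ, 0 < p.re → p.im < 0 → p.re - p.im = 1 →
      Tendsto (fun z => ‖F z‖ - (F z).im) (𝓝[Dia] p) (𝓝 0)) := by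
  have key : ∀ (p : ℂ) (Ψ Φ : ℂ → ℝ), (∀ z, 0 ≤ Ψ z) → Continuous Φ → Φ p = 0 →
      (∃ r > 0, ∃ L, ∀ z ∈ Dia, ‖z - p‖ < r → Ψ z ≤ L * Φ z) →
      Tendsto Ψ (𝓝[Dia] p) (𝓝 0) := by
    rintro p Ψ Φ hΨ hΦ hp ⟨r, hr, L, hL⟩
    have h1 : Tendsto (fun z => L * Φ z) (𝓝[Dia] p) (𝓝 0) := by
      have := (hΦ.const_mul L).tendsto p
      rw [hp, mul_zero] at this
      exact this.mono_left nhdsWithin_le_nhds
    refine squeeze_zero' (Eventually.of_forall hΨ) ?_ h1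
    filter_upwards [self_mem_nhdsWithin, nhdsWithin_le_nhds (Metric.ball_mem_nhds p hr)] with z a b
    exact hL z a (by rwa [Metric.mem_ball, dist_eq_norm] at b)
  have a1 : ∀ w : ℂ, 0 ≤ ‖w‖ - w.re := fun w => by linarith [re_le_norm w]
  have a2 : ∀ w : ℂ, 0 ≤ ‖w‖ + w.re := fun w => by
    have := (abs_le.1 (abs_re_le_norm w)).1; linarith
  have a3 : ∀ w : ℂ, 0 ≤ ‖w‖ - w.im := fun w => by
    have := (abs_le.1 (abs_im_le_norm w)).2; linarith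
  have a4 : ∀ w : ℂ, 0 ≤ ‖w‖ + w.im := fun w => by
    have := (abs_le.1 (abs_im_le_norm w)).1; linarith
  refine ⟨fun p h1 h2 h3 => ?_, fun p h1 h2 h3 => ?_, fun p h1 h2 h3 => ?_, fun p h1 h2 h3 => ?_⟩
  · exact key p _ (fun z => (1 - z.re - z.im) ^ 2) (fun z => a1 _) (by fun_prop)
      (by rw [show 1 - p.re - p.im = 0 by linarith]; norm_num) (h.NE p h1 h2 h3)
  · exact key p _ (fun z => (1 + z.re - z.im) ^ 2) (fun z => a4 _) (by fun_prop)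
      (by rw [show 1 + p.re - p.im = 0 by linarith]; norm_num) (h.NW p h1 h2 h3)
  · exact key p _ (fun z => (1 + z.re + z.im) ^ 2) (fun z => a2 _) (by fun_prop)
      (by rw [show 1 + p.re + p.im = 0 by linarith]; norm_num) (h.SW p h1 h2 h3)
  · exact key p _ (fun z => (1 - z.re + z.im) ^ 2) (fun z => a3 _) (by fun_prop)
      (by rw [show 1 - p.re + p.im = 0 by linarith]; norm_num) (h.SE p h1 h2 h3)

/-- The marked points. -/
noncomputable def MF (ζ : κ → ℂ) (ω : κ' → ℂ) : Finset ℂ :=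
  open Classical in Finset.univ.image (Sum.elim ζ ω)

theorem mem_MF {m : ℂ} : m ∈ MF ζ ω ↔ m ∈ H170.Mk ζ ω := by
  classical
  unfold MF H170.Mk
  simp only [Finset.mem_image, Finset.mem_univ, true_and, Sum.exists, Sum.elim_inl, Sum.elim_inr,
    Set.mem_union, Set.mem_range]

theorem PP_eq (hinj : Function.Injective (Sum.elim ζ ω)) (z : ℂ) :
    H170.PP ζ ω z = ∏ m ∈ MF ζ ω, (z - m) := by
  classical
  unfold MF H170.PP
  rw [Finset.prod_image fun x _ y _ h => hinj h, Fintype.prod_sum_type]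
  rfl

/-- The residue. -/
noncomputable def rs (ζ : κ → ℂ) (ω : κ' → ℂ) (q : ℂ → ℂ) (m : ℂ) : ℂ :=
  cH * (q m ^ 2 / ∏ m' ∈ (MF ζ ω).erase m, (m - m'))

theorem rs_lim (hinj : Function.Injective (Sum.elim ζ ω)) {m : ℂ} (hm : m ∈ MF ζ ω)
    (hq : ContinuousAt q m) :
    Tendsto (fun z => (z - m) * H170.gq ζ ω q z) (𝓝[≠] m) (𝓝 (rs ζ ω q m)) := by
  classical
  have h0 : ∏ m' ∈ (MF ζ ω).erase m, (m - m') ≠ 0 := Finset.prod_ne_zero_iff.2 fun m' hm' =>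
    sub_ne_zero.2 fun h => (Finset.ne_of_mem_erase hm') h.symm
  have hc : ContinuousAt (fun z => ∏ m' ∈ (MF ζ ω).erase m, (z - m')) m :=
    (continuous_finsetProd _ fun _ _ => by fun_prop).continuousAt
  have h1 : ContinuousAt (fun z => cH * (q z ^ 2 / ∏ m' ∈ (MF ζ ω).erase m, (z - m'))) m :=
    continuousAt_const.mul ((hq.pow 2).div hc h0)
  refine (h1.tendsto.mono_left nhdsWithin_le_nhds).congr' ?_
  filter_upwards [self_mem_nhdsWithin] with z hz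
  have hz' : z - m ≠ 0 := sub_ne_zero.2 hz
  unfold H170.gq
  rw [PP_eq hinj, ← Finset.mul_prod_erase _ _ hm]
  show cH * _ = (z - m) * (cH * _)
  by_cases hp : ∏ m' ∈ (MF ζ ω).erase m, (z - m') = 0
  · rw [hp]; simp
  · field_simp

theorem rs_real (hinj : Function.Injective (Sum.elim ζ ω)) {m : ℂ} (hm : m ∈ MF ζ ω)
    (hq : ContinuousAt q m) (h : ResNN ζ ω q m) : ∃ c : ℝ, 0 ≤ c ∧ rs ζ ω q m = c := by
  obtain ⟨c, hc, hl⟩ := h
  exact ⟨c, hc, tendsto_nhds_unique (rs_lim hinj hm hq) hl⟩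

/-- The difference of two solutions has a nonnegative residue. -/
theorem rs_sub {m : ℂ} {c1 c2 : ℝ} (h1 : 0 ≤ c1) (h2 : 0 ≤ c2) (e1 : rs ζ ω q1 m = c1)
    (e2 : rs ζ ω q2 m = c2) (he : q m = q1 m - q2 m) : ∃ c : ℝ, 0 ≤ c ∧ rs ζ ω q m = c := by
  unfold rs at *
  set Pm := ∏ m' ∈ (MF ζ ω).erase m, (m - m')
  obtain ⟨s, hs⟩ := exists_sqrt (cH / Pm)
  have key : ∀ x : ℂ, cH * (x ^ 2 / Pm) = (s * x) ^ 2 := fun x => by
    rw [mul_pow, pow_two s, hs]; ring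
  rw [key] at e1 e2
  rw [key, he, mul_sub]
  have im0 : ∀ (y : ℂ) (c : ℝ), 0 ≤ c → y ^ 2 = c → y.im = 0 := by
    intro y c hc h
    have r1 := congrArg re h
    have r2 := congrArg im h
    rw [pow_two, mul_re, ofReal_re] at r1
    rw [pow_two, mul_im, ofReal_im] at r2
    by_contra hne
    have hre : y.re = 0 := by
      have : y.re * y.im = 0 := by linarith
      exact (mul_eq_zero.1 this).resolve_right hne
    rw [hre] at r1
    have := mul_self_pos.2 hne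
    linarith
  have i1 := im0 _ c1 h1 e1
  have i2 := im0 _ c2 h2 e2
  refine ⟨((s * q1 m).re - (s * q2 m).re) ^ 2, sq_nonneg _, ?_⟩
  have e3 : s * q1 m - s * q2 m = (((s * q1 m).re - (s * q2 m).re : ℝ) : ℂ) := by
    apply Complex.ext
    · simp
    · rw [sub_im, i1, i2, ofReal_im, sub_zero]
  rw [e3]; push_cast; ring

/-- **Uniqueness**, general form: `q = q1 - q2` outside a finite set of unmarked points. -/
theorem cont_zero (hζ : ∀ p, ζ p ∈ Dia) (hω : ∀ p, ω p ∈ Dia)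
    (hinj : Function.Injective (Sum.elim ζ ω)) (hT : T.Finite) (hTD : T ⊆ Dia)
    (hTM : ∀ z ∈ T, z ∉ H170.Mk ζ ω)
    (hq : DifferentiableOn ℂ q Dia) (he : ∀ z ∈ Dia, z ∉ T → q z = q1 z - q2 z)
    (hc1 : ∀ p, ContinuousAt q1 (ζ p)) (hc2 : ∀ p, ContinuousAt q2 (ζ p))
    (b1 : BdC (H170.F2 ζ ω q1)) (b2 : BdC (H170.F2 ζ ω q2))
    (r1 : ∀ p, ResNN ζ ω q1 (ζ p)) (r2 : ∀ p, ResNN ζ ω q2 (ζ p)) (hs : ∀ p, q (ω p) = 0) :
    ∀ z ∈ Dia, q z = 0 := by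
  classical
  have hb := BdC.sub hT hTD he b1 b2
  obtain ⟨l1, l2, l3, l4⟩ := hb.lims
  refine hom_unique (M := MF ζ ω) (F := H170.F2 ζ ω q) ?_ hq ?_ ?_ hb.bdd l1 l2 l3 l4
  · intro m hm
    rw [mem_MF] at hm
    rcases hm with ⟨p, rfl⟩ | ⟨p, rfl⟩
    · exact hζ p
    · exact hω p
  · intro z hz hzM
    unfold H170.F2
    rw [PP_eq hinj]
  · intro m hm
    have hm' := mem_MF.1 hm
    rcases hm' with ⟨p, rfl⟩ | ⟨p, rfl⟩
    · obtain ⟨c1, hc1', e1⟩ := rs_real hinj hm (hc1 p) (r1 p)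
      obtain ⟨c2, hc2', e2⟩ := rs_real hinj hm (hc2 p) (r2 p)
      have hpT : ζ p ∉ T := fun h => hTM _ h (Or.inl ⟨p, rfl⟩)
      exact rs_sub hc1' hc2' e1 e2 (he _ (hζ p) hpT)
    · refine ⟨0, le_rfl, ?_⟩
      rw [hs p]; simp

/-- **Uniqueness.** -/
theorem cont_unique (hζ : ∀ p, ζ p ∈ Dia) (hω : ∀ p, ω p ∈ Dia)
    (hinj : Function.Injective (Sum.elim ζ ω))
    (h1 : DifferentiableOn ℂ q1 Dia) (h2 : DifferentiableOn ℂ q2 Dia)
    (b1 : BdC (H170.F2 ζ ω q1)) (b2 : BdC (H170.F2 ζ ω q2))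
    (r1 : ∀ p, ResNN ζ ω q1 (ζ p)) (r2 : ∀ p, ResNN ζ ω q2 (ζ p))
    (hs : ∀ p, q1 (ω p) = q2 (ω p)) : ∀ z ∈ Dia, q1 z = q2 z := by
  have := cont_zero (q := fun z => q1 z - q2 z) (T := ∅) hζ hω hinj Set.finite_empty
    (Set.empty_subset _) (fun z hz => absurd hz (Set.notMem_empty z)) (h1.sub h2)
    (fun z _ _ => rfl) (fun p => (h1.differentiableAt (Dia_open.mem_nhds (hζ p))).continuousAt)
    (fun p => (h2.differentiableAt (Dia_open.mem_nhds (hζ p))).continuousAt) b1 b2 r1 r2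
    (fun p => sub_eq_zero.2 (hs p))
  exact fun z hz => sub_eq_zero.1 (this z hz)

end

end Vale.Agent.P144.H365
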