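import Vale.Agent.P144.H365.Coef

/-!
The second coefficient at a branch point.
-/

namespace Vale.Agent.P144.H365

open MeasureTheory Filter Topology Vale.Agent.P144 Complex

variable {ι : Type*} {a : ι → ℝ}

/-- The odd extension across the diagonal. -/
noncomputable def od (Q : Site → ℝ) (x : Site) : ℝ := if x.1 ≤ x.2 then Q x else - Q x

theorem od_abs (Q : Site → ℝ) (x : Site) : |od Q x| = |Q x| := by
  unfold od; split_ifs
  · rfl
  · rw [abs_neg]

theorem od_harm {Q : Site → ℝ} (hs : ∀ i j, Q (i, j) = Q (j, i)) (h0 : ∀ i, i < 0 → Q (i, i) = 0)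
    {i j : ℤ} (hx : i + j < -1) (hh : i ≠ j → H170.lap Q (i, j) = 0) :
    H170.lap (od Q) (i, j) = 0 := by
  rcases lt_trichotomy i j with h | h | h
  · have := hh h.ne
    rw [lap_mk] at this ⊢
    unfold od
    simp only
    rw [if_pos (by lia), if_pos (by lia), if_pos (by lia), if_pos (by lia), if_pos (by lia)]
    exact this
  · subst h
    rw [lap_mk]
    unfold od
    simp only
    rw [if_neg (by lia), if_pos (by lia), if_pos (by lia), if_neg (by lia), if_pos le_rfl,
      h0 i (by lia), hs (i + 1) i, hs (i - 1) i]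
    ring
  · have := hh h.ne'
    have e : ∀ m n : ℤ, n ≤ m → m + n < 0 → od Q (m, n) = - Q (m, n) := by
      intro m n h1 h2
      unfold od
      simp only
      by_cases h3 : m ≤ n
      · have : m = n := le_antisymm h3 h1
        subst this
        rw [if_pos le_rfl, h0 m (by lia)]; simp
      · rw [if_neg h3]
    rw [lap_mk] at this ⊢
    rw [e, e, e, e, e] <;> first | lia | linarith

theorem pA_slit {g : ℂ → ℂ} {z : ℂ} (hz : z ∉ US) (h0 : z ≠ 0) : pA g z = 0 := by
  have hd : z.re = z.im ∧ z.re ≤ 0 := not_not.1 hz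
  have hre : z.re < 0 := by
    refine lt_of_le_of_ne hd.2 fun h => h0 (Complex.ext h ?_)
    rw [← hd.1, h]; rfl
  unfold pA
  rw [mu_of_le hd.1.le, md_of_ge hd.1.ge, H170.rtd_eq_neg hre, div_neg, neg_re]
  ring

section main

variable {l : Ultrafilter ι} (ha : Tendsto a l (𝓝[>] 0)) {R : ℝ}
  {Q : ι → Site → ℝ} {φ : ℂ → ℝ} {F F' : ℂ → ℂ}
  (hs : ∀ k i j, Q k (i, j) = Q k (j, i)) (h0 : ∀ k i, i < 0 → Q k (i, i) = 0)
  (hh : ∀ᶠ k in l, ∀ x : Site, ‖H170.pt (a k) x‖ < R → ¬ (x.1 = x.2 ∧ x.1 < 0) →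
    H170.lap (Q k) x = 0)
  (hc : H170.CConv l a {z | z ≠ 0 ∧ ‖z‖ < R} (fun k x => (√(a k))⁻¹ * Q k x) φ)
  (hφ : ∀ z ∈ US, ‖z‖ < R → φ z = (F z).re) (hφ0 : ∀ z, z ∉ US → z ≠ 0 → φ z = 0)
  (hF : ∀ z ∈ US, ‖z‖ < R → HasDerivAt F (F' z) z)

include ha hs h0 hh hc hφ hφ0 hF

open Classical in
theorem diag_diff : H170.CConv (l : Filter ι) a {z | z ≠ 0 ∧ ‖z‖ < R}
    (fun k x => (√(a k))⁻¹ * ((a k)⁻¹ * (Q k x - Q k (x - (1, 1)))))
    (fun z => if z ∈ US then ((1 + I) * F' z).re else 0) := by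
  have hRo : IsOpen {z : ℂ | ‖z‖ < R} := isOpen_lt continuous_norm continuous_const
  -- the increments in terms of the differences
  have incr : ∀ {h : ι → Site → ℝ} {V : Set ℂ} {H1 H2 : ℂ → ℝ},
      H170.CConv (l : Filter ι) a V (fun k x => (a k)⁻¹ * H170.D (1, 0) (h k) x) H1 →
      H170.CConv (l : Filter ι) a V (fun k x => (a k)⁻¹ * H170.D (0, 1) (h k) x) H2 →
      H170.CConv (l : Filter ι) a V (fun k x => (a k)⁻¹ * (h k x - h k (x - (1, 1))))
        (fun z => H1 z + H2 z) := by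
    intro h V H1 H2 c1 c2
    have c3 := (c1.shift ha (-1, -1)).add (c2.shift ha (0, -1))
    refine c3.congr fun z _ => ⟨1, one_pos, Eventually.of_forall fun k x _ => ?_⟩
    unfold H170.D
    obtain ⟨i, j⟩ := x
    simp only [Prod.mk_add_mk, Prod.mk_sub_mk, add_zero]
    rw [← sub_eq_add_neg, ← sub_eq_add_neg, sub_add_cancel, sub_add_cancel]
    ring
  intro z hz
  have hz0 : z ≠ 0 := hz.1
  have hzR : ‖z‖ < R := hz.2
  by_cases hU : z ∈ US
  · simp only [if_pos hU]
    have hV : IsOpen (US ∩ {z : ℂ | ‖z‖ < R}) := US_open.inter hRo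
    have cV : H170.CConv (l : Filter ι) a (US ∩ {z : ℂ | ‖z‖ < R})
        (fun k x => (√(a k))⁻¹ * Q k x) φ := fun y hy => hc y ⟨US_ne hy.1, hy.2⟩
    have lV : H170.LocB (l : Filter ι) a (US ∩ {z : ℂ | ‖z‖ < R})
        (fun k x => (√(a k))⁻¹ * Q k x) := by
      intro y hy
      obtain ⟨r1, hr1, k1⟩ := cV y hy 1 one_pos
      obtain ⟨s, hs', hsV⟩ := Metric.isOpen_iff.1 hV y hy
      refine ⟨min r1 (s / 2), by positivity, |φ y| + 1, ?_⟩
      filter_upwards [k1, hh, ha.eventually self_mem_nhdsWithin] with k e1 e2 e3 x hx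
      have hm : H170.pt (a k) x ∈ US ∩ {z : ℂ | ‖z‖ < R} := hsV (by
        rw [Metric.mem_ball, dist_eq_norm]
        exact hx.trans_lt ((min_le_right _ _).trans_lt (by linarith)))
      constructor
      · rw [H170.lap_const_mul, e2 x hm.2, mul_zero]
        rintro ⟨g1, g2⟩
        refine hm.1 ⟨?_, ?_⟩
        · simp only [H170.pt]; rw [g1]
        · simp only [H170.pt]
          have : (x.1:ℝ) ≤ 0 := by exact_mod_cast g2.le
          have : 0 < a k := e3
          nlinarith
      · have := e1 x (hx.trans (min_le_left _ _))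
        have h2 := abs_sub_abs_le_abs_sub ((√(a k))⁻¹ * Q k x) (φ y)
        linarith
    obtain ⟨H1, c1⟩ := H170.exists_cconv ha (lV.diff ha (Or.inl rfl))
    obtain ⟨H2, c2⟩ := H170.exists_cconv ha (lV.diff ha (Or.inr rfl))
    have hst := (H170.CConv.strict ha hV cV c1 c2 ⟨hU, hzR⟩).hasFDerivAt
    have hF1 : HasFDerivAt (fun y => (F y).re)
        (Complex.reCLM.comp ((ContinuousLinearMap.toSpanSingleton ℂ (F' z)).restrictScalars ℝ)) z := by
      have h1 := ((hF z hU hzR).hasFDerivAt).restrictScalars ℝ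
      exact Complex.reCLM.hasFDerivAt.comp z h1
    have hF2 : HasFDerivAt φ
        (Complex.reCLM.comp ((ContinuousLinearMap.toSpanSingleton ℂ (F' z)).restrictScalars ℝ)) z := by
      refine hF1.congr_of_eventuallyEq ?_
      filter_upwards [hV.mem_nhds ⟨hU, hzR⟩] with y hy
      exact hφ y hy.1 hy.2
    have huniq := hst.unique hF2
    have hval := congrArg (fun T : ℂ →L[ℝ] ℝ => T (1 + I)) huniq
    simp at hval
    have hval' : H1 z + H2 z = ((1 + I) * F' z).re := by
      rw [hval, mul_re]; simp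
    have h3 := (incr c1 c2) z ⟨hU, hzR⟩
    intro ε hε
    obtain ⟨r, hr, hk⟩ := h3 ε hε
    refine ⟨r, hr, ?_⟩
    filter_upwards [hk] with k h4 x hx
    have h5 := h4 x hx
    rw [hval'] at h5
    have e : (√(a k))⁻¹ * ((a k)⁻¹ * (Q k x - Q k (x - (1, 1)))) =
        (a k)⁻¹ * ((√(a k))⁻¹ * Q k x - (√(a k))⁻¹ * Q k (x - (1, 1))) := by ring
    rw [e]; exact h5
  · simp only [if_neg hU]
    have hd : z.re = z.im ∧ z.re ≤ 0 := not_not.1 hU
    have hzL : z ∈ UL := by
      have : z.re ≠ 0 := fun h => hz0 (Complex.ext h (by rw [← hd.1, h]; rfl))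
      have h2 : z.re < 0 := lt_of_le_of_ne hd.2 this
      show z.re + z.im < 0
      rw [← hd.1]; linarith
    have hV : IsOpen (UL ∩ {z : ℂ | ‖z‖ < R}) := UL_open.inter hRo
    -- the odd limit
    set φo : ℂ → ℝ := fun y => if y.re ≤ y.im then φ y else - φ y with hφo
    have cV : H170.CConv (l : Filter ι) a (UL ∩ {z : ℂ | ‖z‖ < R})
        (fun k x => (√(a k))⁻¹ * od (Q k) x) φo := by
      rw [H170.cconv_iff] at hc ⊢
      rintro y ⟨hy1, hy2⟩
      have hy0 := UL_ne hy1
      have h1 := hc y ⟨hy0, hy2⟩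
      have hre : Tendsto (fun kx : ι × Site => (H170.pt (a kx.1) kx.2).re) (H170.nf l a y)
          (𝓝 y.re) := (continuous_re.tendsto _).comp (H170.tendsto_pt_nf y)
      have him : Tendsto (fun kx : ι × Site => (H170.pt (a kx.1) kx.2).im) (H170.nf l a y)
          (𝓝 y.im) := (continuous_im.tendsto _).comp (H170.tendsto_pt_nf y)
      rcases lt_trichotomy y.re y.im with h | h | h
      · simp only [hφo, if_pos h.le]
        refine h1.congr' ?_
        filter_upwards [(him.sub hre).eventually (lt_mem_nhds (sub_pos.2 h)),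
          H170.apos_nf ha y] with kx h2 h3
        have : kx.2.1 ≤ kx.2.2 := by
          simp only [H170.pt] at h2
          have h4 : (kx.2.1:ℝ) < kx.2.2 := by
            by_contra hc'
            push Not at hc'
            nlinarith
          exact_mod_cast h4.le
        unfold od
        rw [if_pos this]
      · have hyS : y ∉ US := fun h' => h' ⟨h, by
          have : y.re + y.im < 0 := hy1
          rw [← h] at this; linarith⟩
        simp only [hφo, if_pos h.le]
        rw [hφ0 y hyS hy0] at h1 ⊢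
        rw [tendsto_zero_iff_norm_tendsto_zero] at h1 ⊢
        refine h1.congr fun kx => ?_
        rw [norm_mul, norm_mul, Real.norm_eq_abs, Real.norm_eq_abs, Real.norm_eq_abs, od_abs]
      · simp only [hφo, if_neg (not_le.2 h)]
        refine h1.neg.congr' ?_
        filter_upwards [(hre.sub him).eventually (lt_mem_nhds (sub_pos.2 h)),
          H170.apos_nf ha y] with kx h2 h3
        have : kx.2.2 < kx.2.1 := by
          simp only [H170.pt] at h2
          have h4 : (kx.2.2:ℝ) < kx.2.1 := by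
            by_contra hc'
            push Not at hc'
            nlinarith
          exact_mod_cast h4
        unfold od
        rw [if_neg (not_le.2 this)]
        ring
    have lV : H170.LocB (l : Filter ι) a (UL ∩ {z : ℂ | ‖z‖ < R})
        (fun k x => (√(a k))⁻¹ * od (Q k) x) := by
      intro y hy
      have hy1 : y.re + y.im < 0 := hy.1
      obtain ⟨r1, hr1, k1⟩ := cV y hy 1 one_pos
      obtain ⟨s, hs', hsV⟩ := Metric.isOpen_iff.1 hV y hy
      set t := -(y.re + y.im) with ht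
      have ht0 : 0 < t := by linarith
      refine ⟨min (min r1 (s / 2)) (t / 4), by positivity, |φo y| + 1, ?_⟩
      have ha1 : ∀ᶠ k in l, a k < t / 4 :=
        (ha.mono_right nhdsWithin_le_nhds).eventually (gt_mem_nhds (by positivity))
      filter_upwards [k1, hh, ha.eventually self_mem_nhdsWithin, ha1] with k e1 e2 e3 e4 x hx
      have hm : H170.pt (a k) x ∈ UL ∩ {z : ℂ | ‖z‖ < R} := hsV (by
        rw [Metric.mem_ball, dist_eq_norm]
        exact hx.trans_lt (((min_le_left _ _).trans (min_le_right _ _)).trans_lt (by linarith)))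
      have e3' : 0 < a k := e3
      constructor
      · rw [H170.lap_const_mul]
        have hlt : x.1 + x.2 < -1 := by
          have g1 := (Complex.abs_re_le_norm _).trans hx
          have g2 := (Complex.abs_im_le_norm _).trans hx
          simp only [H170.pt, Complex.sub_re, Complex.sub_im] at g1 g2
          have g3 : min (min r1 (s / 2)) (t / 4) ≤ t / 4 := min_le_right _ _
          have g4 : a k * (x.1 + x.2) < -(t / 4) := by
            have := (abs_le.1 g1).2
            have := (abs_le.1 g2).2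
            linarith
          have g5 : a k * ((x.1:ℝ) + x.2) < a k * (-1) := by linarith
          have g6 : ((x.1:ℝ) + x.2) < -1 := lt_of_mul_lt_mul_left g5 e3'.le
          exact_mod_cast g6
        obtain ⟨i, j⟩ := x
        rw [od_harm (hs k) (h0 k) hlt fun hij => e2 _ hm.2 fun hc' => hij hc'.1, mul_zero]
      · have := e1 x (hx.trans ((min_le_left _ _).trans (min_le_left _ _)))
        have h2 := abs_sub_abs_le_abs_sub ((√(a k))⁻¹ * od (Q k) x) (φo y)
        linarith
    obtain ⟨H1, c1⟩ := H170.exists_cconv ha (lV.diff ha (Or.inl rfl))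
    obtain ⟨H2, c2⟩ := H170.exists_cconv ha (lV.diff ha (Or.inr rfl))
    have hst := (H170.CConv.strict ha hV cV c1 c2 ⟨hzL, hzR⟩).hasFDerivAt
    -- the derivative along the diagonal vanishes
    have hval : H1 z + H2 z = 0 := by
      have hline : HasDerivAt (fun t : ℝ => z + t * (1 + I)) (1 + I) 0 := by
        have := ((hasDerivAt_id (0:ℝ)).ofReal_comp.mul_const (1 + I)).const_add z
        simpa using this
      have h1 : HasDerivAt (fun t : ℝ => φo (z + t * (1 + I)))
          ((H1 z • reCLM + H2 z • imCLM) (1 + I)) 0 := by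
        have hst' : HasFDerivAt φo (H1 z • reCLM + H2 z • imCLM) (z + ((0:ℝ):ℂ) * (1 + I)) := by
          simpa using hst
        exact hst'.comp_hasDerivAt (0:ℝ) hline
      have h2 : HasDerivAt (fun t : ℝ => φo (z + t * (1 + I))) 0 0 := by
        refine (hasDerivAt_const (0:ℝ) (0:ℝ)).congr_of_eventuallyEq ?_
        have hre : z.re < 0 := by
          refine lt_of_le_of_ne hd.2 fun h => hz0 (Complex.ext h ?_)
          rw [← hd.1, h]; rfl
        have : ∀ᶠ t : ℝ in 𝓝 0, t < -z.re := gt_mem_nhds (by linarith)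
        filter_upwards [this] with t ht
        have e1 : (z + t * (1 + I)).re = z.re + t := by simp
        have e2 : (z + t * (1 + I)).im = z.im + t := by simp
        simp only [hφo]
        rw [if_pos (by rw [e1, e2, hd.1])]
        refine hφ0 _ (fun h => h ⟨by rw [e1, e2, hd.1], by rw [e1]; linarith⟩) ?_
        intro h
        have := congrArg re h
        rw [e1, zero_re] at this
        linarith
      have h3 := h1.unique h2
      simpa using h3
    have h3 := (incr c1 c2) z ⟨hzL, hzR⟩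
    intro ε hε
    obtain ⟨r, hr, hk⟩ := h3 ε hε
    refine ⟨r, hr, ?_⟩
    filter_upwards [hk] with k h4 x hx
    have h5 := h4 x hx
    rw [hval, sub_zero] at h5
    rw [sub_zero]
    have e : |(√(a k))⁻¹ * ((a k)⁻¹ * (Q k x - Q k (x - (1, 1))))| =
        |(a k)⁻¹ * ((√(a k))⁻¹ * od (Q k) x - (√(a k))⁻¹ * od (Q k) (x - (1, 1)))| := by
      have e1 : (√(a k))⁻¹ * ((a k)⁻¹ * (Q k x - Q k (x - (1, 1)))) =
        (a k)⁻¹ * (√(a k))⁻¹ * (Q k x - Q k (x - (1, 1))) := by ring
      have e2 : (a k)⁻¹ * ((√(a k))⁻¹ * od (Q k) x - (√(a k))⁻¹ * od (Q k) (x - (1, 1))) =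
        (a k)⁻¹ * (√(a k))⁻¹ * (od (Q k) x - od (Q k) (x - (1, 1))) := by ring
      rw [e1, e2, abs_mul, abs_mul ((a k)⁻¹ * (√(a k))⁻¹)]
      congr 1
      unfold od
      simp only [Prod.fst_sub, Prod.snd_sub]
      by_cases h6 : x.1 ≤ x.2
      · rw [if_pos h6, if_pos (by lia)]
      · rw [if_neg h6, if_neg (by lia), ← abs_neg]
        congr 1; ring
    rw [e]; exact h5

end main

theorem GS_zero (q : ℂ → ℂ) : GS (fun z => q (-z)) 0 = ((2 * (c0 * q 0).re : ℝ) : ℂ) := by
  unfold GS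
  simp only [map_zero, mul_zero, neg_zero]
  rw [add_conj]

theorem GS_deriv {q : ℂ → ℂ} {R : ℝ} (hR : 0 < R) (hq : DifferentiableOn ℂ q (Metric.ball 0 R)) :
    (1 + I) * deriv (GS (fun z => q (-z))) 0 = ((-(2 * ((1 + I) * (c0 * deriv q 0)).re) : ℝ) : ℂ) := by
  have h0 : HasDerivAt q (deriv q 0) 0 :=
    (hq.differentiableAt (Metric.isOpen_ball.mem_nhds (Metric.mem_ball_self hR))).hasDerivAt
  have h1 : HasDerivAt (fun z : ℂ => c0 * q (-z)) (c0 * (deriv q 0 * (-1))) 0 := by
    have h2 : HasDerivAt (fun z : ℂ => -z) (-1) 0 := hasDerivAt_neg 0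
    have h3 : HasDerivAt q (deriv q 0) (-(0:ℂ)) := by simpa using h0
    exact (h3.comp (0:ℂ) h2).const_mul c0
  have h4 : HasDerivAt (fun t : ℂ => c0 * q (-(I * t))) (c0 * (deriv q 0 * (-I))) 0 := by
    have h2 : HasDerivAt (fun t : ℂ => -(I * t)) (-I) 0 := by
      have h3 : HasDerivAt (fun t : ℂ => I * t) (I * 1) 0 := (hasDerivAt_id (0:ℂ)).const_mul I
      rw [mul_one] at h3
      exact h3.neg
    have h3 : HasDerivAt q (deriv q 0) (-(I * (0:ℂ))) := by simpa using h0
    exact (h3.comp (0:ℂ) h2).const_mul c0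
  have h5 := h4.conj_conj
  rw [map_zero] at h5
  have h6 : HasDerivAt (GS (fun z => q (-z)))
      (c0 * (deriv q 0 * (-1)) + (starRingEnd ℂ) (c0 * (deriv q 0 * (-I)))) 0 := h1.add h5
  rw [h6.deriv]
  generalize deriv q 0 = d
  apply Complex.ext <;> simp <;> ring

theorem norm_ps (z : ℂ) : ‖ps z‖ * ‖ps z‖ = √2 * ‖z‖ := by
  rw [← norm_mul, ps_sq, norm_mul]
  congr 1
  rw [Complex.norm_eq_sqrt_sq_add_sq]
  norm_num

theorem T5u {l : Ultrafilter ι} (ha : Tendsto a l (𝓝[>] 0)) {R : ℝ} (hR : 0 < R)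
    {X Y : ι → Site → ℝ} {q : ℂ → ℂ} (hX : ALim l a R X q) (hY : ALim l a R Y fun z => q (-z))
    (hq : DifferentiableOn ℂ q (Metric.ball 0 R))
    (hhX : ∀ᶠ k in l, ∀ x : Site, ‖H170.pt (a k) x‖ < R → x ≠ (0, 0) → slap (X k) x = 0)
    (hhY : ∀ᶠ k in l, ∀ x : Site, ‖H170.pt (a k) x‖ < R → x ≠ (0, 0) → slap (Y k) x = 0)
    (hh0 : ∀ᶠ k in l, slap (Y k) (0, 0) = -2 * X k (0, 0)) :
    Tendsto (fun k => (a k)⁻¹ * (Y k (0, 0) - X k (0, 0))) l
      (𝓝 (-(√(Real.pi / 2) / 2 * ((1 + I) * (c0 * deriv q 0)).re))) := by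
  classical
  have hp := Real.pi_pos
  set g : ℂ → ℂ := fun z => q (-z) with hg
  have hgd : DifferentiableOn ℂ g (Metric.ball 0 R) := by
    refine hq.comp (differentiable_neg.differentiableOn) ?_
    intro z hz
    rw [Metric.mem_ball, dist_zero_right] at hz ⊢
    rwa [norm_neg]
  have hXlim := T1 ha hR hX hq hhX
  set Ainf := √(2 * Real.pi) / 2 * (c0 * q 0).re with hA
  set Q : ι → Site → ℝ := fun k x => Pm (Y k) x - 2 * X k (0, 0) * W x with hQ
  set φ : ℂ → ℝ := fun z => pA g z - 2 * Ainf * w z with hφ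
  set G := GS g with hG
  have hGd : DifferentiableOn ℂ G (Metric.ball 0 R) := GS_diff hgd
  have hs : ∀ k i j, Q k (i, j) = Q k (j, i) := by
    intro k i j
    simp only [hQ]
    rw [Pm_swap (Y k) i j, ← W_swap (i, j)]
    rfl
  have h0 : ∀ k i, i < 0 → Q k (i, i) = 0 := by
    intro k i hi
    simp only [hQ]
    rw [Pm_slit hi, W_slit hi]; ring
  have hh : ∀ᶠ k in l, ∀ x : Site, ‖H170.pt (a k) x‖ < R / 2 → ¬ (x.1 = x.2 ∧ x.1 < 0) →
      H170.lap (Q k) x = 0 := by
    filter_upwards [harm_ev ha hR hhY, hh0] with k hk hk0 x hx hxs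
    simp only [hQ]
    rw [lap_sub', H170.lap_const_mul]
    by_cases hx0 : x = (0, 0)
    · subst hx0
      rw [lap_Pm_diag le_rfl, hk0, W_lap_tip]; ring
    · obtain ⟨i, j⟩ := x
      have hcl : ¬ (i = j ∧ i ≤ 0) := by
        rintro ⟨e1, e2⟩
        subst e1
        rcases e2.eq_or_lt with e3 | e3
        · exact hx0 (by rw [e3])
        · exact hxs ⟨rfl, e3⟩
      rw [W_harm (x := (i, j)) hcl, mul_zero, sub_zero]
      refine lap_Pm hcl ((hk _ hx).1 hx0) ((hk _ hx).2 ?_)
      intro h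
      simp only [Prod.swap_prod_mk, Prod.mk.injEq] at h
      exact hx0 (by rw [h.1, h.2])
  have hc : H170.CConv (l : Filter ι) a {z | z ≠ 0 ∧ ‖z‖ < R / 2}
      (fun k x => (√(a k))⁻¹ * Q k x) φ := by
    have c1 := Pm_cconv ha hY
    have c2 := W_cconv (l := (l : Filter ι)) (a := a) ha
    rw [H170.cconv_iff] at c1 c2 ⊢
    rintro z ⟨hz0, hzR⟩
    have d1 := c1 z ⟨hz0, by linarith⟩
    have d2 := c2 z hz0
    have d3 := ((hXlim.const_mul 2).comp (H170.tendsto_fst_nf (a := a) z)).mul d2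
    refine (d1.sub d3).congr fun kx => ?_
    simp only [Function.comp_apply, hQ]
    ring
  have hAw : ∀ z ∈ US, 2 * Ainf * w z = (G 0 / ps z).re := by
    intro z hz
    rw [w_ps hz, hG, hg, GS_zero, hA]
    have e4 : √(2 * Real.pi) * √(2 / Real.pi) = 2 := by
      rw [← Real.sqrt_mul (by positivity), show 2 * Real.pi * (2 / Real.pi) = 2 ^ 2 by field_simp,
        Real.sqrt_sq (by norm_num)]
    have e5 : (((2 * (c0 * q 0).re : ℝ) : ℂ) / ps z).re = 2 * (c0 * q 0).re * (1 / ps z).re := by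
      rw [div_eq_mul_one_div, re_ofReal_mul]
    rw [e5]
    linear_combination (c0 * q 0).re * (1 / ps z).re * e4
  have hφ1 : ∀ z ∈ US, ‖z‖ < R / 2 → φ z = ((G z - G 0) / ps z).re := by
    intro z hz _
    simp only [hφ]
    rw [pA_eq hz, hAw z hz, sub_div, sub_re]
  have hφ0 : ∀ z, z ∉ US → z ≠ 0 → φ z = 0 := by
    intro z hz hz0
    have hd : z.re = z.im ∧ z.re ≤ 0 := not_not.1 hz
    simp only [hφ]
    rw [pA_slit hz hz0, w_slit hd.1 hd.2]; ring
  set F' : ℂ → ℂ := fun z => (deriv G z - dslope G 0 z / 2) / ps z with hF'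
  have hF : ∀ z ∈ US, ‖z‖ < R / 2 → HasDerivAt (fun z => (G z - G 0) / ps z) (F' z) z := by
    intro z hz hzR
    have hmem : z ∈ Metric.ball (0:ℂ) R := by
      rw [Metric.mem_ball, dist_zero_right]; linarith
    have k1 : HasDerivAt G (deriv G z) z :=
      (hGd.differentiableAt (Metric.isOpen_ball.mem_nhds hmem)).hasDerivAt
    have k2 := (k1.sub_const (G 0)).div (ps_diff hz) (ps_ne hz)
    refine k2.congr_deriv ?_
    have hsl := sub_smul_dslope G 0 z
    rw [sub_zero, smul_eq_mul] at hsl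
    have hps := ps_ne hz
    have hsq := ps_sq z
    simp only [hF']
    rw [← hsl]
    field_simp
    linear_combination (dslope G 0 z) * hsq
  have hdiff := diag_diff ha hs h0 hh hc hφ1 hφ0 hF
  -- bound near the tip
  have hdG : DifferentiableOn ℂ (deriv G) (Metric.ball 0 R) := hGd.deriv Metric.isOpen_ball
  have hdS : DifferentiableOn ℂ (dslope G 0) (Metric.ball 0 R) :=
    (differentiableOn_dslope (Metric.ball_mem_nhds 0 hR)).2 hGd
  obtain ⟨L1, hL10, hL1⟩ := lip_center hR hdG (R' := R / 2) (by linarith)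
  obtain ⟨L2, hL20, hL2⟩ := lip_center hR hdS (R' := R / 2) (by linarith)
  set lam := √(Real.pi / 2) * (-((1 + I) * (c0 * deriv q 0)).re) with hlam
  have e22 : √(Real.pi / 2) * √(2 / Real.pi) = 1 := by
    rw [← Real.sqrt_mul (by positivity), show Real.pi / 2 * (2 / Real.pi) = 1 by field_simp,
      Real.sqrt_one]
  have hlamc : ((lam * √(2 / Real.pi) : ℝ) : ℂ) = (1 + I) * (deriv G 0 - dslope G 0 0 / 2) := by
    rw [dslope_same]
    have h1 := GS_deriv hR hq
    rw [← hg, ← hG] at h1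
    have h2 : (1 + I) * (deriv G 0 - deriv G 0 / 2) = ((1 + I) * deriv G 0) / 2 := by ring
    rw [h2, h1, hlam]
    have h3 : √(Real.pi / 2) * (-((1 + I) * (c0 * deriv q 0)).re) * √(2 / Real.pi) =
        -((1 + I) * (c0 * deriv q 0)).re := by
      linear_combination (-((1 + I) * (c0 * deriv q 0)).re) * e22
    rw [h3]
    push_cast
    ring
  have key := loc_tip (l := (l : Filter ι)) (a := a) ha
    (u := fun k x => (a k)⁻¹ * (Q k x - Q k (x - (1, 1))))
    (U := fun z => if z ∈ US then ((1 + I) * F' z).re else 0) (R := R / 4) (lam := lam)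
    (C := 2 * (L1 + L2) * √R) (by positivity) ?_ ?_ ?_ ?_
  · have h2 := key.div_const 2
    refine (h2.congr fun k => ?_).trans (le_of_eq ?_)
    · have e1 : ((0, 0) : Site) - (1, 1) = (-1, -1) := rfl
      rw [e1, h0 k (-1) (by norm_num)]
      simp only [hQ]
      rw [Pm_tip, W_tip]; ring
    · rw [hlam]; congr 1; ring
  · filter_upwards [hh, ha.eventually self_mem_nhdsWithin,
      (ha.mono_right nhdsWithin_le_nhds).eventually (gt_mem_nhds (by positivity : 0 < R / 8))]
      with k hk hk0 hk1 x hx hxs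
    have hk0' : 0 < a k := hk0
    have e1 : H170.lap (fun x => (a k)⁻¹ * (Q k x - Q k (x - (1, 1)))) x =
        (a k)⁻¹ * (H170.lap (Q k) x - H170.lap (Q k) (x - (1, 1))) := by
      rw [H170.lap_const_mul, lap_sub']
      congr 2
      have := H170.lap_shift (Q k) (-(1, 1)) x
      simpa [sub_eq_add_neg] using this
    rw [e1, hk x (by linarith) fun h => hxs ⟨h.1, h.2.le⟩, hk (x - (1, 1)) ?_ ?_]
    · ring
    · have h3 := H170.pt_sub_norm hk0' (x - (1, 1)) x
      have h4 : ‖H170.pt (a k) (x - (1, 1))‖ ≤ ‖H170.pt (a k) x‖ +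
          ‖H170.pt (a k) (x - (1, 1)) - H170.pt (a k) x‖ := by
        have := norm_add_le (H170.pt (a k) x) (H170.pt (a k) (x - (1, 1)) - H170.pt (a k) x)
        rwa [add_sub_cancel] at this
      have h5 : a k * (|(((x - (1, 1)).1 - x.1 : ℝ))| + |((x - (1, 1)).2 - x.2 : ℝ)|) = a k * 2 := by
        simp only [Prod.fst_sub, Prod.snd_sub]
        push_cast
        rw [sub_sub_cancel_left, sub_sub_cancel_left]
        norm_num
      linarith
    · rintro ⟨g1, g2⟩
      simp only [Prod.fst_sub, Prod.snd_sub] at g1 g2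
      exact hxs ⟨by lia, by lia⟩
  · refine Eventually.of_forall fun k x _ g1 g2 => ?_
    have e1 : x = (x.1, x.1) := Prod.ext rfl g1.symm
    have e2 : x - (1, 1) = (x.1 - 1, x.1 - 1) := by rw [e1]; rfl
    rw [e2, h0 k (x.1 - 1) (by lia), e1, h0 k x.1 g2]
    ring
  · intro z hz
    exact hdiff z ⟨hz.1, lt_of_lt_of_le hz.2 (by linarith)⟩
  · intro z hz0 hzR
    by_cases hz : z ∈ US
    · simp only [if_pos hz]
      rw [w_ps hz]
      have hz' : 0 < ‖z‖ := norm_pos_iff.2 hz0
      have hps : 0 < ‖ps z‖ := norm_pos_iff.2 (ps_ne hz)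
      have e3 : ((1 + I) * F' z).re - lam * (√(2 / Real.pi) * (1 / ps z).re) =
          ((1 + I) * ((deriv G z - deriv G 0) - (dslope G 0 z - dslope G 0 0) / 2) / ps z).re := by
        have h1 : lam * (√(2 / Real.pi) * (1 / ps z).re) =
            (((1 + I) * (deriv G 0 - dslope G 0 0 / 2)) / ps z).re := by
          rw [← hlamc, div_eq_mul_one_div (((lam * √(2 / Real.pi) : ℝ) : ℂ)) (ps z), re_ofReal_mul]
          ring
        rw [h1, ← sub_re]
        congr 1
        simp only [hF']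
        ring
      rw [e3]
      refine (abs_re_le_norm _).trans ?_
      rw [norm_div, norm_mul]
      have h1 := hL1 z (by linarith)
      have h2 := hL2 z (by linarith)
      have h3 : ‖(1 + I : ℂ)‖ ≤ 2 := by
        refine (norm_add_le _ _).trans ?_
        rw [norm_one, norm_I]; norm_num
      have h4 : ‖(deriv G z - deriv G 0) - (dslope G 0 z - dslope G 0 0) / 2‖ ≤
          (L1 + L2) * ‖z‖ := by
        refine (norm_sub_le _ _).trans ?_
        rw [norm_div, RCLike.norm_ofNat]
        have : 0 ≤ L2 * ‖z‖ := by positivity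
        linarith
      rw [div_le_iff₀ hps]
      have h5 : ‖z‖ ≤ √R * ‖ps z‖ := by
        have h6 := norm_ps z
        have h7 : ‖z‖ * ‖z‖ ≤ (√R * ‖ps z‖) * (√R * ‖ps z‖) := by
          have : (√R * ‖ps z‖) * (√R * ‖ps z‖) = (√R * √R) * (‖ps z‖ * ‖ps z‖) := by ring
          rw [this, Real.mul_self_sqrt hR.le, h6]
          have := one_le_s2
          have : ‖z‖ ≤ √2 * ‖z‖ := by nlinarith
          nlinarith
        exact (mul_self_le_mul_self_iff (norm_nonneg _) (by positivity)).2 h7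
      calc ‖(1 + I : ℂ)‖ * ‖(deriv G z - deriv G 0) - (dslope G 0 z - dslope G 0 0) / 2‖
          ≤ 2 * ((L1 + L2) * ‖z‖) := by gcongr
        _ ≤ 2 * ((L1 + L2) * (√R * ‖ps z‖)) := by gcongr
        _ = 2 * (L1 + L2) * √R * ‖ps z‖ := by ring
    · simp only [if_neg hz]
      have hd : z.re = z.im ∧ z.re ≤ 0 := not_not.1 hz
      rw [w_slit hd.1 hd.2]
      simp only [mul_zero, sub_zero, abs_zero]
      positivity

end Vale.Agent.P144.H365
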