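import Vale.Agent.P144.H365.Sym

/-!
The limit of a symmetrized spinor near a branch point.
-/

namespace Vale.Agent.P144.H365

open MeasureTheory Filter Topology Vale.Agent.P144 Complex

section roots

/-- A square root of `1 - i`. -/
noncomputable def c0 : ℂ := ⟨√((√2 + 1) / 2), -√((√2 - 1) / 2)⟩

theorem s22 : √2 * √2 = 2 := Real.mul_self_sqrt (by norm_num)

theorem one_le_s2 : 1 ≤ √2 := by rw [Real.one_le_sqrt]; norm_num

theorem c0_re : 0 < c0.re := by
  unfold c0; simp only; exact Real.sqrt_pos.2 (by have := one_le_s2; linarith)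

theorem c0_im : c0.im < 0 := by
  unfold c0; simp only
  have : 0 < √((√2 - 1) / 2) := by
    refine Real.sqrt_pos.2 ?_
    have h : 1 < √2 := by rw [Real.lt_sqrt (by norm_num)]; norm_num
    linarith
  linarith

theorem c0_re_sq : c0.re * c0.re = (√2 + 1) / 2 := by
  unfold c0; simp only; exact Real.mul_self_sqrt (by have := one_le_s2; linarith)

theorem c0_im_sq : c0.im * c0.im = (√2 - 1) / 2 := by
  unfold c0; simp only; rw [neg_mul_neg]; exact Real.mul_self_sqrt (by have := one_le_s2; linarith)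

theorem c0_rel : c0.re = -c0.im * (1 + √2) := by
  have h1 := c0_re
  have h2 := c0_im
  have e1 := c0_re_sq
  have e2 := c0_im_sq
  have h3 := s22
  have : c0.re ^ 2 = (-c0.im * (1 + √2)) ^ 2 := by
    have : (-c0.im * (1 + √2)) ^ 2 = (c0.im * c0.im) * (1 + 2 * √2 + √2 * √2) := by ring
    rw [this, e2, pow_two, e1, h3]
    linear_combination (-1) * h3
  exact (pow_left_inj₀ h1.le (mul_nonneg (by linarith) (by positivity)) two_ne_zero).1 this

theorem c0_sq : c0 ^ 2 = 1 - I := by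
  have e1 := c0_re_sq
  have e2 := c0_im_sq
  have e3 := c0_rel
  have h3 := s22
  apply Complex.ext
  · simp only [pow_two, mul_re, sub_re, one_re, I_re]
    linarith
  · simp only [pow_two, mul_im, sub_im, one_im, I_im]
    rw [e3]
    linear_combination (-2 * (1 + √2)) * e2 + (-1) * h3

theorem rtd_half (z : ℂ) : 0 ≤ (H170.rtd z).re + (H170.rtd z).im := by
  unfold H170.rtd
  have h := sqrt_re_nonneg (x := -I * z)
  set u := (-I * z) ^ (1 / 2 : ℂ)
  have e : exp (Real.pi / 4 * I) = ⟨√2 / 2, √2 / 2⟩ := by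
    rw [show (Real.pi:ℂ) / 4 * I = ((Real.pi / 4 : ℝ) : ℂ) * I by push_cast; ring, exp_mul_I,
      ← ofReal_cos, ← ofReal_sin, Real.cos_pi_div_four, Real.sin_pi_div_four]
    apply Complex.ext <;> simp
  rw [e, mul_re, mul_im]
  simp only
  have : 0 ≤ √2 * u.re := by positivity
  linarith

theorem rtu_half (z : ℂ) : 0 ≤ (H170.rtu z).re - (H170.rtu z).im := by
  unfold H170.rtu
  have h := sqrt_re_nonneg (x := I * z)
  set u := (I * z) ^ (1 / 2 : ℂ)
  have e : exp (-(Real.pi / 4 * I)) = ⟨√2 / 2, -(√2 / 2)⟩ := by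
    rw [show -((Real.pi:ℂ) / 4 * I) = ((-(Real.pi / 4) : ℝ) : ℂ) * I by push_cast; ring, exp_mul_I,
      ← ofReal_cos, ← ofReal_sin, Real.cos_neg, Real.sin_neg, Real.cos_pi_div_four,
      Real.sin_pi_div_four]
    apply Complex.ext <;> simp
  rw [e, mul_re, mul_im]
  simp only
  have : 0 ≤ √2 * u.re := by positivity
  linarith

/-- Above the diagonal. -/
theorem quad_up {r : ℂ} (h : 0 ≤ r.re + r.im) (h1 : (r * r).re ≤ (r * r).im) :
    0 ≤ (c0 * r).re ∧ 0 ≤ (c0 * r).im := by
  rw [mul_re, mul_im] at h1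
  have h3 := s22
  have hs := one_le_s2
  have ci := c0_im
  have e3 := c0_rel
  have key : √2 * |r.re| ≤ r.re + r.im := by
    refine abs_le_of_sq_le_sq' ?_ h |>.2
    rw [mul_pow, sq_abs, pow_two √2, h3]
    nlinarith
  rw [mul_re, mul_im, e3]
  rcases le_total 0 r.re with hr | hr
  · rw [abs_of_nonneg hr] at key
    have h4 : (√2 - 1) * r.re ≤ r.im := by linarith
    have h5 : 0 ≤ r.im := le_trans (mul_nonneg (by linarith) hr) h4
    constructor
    · have : 0 ≤ -c0.im * (1 + √2) * r.re := by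
        have : 0 ≤ -c0.im := by linarith
        positivity
      have h6 : 0 ≤ -c0.im * r.im := mul_nonneg (by linarith) h5
      linarith
    · have h6 : r.re ≤ (1 + √2) * r.im := by
        have := mul_le_mul_of_nonneg_left h4 (by linarith : (0:ℝ) ≤ 1 + √2)
        nlinarith
      have h7 := mul_le_mul_of_nonneg_left h6 (by linarith : (0:ℝ) ≤ -c0.im)
      linarith
  · rw [abs_of_nonpos hr] at key
    have h4 : (1 + √2) * -r.re ≤ r.im := by linarith
    have h5 : 0 ≤ r.im := le_trans (mul_nonneg (by linarith) (by linarith)) h4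
    constructor
    · have := mul_le_mul_of_nonneg_left h4 (by linarith : (0:ℝ) ≤ -c0.im)
      linarith
    · have h6 : 0 ≤ -c0.im * (1 + √2) * r.im := by
        have : 0 ≤ -c0.im := by linarith
        positivity
      have h7 : 0 ≤ -c0.im * -r.re := mul_nonneg (by linarith) (by linarith)
      linarith

/-- Below the diagonal. -/
theorem quad_down {r : ℂ} (h : 0 ≤ r.re - r.im) (h1 : (r * r).im ≤ (r * r).re) :
    0 ≤ (c0 * r).re ∧ (c0 * r).im ≤ 0 := by
  rw [mul_re, mul_im] at h1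
  have h3 := s22
  have hs := one_le_s2
  have ci := c0_im
  have e3 := c0_rel
  have key : √2 * |r.im| ≤ r.re - r.im := by
    refine abs_le_of_sq_le_sq' ?_ h |>.2
    rw [mul_pow, sq_abs, pow_two √2, h3]
    nlinarith
  rw [mul_re, mul_im, e3]
  rcases le_total 0 r.im with hr | hr
  · rw [abs_of_nonneg hr] at key
    have h4 : (1 + √2) * r.im ≤ r.re := by linarith
    have h5 : 0 ≤ r.re := le_trans (mul_nonneg (by linarith) hr) h4
    constructor
    · have : 0 ≤ -c0.im * (1 + √2) * r.re := by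
        have : 0 ≤ -c0.im := by linarith
        positivity
      have h6 : 0 ≤ -c0.im * r.im := mul_nonneg (by linarith) hr
      linarith
    · have h7 := mul_le_mul_of_nonneg_left h4 (by linarith : (0:ℝ) ≤ -c0.im)
      linarith
  · rw [abs_of_nonpos hr] at key
    have h4 : (√2 - 1) * -r.im ≤ r.re := by linarith
    have h5 : 0 ≤ r.re := le_trans (mul_nonneg (by linarith) (by linarith)) h4
    constructor
    · have h6 : -r.im ≤ (1 + √2) * r.re := by
        have := mul_le_mul_of_nonneg_left h4 (by linarith : (0:ℝ) ≤ 1 + √2)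
        nlinarith
      have h7 := mul_le_mul_of_nonneg_left h6 (by linarith : (0:ℝ) ≤ -c0.im)
      linarith
    · have h6 : -c0.im * (1 + √2) * r.im ≤ 0 :=
        mul_nonpos_of_nonneg_of_nonpos (mul_nonneg (by linarith) (by linarith)) hr
      have h7 : 0 ≤ -c0.im * r.re := mul_nonneg (by linarith) h5
      linarith

end roots

/-- The point above the diagonal. -/
noncomputable def mu (z : ℂ) : ℂ := ⟨min z.re z.im, max z.re z.im⟩

/-- The point below the diagonal. -/
noncomputable def md (z : ℂ) : ℂ := ⟨max z.re z.im, min z.re z.im⟩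

theorem mu_cont : Continuous mu := by
  have : mu = fun z : ℂ => ((min z.re z.im : ℝ) : ℂ) + ((max z.re z.im : ℝ) : ℂ) * I := by
    funext z; apply Complex.ext <;> simp [mu]
  rw [this]
  fun_prop

theorem md_cont : Continuous md := by
  have : md = fun z : ℂ => ((max z.re z.im : ℝ) : ℂ) + ((min z.re z.im : ℝ) : ℂ) * I := by
    funext z; apply Complex.ext <;> simp [md]
  rw [this]
  fun_prop

theorem md_eq (z : ℂ) : md z = I * (starRingEnd ℂ) (mu z) := by
  apply Complex.ext <;> simp [md, mu]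

theorem norm_mu (z : ℂ) : ‖mu z‖ = ‖z‖ := by
  rw [Complex.norm_eq_sqrt_sq_add_sq, Complex.norm_eq_sqrt_sq_add_sq]
  unfold mu
  simp only
  congr 1
  rcases le_total z.re z.im with h | h
  · rw [min_eq_left h, max_eq_right h]
  · rw [min_eq_right h, max_eq_left h]; ring

theorem norm_md (z : ℂ) : ‖md z‖ = ‖z‖ := by
  rw [md_eq, norm_mul, norm_I, one_mul, norm_conj, norm_mu]

theorem mu_ne {z : ℂ} (hz : z ≠ 0) : mu z ≠ 0 := by
  rw [← norm_pos_iff, norm_mu]; exact norm_pos_iff.2 hz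

theorem md_ne {z : ℂ} (hz : z ≠ 0) : md z ≠ 0 := by
  rw [← norm_pos_iff, norm_md]; exact norm_pos_iff.2 hz

theorem w_mu (z : ℂ) : w (mu z) = w z := by
  unfold w
  rw [norm_mu]
  unfold mu
  simp only
  rw [min_add_max]

theorem rtd_mu_cont {z : ℂ} (hz : z ≠ 0) : ContinuousAt H170.rtd (mu z) := by
  refine (H170.rtd_diff ?_).continuousAt
  by_contra hc
  push Not at hc
  obtain ⟨h1, h2⟩ := hc
  apply mu_ne hz
  unfold mu at h1 h2 ⊢
  simp only at h1 h2
  have h3 : min z.re z.im ≤ max z.re z.im := min_le_max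
  exact Complex.ext h1 (by simp only [zero_im]; linarith)

theorem rtu_md_cont {z : ℂ} (hz : z ≠ 0) : ContinuousAt H170.rtu (md z) := by
  refine (H170.rtu_diff ?_).continuousAt
  by_contra hc
  push Not at hc
  obtain ⟨h1, h2⟩ := hc
  apply md_ne hz
  unfold md at h1 h2 ⊢
  simp only at h1 h2
  have h3 : min z.re z.im ≤ max z.re z.im := min_le_max
  exact Complex.ext h1 (by simp only [zero_im]; linarith)

/-- The two roots are conjugate to each other. -/
theorem root_conj (z : ℂ) : c0 * H170.rtu (md z) = (starRingEnd ℂ) (c0 * H170.rtd (mu z)) := by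
  have h1 := H170.rtd_mul_self (mu z)
  have h2 := H170.rtu_mul_self (md z)
  have q1 := quad_up (r := H170.rtd (mu z)) (rtd_half _) (by rw [h1]; exact min_le_max)
  have q2 := quad_down (r := H170.rtu (md z)) (rtu_half _) (by rw [h2]; exact min_le_max)
  set P := c0 * H170.rtu (md z) with hP
  set Q := c0 * H170.rtd (mu z) with hQ
  have e1 : P * P = (1 - I) * md z := by
    rw [hP, mul_mul_mul_comm, h2, ← pow_two, c0_sq]
  have e2 : Q * Q = (1 - I) * mu z := by
    rw [hQ, mul_mul_mul_comm, h1, ← pow_two, c0_sq]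
  have e3 : P * P = (starRingEnd ℂ) Q * (starRingEnd ℂ) Q := by
    rw [← map_mul, e2, e1, md_eq, map_mul]
    simp only [map_sub, map_one, conj_I]
    ring_nf
    rw [I_sq]; ring
  rcases mul_self_eq_mul_self_iff.1 e3 with h | h
  · exact h
  · have r1 := congrArg re h
    have r2 := congrArg im h
    simp only [neg_re, neg_im, conj_re, conj_im] at r1 r2
    have a1 : P.re = 0 := by linarith [q1.1, q2.1]
    have a2 : P.im = 0 := by linarith [q1.2, q2.2]
    have a3 : Q.re = 0 := by linarith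
    have a4 : Q.im = 0 := by linarith
    apply Complex.ext
    · rw [a1, conj_re, a3]
    · rw [a2, conj_im, a4, neg_zero]

/-- The limit of a symmetrized spinor. -/
noncomputable def pA (g : ℂ → ℂ) (z : ℂ) : ℝ :=
  (g (mu z) / H170.rtd (mu z)).re + (g (md z) / H170.rtu (md z)).re

theorem w_root {z : ℂ} (hz : z ≠ 0) : w z = √(2 / Real.pi) * (1 / (c0 * H170.rtd (mu z))).re := by
  rw [← w_mu z]
  refine w_eq (mu_ne hz) ?_ ?_
  · rw [pow_two, mul_mul_mul_comm, H170.rtd_mul_self, ← pow_two, c0_sq]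
  · exact (quad_up (r := H170.rtd (mu z)) (rtd_half _) (by rw [H170.rtd_mul_self]; exact min_le_max)).1

theorem c0_ne : c0 ≠ 0 := fun h => by
  have := c0_re; rw [h] at this; simp at this

/-- The main part. -/
theorem pA_const {z : ℂ} (hz : z ≠ 0) (g0 : ℂ) :
    (g0 / H170.rtd (mu z)).re + (g0 / H170.rtu (md z)).re =
      √(2 * Real.pi) * (c0 * g0).re * w z := by
  have hp := Real.pi_pos
  have hc := c0_ne
  have hr1 : H170.rtd (mu z) ≠ 0 := H170.rtd_ne (mu_ne hz)
  have hr2 : H170.rtu (md z) ≠ 0 := H170.rtu_ne (md_ne hz)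
  have e1 : g0 / H170.rtd (mu z) = (c0 * g0) * (1 / (c0 * H170.rtd (mu z))) := by field_simp
  have e2 : g0 / H170.rtu (md z) = (c0 * g0) * (1 / (c0 * H170.rtu (md z))) := by field_simp
  rw [w_root hz, e1, e2, root_conj]
  generalize c0 * H170.rtd (mu z) = s
  generalize c0 * g0 = q
  have e3 : (1 / (starRingEnd ℂ) s) = (starRingEnd ℂ) (1 / s) := by rw [map_div₀, map_one]
  rw [e3]
  generalize 1 / s = t
  rw [mul_re, mul_re, conj_re, conj_im]
  have e4 : √(2 * Real.pi) * √(2 / Real.pi) = 2 := by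
    rw [← Real.sqrt_mul (by positivity), show 2 * Real.pi * (2 / Real.pi) = 2 ^ 2 by field_simp,
      Real.sqrt_sq (by norm_num)]
  linear_combination (-(q.re * t.re)) * e4

theorem pA_bound {g : ℂ → ℂ} {R L : ℝ} (hg : ∀ z : ℂ, ‖z‖ < R → ‖g z - g 0‖ ≤ L * ‖z‖)
    (hL : 0 ≤ L) {z : ℂ} (hz : z ≠ 0) (hR : ‖z‖ < R) :
    |pA g z - √(2 * Real.pi) * (c0 * g 0).re * w z| ≤ 2 * L * √R := by
  have hz' : 0 < ‖z‖ := norm_pos_iff.2 hz
  rw [← pA_const hz]
  unfold pA
  have key : ∀ y r : ℂ, ‖y‖ = ‖z‖ → ‖r‖ = √‖z‖ → |(g y / r).re - (g 0 / r).re| ≤ L * √R := by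
    intro y r hy hr
    rw [← sub_re, ← sub_div]
    refine (abs_re_le_norm _).trans ?_
    rw [norm_div, hr]
    have h1 := hg y (by rw [hy]; exact hR)
    rw [hy] at h1
    rw [div_le_iff₀ (Real.sqrt_pos.2 hz')]
    calc ‖g y - g 0‖ ≤ L * ‖z‖ := h1
      _ = L * √‖z‖ * √‖z‖ := by rw [mul_assoc, Real.mul_self_sqrt hz'.le]
      _ ≤ L * √R * √‖z‖ := by gcongr
  have k1 := key (mu z) (H170.rtd (mu z)) (norm_mu z) (by rw [H170.norm_rtd, norm_mu])
  have k2 := key (md z) (H170.rtu (md z)) (norm_md z) (by rw [H170.norm_rtu, norm_md])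
  have e : (g (mu z) / H170.rtd (mu z)).re + (g (md z) / H170.rtu (md z)).re -
      ((g 0 / H170.rtd (mu z)).re + (g 0 / H170.rtu (md z)).re) =
      ((g (mu z) / H170.rtd (mu z)).re - (g 0 / H170.rtd (mu z)).re) +
      ((g (md z) / H170.rtu (md z)).re - (g 0 / H170.rtu (md z)).re) := by ring
  rw [e]
  refine (abs_add_le _ _).trans ?_
  linarith

variable {ι : Type*} {l : Filter ι} {a : ι → ℝ}

/-- The limit of the field `X` near the branch point `0` is given by `g`. -/
def ALim (l : Filter ι) (a : ι → ℝ) (R : ℝ) (X : ι → Site → ℝ) (g : ℂ → ℂ) : Prop :=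
  ∀ z : ℂ, z ≠ 0 → ‖z‖ < R → Tendsto (fun kx : ι × Site => (√(a kx.1))⁻¹ * X kx.1 kx.2 -
    (g z / H170.rtd (H170.pos (a kx.1) kx.2 (1 / 4) (1 / 4))).re) (H170.nf l a z) (𝓝 0)

theorem nf_map (ha : Tendsto a l (𝓝[>] 0)) {F : Site → Site} {G : ℂ → ℂ} (hG : Continuous G)
    (hFG : ∀ b : ℝ, 0 < b → ∀ x, H170.pt b (F x) = G (H170.pt b x)) (z : ℂ) :
    Tendsto (fun kx : ι × Site => (kx.1, F kx.2)) (H170.nf l a z) (H170.nf l a (G z)) := by
  unfold H170.nf
  refine tendsto_inf.2 ⟨?_, ?_⟩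
  · exact (H170.tendsto_fst_nf z).prodMk tendsto_top
  · rw [tendsto_comap_iff]
    have h1 := (hG.tendsto z).comp (H170.tendsto_pt_nf (l := l) (a := a) z)
    refine h1.congr' ?_
    filter_upwards [H170.apos_nf ha z] with kx hk
    exact (hFG _ hk _).symm

theorem pt_mu {b : ℝ} (hb : 0 < b) (x : Site) :
    H170.pt b (min x.1 x.2, max x.1 x.2) = mu (H170.pt b x) := by
  apply Complex.ext
  · simp only [H170.pt, mu]
    push_cast
    exact mul_min_of_nonneg _ _ hb.le
  · simp only [H170.pt, mu]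
    push_cast
    exact mul_max_of_nonneg _ _ hb.le

theorem pt_md {b : ℝ} (hb : 0 < b) (x : Site) :
    H170.pt b (max x.1 x.2, min x.1 x.2) = md (H170.pt b x) := by
  apply Complex.ext
  · simp only [H170.pt, md]
    push_cast
    exact mul_max_of_nonneg _ _ hb.le
  · simp only [H170.pt, md]
    push_cast
    exact mul_min_of_nonneg _ _ hb.le

theorem sg_sgn {b : ℝ} (hb : 0 < b) (i : ℤ) : H170.sg (b * (i + 1 / 4)) = sgn i := by
  unfold H170.sg sgn
  by_cases h : i < 0
  · have : (i:ℝ) ≤ -1 := by exact_mod_cast (by lia : i ≤ -1)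
    rw [if_pos h, if_neg (by nlinarith)]
  · have : (0:ℝ) ≤ i := by exact_mod_cast (not_lt.1 h)
    rw [if_neg h, if_pos (by positivity)]

theorem Pm_cconv (ha : Tendsto a l (𝓝[>] 0)) {R : ℝ} {X : ι → Site → ℝ} {g : ℂ → ℂ}
    (hX : ALim l a R X g) :
    H170.CConv l a {z | z ≠ 0 ∧ ‖z‖ < R} (fun k x => (√(a k))⁻¹ * Pm (X k) x) (pA g) := by
  rw [H170.cconv_iff]
  rintro z ⟨hz, hzR⟩
  have h1 := (hX (mu z) (mu_ne hz) (by rwa [norm_mu])).comp (nf_map ha mu_cont
    (F := fun x => (min x.1 x.2, max x.1 x.2)) (fun b hb x => pt_mu hb x) z)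
  have h2 := (hX (md z) (md_ne hz) (by rwa [norm_md])).comp (nf_map ha md_cont
    (F := fun x => (max x.1 x.2, min x.1 x.2)) (fun b hb x => pt_md hb x) z)
  have p1 := (H170.pos_nf ha (mu z) (1 / 4) (1 / 4)).comp (nf_map ha mu_cont
    (F := fun x => (min x.1 x.2, max x.1 x.2)) (fun b hb x => pt_mu hb x) z)
  have p2 := (H170.pos_nf ha (md z) (1 / 4) (1 / 4)).comp (nf_map ha md_cont
    (F := fun x => (max x.1 x.2, min x.1 x.2)) (fun b hb x => pt_md hb x) z)
  have r1 := (continuous_re.tendsto _).comp ((tendsto_const_nhds (x := g (mu z))).div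
    ((rtd_mu_cont hz).tendsto.comp p1) (H170.rtd_ne (mu_ne hz)))
  have r2 := (continuous_re.tendsto _).comp ((tendsto_const_nhds (x := g (md z))).div
    ((rtu_md_cont hz).tendsto.comp p2) (H170.rtu_ne (md_ne hz)))
  have h1' := h1.add r1
  rw [zero_add] at h1'
  have h3 : Tendsto (fun kx : ι × Site => sgn (max kx.2.1 kx.2.2) *
      ((√(a kx.1))⁻¹ * X kx.1 (max kx.2.1 kx.2.2, min kx.2.1 kx.2.2) -
      (g (md z) / H170.rtd (H170.pos (a kx.1) (max kx.2.1 kx.2.2, min kx.2.1 kx.2.2)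
        (1 / 4) (1 / 4))).re)) (H170.nf l a z) (𝓝 0) := by
    rw [tendsto_zero_iff_norm_tendsto_zero] at h2 ⊢
    refine h2.congr fun kx => ?_
    rw [norm_mul]
    have : ‖sgn (max kx.2.1 kx.2.2)‖ = 1 := by
      unfold sgn; split_ifs <;> simp
    rw [this, one_mul]
    rfl
  have h2' := h3.add r2
  rw [zero_add] at h2'
  refine (h1'.add h2').congr' ?_
  filter_upwards [H170.apos_nf ha z] with kx hk
  simp only [Function.comp_apply, Pm, Pi.div_apply]
  set M := max kx.2.1 kx.2.2 with hM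
  set N := min kx.2.1 kx.2.2 with hN
  have hre : (H170.pos (a kx.1) (M, N) (1 / 4) (1 / 4)).re = a kx.1 * (M + 1 / 4) := rfl
  have hne : (H170.pos (a kx.1) (M, N) (1 / 4) (1 / 4)).re ≠ 0 := by
    rw [hre]
    intro h
    rcases mul_eq_zero.1 h with h | h
    · exact hk.ne' h
    · have : (4 * M + 1 : ℝ) = 0 := by linarith
      have h' : 4 * M + 1 = 0 := by exact_mod_cast this
      lia
  have e := H170.rtd_eq_sg hne
  rw [hre, sg_sgn hk] at e
  rw [e]
  have hs := sgn_sq M
  have e2 : (g (md z) / ((sgn M : ℂ) * H170.rtu (H170.pos (a kx.1) (M, N) (1 / 4) (1 / 4)))).re =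
      sgn M * (g (md z) / H170.rtu (H170.pos (a kx.1) (M, N) (1 / 4) (1 / 4))).re := by
    rw [← re_ofReal_mul]
    congr 1
    have hs' : (sgn M : ℂ) * (sgn M : ℂ) = 1 := by exact_mod_cast hs
    have hinv : (sgn M : ℂ)⁻¹ = sgn M := inv_eq_of_mul_eq_one_left hs'
    rw [div_eq_mul_inv, mul_inv, hinv, div_eq_mul_inv]
    ring
  rw [e2]
  linear_combination (-(g (md z) / H170.rtu (H170.pos (a kx.1) (M, N) (1 / 4) (1 / 4))).re) * hs

end Vale.Agent.P144.H365
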