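import Vale.Agent.P144.H365.Branch
import Mathlib.Analysis.Complex.RemovableSingularity
import Mathlib.Analysis.Calculus.Deriv.Star

/-!
The two leading coefficients at a branch point.
-/

namespace Vale.Agent.P144.H365

open MeasureTheory Filter Topology Vale.Agent.P144 Complex

variable {ι : Type*} {l : Filter ι} {a : ι → ℝ}

/-- A holomorphic function is Lipschitz at the centre. -/
theorem lip_center {g : ℂ → ℂ} {R : ℝ} (hR : 0 < R) (hg : DifferentiableOn ℂ g (Metric.ball 0 R))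
    {R' : ℝ} (hR' : R' < R) : ∃ L, 0 ≤ L ∧ ∀ z : ℂ, ‖z‖ < R' → ‖g z - g 0‖ ≤ L * ‖z‖ := by
  have h1 : DifferentiableOn ℂ (dslope g 0) (Metric.ball 0 R) :=
    (differentiableOn_dslope (Metric.ball_mem_nhds 0 hR)).2 hg
  have h2 : ContinuousOn (dslope g 0) (Metric.closedBall 0 R') :=
    h1.continuousOn.mono (Metric.closedBall_subset_ball hR')
  obtain ⟨L, hL⟩ := (isCompact_closedBall (0:ℂ) R').exists_bound_of_continuousOn h2
  refine ⟨max L 0, le_max_right _ _, fun z hz => ?_⟩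
  have h3 := sub_smul_dslope g 0 z
  rw [sub_zero, smul_eq_mul] at h3
  rw [← h3, norm_mul, mul_comm]
  gcongr
  refine (hL z ?_).trans (le_max_left _ _)
  rw [Metric.mem_closedBall, dist_zero_right]
  exact hz.le

theorem harm_ev (ha : Tendsto a l (𝓝[>] 0)) {R : ℝ} (hR : 0 < R) {P : ι → Site → Prop}
    (h : ∀ᶠ k in l, ∀ x : Site, ‖H170.pt (a k) x‖ < R → P k x) :
    ∀ᶠ k in l, ∀ x : Site, ‖H170.pt (a k) x‖ < R / 2 → P k x ∧ P k x.swap := by
  filter_upwards [h] with k hk x hx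
  refine ⟨hk x (by linarith), hk _ ?_⟩
  have : ‖H170.pt (a k) x.swap‖ = ‖H170.pt (a k) x‖ := by
    rw [Complex.norm_eq_sqrt_sq_add_sq, Complex.norm_eq_sqrt_sq_add_sq]
    simp only [H170.pt, Prod.fst_swap, Prod.snd_swap]
    congr 1; ring
  rw [this]; linarith

/-- The leading coefficient. -/
theorem T1 (ha : Tendsto a l (𝓝[>] 0)) {R : ℝ} (hR : 0 < R) {X : ι → Site → ℝ} {g : ℂ → ℂ}
    (hX : ALim l a R X g) (hg : DifferentiableOn ℂ g (Metric.ball 0 R))
    (hh : ∀ᶠ k in l, ∀ x : Site, ‖H170.pt (a k) x‖ < R → x ≠ (0, 0) → slap (X k) x = 0) :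
    Tendsto (fun k => X k (0, 0)) l (𝓝 (√(2 * Real.pi) / 2 * (c0 * g 0).re)) := by
  obtain ⟨L, hL0, hL⟩ := lip_center hR hg (R' := R / 2) (by linarith)
  have hh2 := harm_ev ha hR hh
  have key := loc_tip (l := l) (a := a) ha (u := fun k => Pm (X k)) (U := pA g) (R := R / 2)
    (lam := √(2 * Real.pi) * (c0 * g 0).re) (C := 2 * L * √(R / 2)) (by positivity) ?_ ?_ ?_ ?_
  · have h2 := key.div_const 2
    refine (h2.congr fun k => ?_).trans (le_of_eq ?_)
    · rw [Pm_tip]; ring
    · congr 1; ring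
  · filter_upwards [hh2] with k hk x hx hs
    obtain ⟨i, j⟩ := x
    have := hk (i, j) hx
    have hne : ((i, j) : Site) ≠ (0, 0) := by
      rintro h
      rw [Prod.mk.injEq] at h
      exact hs ⟨by simp only; rw [h.1, h.2], by simp only; rw [h.1]⟩
    refine lap_Pm hs (this.1 hne) (this.2 ?_)
    rintro h
    simp only [Prod.swap_prod_mk, Prod.mk.injEq] at h
    exact hne (by rw [h.1, h.2])
  · refine Eventually.of_forall fun k x _ h1 h2 => ?_
    have : x = (x.1, x.1) := Prod.ext rfl h1.symm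
    rw [this]; exact Pm_slit h2
  · intro z hz
    exact Pm_cconv ha hX z ⟨hz.1, lt_of_lt_of_le hz.2 (by linarith)⟩
  · intro z hz hzR
    exact pA_bound hL hL0 hz hzR

/-- The principal root. -/
noncomputable def ps (z : ℂ) : ℂ := ((1 - I) * z) ^ (1 / 2 : ℂ)

theorem US_slit {z : ℂ} (hz : z ∈ US) : (1 - I) * z ∈ slitPlane := by
  rw [mem_slitPlane_iff]
  simp only [mul_re, sub_re, one_re, I_re, sub_im, one_im, I_im, mul_im]
  by_contra hc
  push Not at hc
  obtain ⟨h1, h2⟩ := hc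
  exact hz ⟨by linarith, by linarith⟩

theorem ps_sq (z : ℂ) : ps z * ps z = (1 - I) * z := H170.cpow_half_mul _

theorem ps_re {z : ℂ} (hz : z ∈ US) : 0 < (ps z).re := by
  have h1 : 0 ≤ (ps z).re := sqrt_re_nonneg
  refine lt_of_le_of_ne h1 fun h => ?_
  have h2 := ps_sq z
  have h3 := US_slit hz
  rw [← h2, mem_slitPlane_iff, mul_re, mul_im, ← h] at h3
  rcases h3 with h3 | h3
  · nlinarith [mul_self_nonneg (ps z).im]
  · apply h3; ring

theorem ps_ne {z : ℂ} (hz : z ∈ US) : ps z ≠ 0 := fun h => by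
  have := ps_re hz; rw [h] at this; simp at this

theorem ps_unique {z r : ℂ} (hz : z ∈ US) (h : r * r = (1 - I) * z) (h0 : 0 ≤ r.re) : r = ps z := by
  rw [← ps_sq] at h
  rcases mul_self_eq_mul_self_iff.1 h with h1 | h1
  · exact h1
  · have := ps_re hz
    rw [h1, neg_re] at h0
    linarith

theorem ps_diff {z : ℂ} (hz : z ∈ US) : HasDerivAt ps ((1 - I) / (2 * ps z)) z := by
  have h1 : DifferentiableAt ℂ ps z := by
    unfold ps
    exact DifferentiableAt.cpow_const (by fun_prop) (US_slit hz)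
  have h2 := h1.hasDerivAt
  have h3 := h2.mul h2
  have h4 : HasDerivAt (fun y => (1 - I) * y) (1 - I) z := by
    simpa using (hasDerivAt_id z).const_mul (1 - I)
  have h5 : (fun y => ps y * ps y) = fun y => (1 - I) * y := by funext y; exact ps_sq y
  have h6 : HasDerivAt (fun y => ps y * ps y) (deriv ps z * ps z + ps z * deriv ps z) z := h3
  rw [h5] at h6
  have h7 := h6.unique h4
  have h8 := ps_ne hz
  have h9 : (1 - I) / (2 * ps z) = deriv ps z := by
    rw [← h7]; field_simp; ring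
  rw [h9]; exact h2

/-- The symmetrized function. -/
noncomputable def GS (g : ℂ → ℂ) (z : ℂ) : ℂ :=
  c0 * g z + (starRingEnd ℂ) (c0 * g (I * (starRingEnd ℂ) z))

theorem mu_of_le {z : ℂ} (h : z.re ≤ z.im) : mu z = z := by
  apply Complex.ext <;> simp [mu, h]

theorem mu_of_ge {z : ℂ} (h : z.im ≤ z.re) : mu z = I * (starRingEnd ℂ) z := by
  apply Complex.ext <;> simp [mu, h]

theorem md_of_le {z : ℂ} (h : z.re ≤ z.im) : md z = I * (starRingEnd ℂ) z := by
  rw [md_eq, mu_of_le h]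

theorem md_of_ge {z : ℂ} (h : z.im ≤ z.re) : md z = z := by
  apply Complex.ext <;> simp [md, h]

theorem pA_eq {g : ℂ → ℂ} {z : ℂ} (hz : z ∈ US) : pA g z = (GS g z / ps z).re := by
  have hz0 := US_ne hz
  have q1 := quad_up (r := H170.rtd (mu z)) (rtd_half _)
    (by rw [H170.rtd_mul_self]; exact min_le_max)
  have q2 := quad_down (r := H170.rtu (md z)) (rtu_half _)
    (by rw [H170.rtu_mul_self]; exact min_le_max)
  have e1 : (c0 * H170.rtd (mu z)) * (c0 * H170.rtd (mu z)) = (1 - I) * mu z := by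
    rw [mul_mul_mul_comm, H170.rtd_mul_self, ← pow_two, c0_sq]
  have e2 : (c0 * H170.rtu (md z)) * (c0 * H170.rtu (md z)) = (1 - I) * md z := by
    rw [mul_mul_mul_comm, H170.rtu_mul_self, ← pow_two, c0_sq]
  have hc := c0_ne
  have hr1 : H170.rtd (mu z) ≠ 0 := H170.rtd_ne (mu_ne hz0)
  have hr2 : H170.rtu (md z) ≠ 0 := H170.rtu_ne (md_ne hz0)
  have f1 : ∀ t : ℂ, t / H170.rtd (mu z) = (c0 * t) / (c0 * H170.rtd (mu z)) := fun t => by
    field_simp
  have f2 : ∀ t : ℂ, t / H170.rtu (md z) = (c0 * t) / (c0 * H170.rtu (md z)) := fun t => by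
    field_simp
  have cj : ∀ u v : ℂ, (u / (starRingEnd ℂ) v).re = ((starRingEnd ℂ) u / v).re := by
    intro u v
    rw [← conj_re (u / _), map_div₀, conj_conj]
  unfold pA GS
  rcases le_total z.re z.im with h | h
  · have m1 := mu_of_le h
    have m2 := md_of_le h
    have s1 : c0 * H170.rtd (mu z) = ps z := ps_unique hz (by rw [e1, m1]) q1.1
    have s2 : c0 * H170.rtu (md z) = (starRingEnd ℂ) (ps z) := by rw [root_conj, s1]
    rw [f1, f2, s1, s2, cj, m1, m2, ← add_re, ← add_div]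
  · have m1 := mu_of_ge h
    have m2 := md_of_ge h
    have s2 : c0 * H170.rtu (md z) = ps z := ps_unique hz (by rw [e2, m2]) q2.1
    have s1 : c0 * H170.rtd (mu z) = (starRingEnd ℂ) (ps z) := by
      rw [← s2, root_conj, conj_conj]
    rw [f1, f2, s1, s2, cj, m1, m2, ← add_re, ← add_div, add_comm]

theorem w_ps {z : ℂ} (hz : z ∈ US) : w z = √(2 / Real.pi) * (1 / ps z).re :=
  w_eq (US_ne hz) (by rw [pow_two, ps_sq]) (ps_re hz).le

theorem GS_diff {g : ℂ → ℂ} {R : ℝ} (hg : DifferentiableOn ℂ g (Metric.ball 0 R)) :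
    DifferentiableOn ℂ (GS g) (Metric.ball 0 R) := by
  intro z hz
  have hz' : ‖z‖ < R := by rwa [Metric.mem_ball, dist_zero_right] at hz
  have h1 : DifferentiableAt ℂ g z := hg.differentiableAt (Metric.isOpen_ball.mem_nhds hz)
  have h2 : DifferentiableAt ℂ (fun t => c0 * g (I * t)) ((starRingEnd ℂ) z) := by
    have h3 : DifferentiableAt ℂ g (I * (starRingEnd ℂ) z) := by
      refine hg.differentiableAt (Metric.isOpen_ball.mem_nhds ?_)
      rw [Metric.mem_ball, dist_zero_right, norm_mul, norm_I, one_mul, norm_conj]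
      exact hz'
    exact (h3.comp _ (by fun_prop)).const_mul c0
  have h4 := h2.conj_conj
  rw [conj_conj] at h4
  exact ((h1.const_mul c0).add h4).differentiableWithinAt

end Vale.Agent.P144.H365
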