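import Vale.Agent.P144.H365.Sq
import Vale.Agent.P144.H170.Glob

/-!
Uniqueness of the limit in the diamond.
-/

namespace Vale.Agent.P144.H365

open MeasureTheory Filter Topology Complex Vale.Agent.P144

/-- Partial fractions. -/
theorem pfrac {S : Set ℂ} (hS : IsOpen S) {Q : ℂ → ℂ} (hQ : DifferentiableOn ℂ Q S) (P : Finset ℂ)
    (hP : ∀ p ∈ P, p ∈ S) : ∃ R : ℂ → ℂ, DifferentiableOn ℂ R S ∧ ∀ w ∈ S, w ∉ P →
      Q w / ∏ p ∈ P, (w - p) =
        ∑ p ∈ P, (Q p / ∏ p' ∈ P.erase p, (p - p')) * (w - p)⁻¹ + R w := by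
  induction P using Finset.induction_on with
  | empty => exact ⟨Q, hQ, fun w _ _ => by simp⟩
  | insert p0 P hp0 ih =>
    obtain ⟨R, hR, hRe⟩ := ih fun p hp => hP p (Finset.mem_insert_of_mem hp)
    have hp0S : p0 ∈ S := hP p0 (Finset.mem_insert_self _ _)
    refine ⟨dslope R p0, (differentiableOn_dslope (hS.mem_nhds hp0S)).2 hR, fun w hw hwP => ?_⟩
    rw [Finset.mem_insert, not_or] at hwP
    have hw0 : w - p0 ≠ 0 := sub_ne_zero.2 hwP.1
    have e1 := hRe w hw hwP.2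
    have e2 := hRe p0 hp0S hp0
    have hsl := sub_smul_dslope R p0 w
    rw [smul_eq_mul] at hsl
    have c0 : Q p0 / ∏ p' ∈ (insert p0 P).erase p0, (p0 - p') =
        ∑ p ∈ P, (Q p / ∏ p' ∈ P.erase p, (p - p')) * (p0 - p)⁻¹ + R p0 := by
      rw [Finset.erase_insert hp0]; exact e2
    have cp : ∀ p ∈ P, Q p / ∏ p' ∈ (insert p0 P).erase p, (p - p') =
        (Q p / ∏ p' ∈ P.erase p, (p - p')) * (p - p0)⁻¹ := by
      intro p hp
      have hne : p0 ≠ p := fun h => hp0 (h ▸ hp)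
      rw [Finset.erase_insert_of_ne hne, Finset.prod_insert (by
        intro h; exact hp0 (Finset.mem_of_mem_erase h)), div_eq_mul_inv, mul_inv, div_eq_mul_inv]
      ring
    have cps : ∑ p ∈ P, (Q p / ∏ p' ∈ (insert p0 P).erase p, (p - p')) * (w - p)⁻¹ =
        ∑ p ∈ P, (Q p / ∏ p' ∈ P.erase p, (p - p')) * (p - p0)⁻¹ * (w - p)⁻¹ :=
      Finset.sum_congr rfl fun p hp => by rw [cp p hp]
    rw [Finset.prod_insert hp0, Finset.sum_insert hp0, c0, cps]
    have e3 : Q w / ((w - p0) * ∏ p ∈ P, (w - p)) =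
        (Q w / ∏ p ∈ P, (w - p)) * (w - p0)⁻¹ := by
      rw [div_eq_mul_inv, mul_inv, div_eq_mul_inv]; ring
    rw [e3, e1, add_mul, add_mul, Finset.sum_mul, Finset.sum_mul]
    have e4 : R w * (w - p0)⁻¹ = R p0 * (w - p0)⁻¹ + dslope R p0 w := by
      have : R w = R p0 + (w - p0) * dslope R p0 w := by linear_combination -hsl
      rw [this]; field_simp
    rw [e4]
    have e5 : ∑ p ∈ P, (Q p / ∏ p' ∈ P.erase p, (p - p')) * (w - p)⁻¹ * (w - p0)⁻¹ =
        ∑ p ∈ P, (Q p / ∏ p' ∈ P.erase p, (p - p')) * (p0 - p)⁻¹ * (w - p0)⁻¹ +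
        ∑ p ∈ P, (Q p / ∏ p' ∈ P.erase p, (p - p')) * (p - p0)⁻¹ * (w - p)⁻¹ := by
      rw [← Finset.sum_add_distrib]
      refine Finset.sum_congr rfl fun p hp => ?_
      have hne1 : p0 - p ≠ 0 := sub_ne_zero.2 fun h => hp0 (h ▸ hp)
      have hne2 : p - p0 ≠ 0 := sub_ne_zero.2 fun h => hp0 (h ▸ hp)
      have hne3 : w - p ≠ 0 := sub_ne_zero.2 fun h => hwP.2 (h ▸ hp)
      have e6 : (w - p)⁻¹ * (w - p0)⁻¹ = (p0 - p)⁻¹ * (w - p0)⁻¹ + (p - p0)⁻¹ * (w - p)⁻¹ := by
        have : p - p0 = -(p0 - p) := by ring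
        rw [this, inv_neg]
        field_simp
        ring
      rw [mul_assoc, e6]; ring
    rw [e5]; ring

/-- The rotation. -/
noncomputable def rot (w : ℂ) : ℂ := (⟨1 / 2, 1 / 2⟩ : ℂ) * w
noncomputable def tor (z : ℂ) : ℂ := (⟨1, -1⟩ : ℂ) * z

theorem rot_tor (z : ℂ) : rot (tor z) = z := by
  unfold rot tor
  rw [← mul_assoc]
  have : (⟨1 / 2, 1 / 2⟩ : ℂ) * ⟨1, -1⟩ = 1 := by
    apply Complex.ext
    · simp [mul_re]; try norm_num
    · simp [mul_im]; try norm_num
  rw [this, one_mul]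

theorem tor_rot (z : ℂ) : tor (rot z) = z := by
  unfold rot tor
  rw [← mul_assoc]
  have : (⟨1, -1⟩ : ℂ) * ⟨1 / 2, 1 / 2⟩ = 1 := by
    apply Complex.ext
    · simp [mul_re]; try norm_num
    · simp [mul_im]; try norm_num
  rw [this, one_mul]

theorem rot_re (w : ℂ) : (rot w).re = (w.re - w.im) / 2 := by
  simp [rot, mul_re]; ring
theorem rot_im (w : ℂ) : (rot w).im = (w.re + w.im) / 2 := by
  simp [rot, mul_im]; ring
theorem tor_re (z : ℂ) : (tor z).re = z.re + z.im := by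
  simp [tor, mul_re]
theorem tor_im (z : ℂ) : (tor z).im = z.im - z.re := by
  simp [tor, mul_im]; ring

theorem max_abs (x y : ℝ) : max |x + y| |y - x| = |x| + |y| := by
  rcases le_total 0 x with h1 | h1 <;> rcases le_total 0 y with h2 | h2
  · rw [abs_of_nonneg h1, abs_of_nonneg h2, abs_of_nonneg (by linarith : 0 ≤ x + y), max_eq_left]
    rw [abs_le]; constructor <;> linarith
  · rw [abs_of_nonneg h1, abs_of_nonpos h2, abs_of_nonpos (by linarith : y - x ≤ 0), max_eq_right]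
    · ring
    rw [abs_le]; constructor <;> linarith
  · rw [abs_of_nonpos h1, abs_of_nonneg h2, abs_of_nonneg (by linarith : 0 ≤ y - x), max_eq_right]
    · ring
    rw [abs_le]; constructor <;> linarith
  · rw [abs_of_nonpos h1, abs_of_nonpos h2, abs_of_nonpos (by linarith : x + y ≤ 0), max_eq_left]
    · ring
    rw [abs_le]; constructor <;> linarith

theorem sn_tor (z : ℂ) : sn (tor z) = |z.re| + |z.im| := by
  unfold sn; rw [tor_re, tor_im, max_abs]

theorem sn_rot (w : ℂ) : |(rot w).re| + |(rot w).im| = sn w := by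
  rw [← sn_tor, tor_rot]

theorem rot_diff : Differentiable ℂ rot := by unfold rot; fun_prop
theorem rot_cont : Continuous rot := rot_diff.continuous

/-- The constant in the differential of the `H`-function. -/
noncomputable def cH : ℂ := ⟨-1 / 2, 1 / 2⟩

/-- **Uniqueness in the diamond.** -/
theorem hom_unique {M : Finset ℂ} (hM : ∀ m ∈ M, m ∈ Dia) {q F : ℂ → ℂ}
    (hq : DifferentiableOn ℂ q Dia) (hF : ∀ z ∈ Dia, z ∉ M → F z = q z ^ 2 / ∏ m ∈ M, (z - m))
    (hres : ∀ m ∈ M, ∃ c : ℝ, 0 ≤ c ∧ cH * (q m ^ 2 / ∏ m' ∈ M.erase m, (m - m')) = c)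
    (hb : ∃ δ > 0, ∃ K, ∀ z ∈ Dia, 1 - δ < |z.re| + |z.im| → ‖F z‖ ≤ K)
    (hNE : ∀ p : ℂ, 0 < p.re → 0 < p.im → p.re + p.im = 1 →
      Tendsto (fun z => ‖F z‖ - (F z).re) (𝓝[Dia] p) (𝓝 0))
    (hNW : ∀ p : ℂ, p.re < 0 → 0 < p.im → -p.re + p.im = 1 →
      Tendsto (fun z => ‖F z‖ + (F z).im) (𝓝[Dia] p) (𝓝 0))
    (hSW : ∀ p : ℂ, p.re < 0 → p.im < 0 → -p.re - p.im = 1 →
      Tendsto (fun z => ‖F z‖ + (F z).re) (𝓝[Dia] p) (𝓝 0))
    (hSE : ∀ p : ℂ, 0 < p.re → p.im < 0 → p.re - p.im = 1 →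
      Tendsto (fun z => ‖F z‖ - (F z).im) (𝓝[Dia] p) (𝓝 0)) :
    ∀ z ∈ Dia, q z = 0 := by
  classical
  have hDo : IsOpen (Dia : Set ℂ) := by
    have : (Dia : Set ℂ) = {z | |z.re| + |z.im| < 1} := rfl
    rw [this]
    exact isOpen_lt (continuous_re.abs.add continuous_im.abs) continuous_const
  obtain ⟨R₀, hR₀, hpf⟩ := pfrac hDo (hq.pow 2) M hM
  choose! c hc0 hc using hres
  obtain ⟨δ, hδ, K, hK⟩ := hb
  have mD : ∀ w, sn w < 1 → rot w ∈ Dia := fun w hw => by
    show |(rot w).re| + |(rot w).im| < 1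
    rw [sn_rot]; exact hw
  have htinj : Function.Injective tor := fun x y h => by rw [← rot_tor x, h, rot_tor]
  have hfr : (⟨1 / 2, 1 / 2⟩ : ℂ) ≠ 0 := by
    intro h; have := congrArg re h; norm_num at this
  have hcc : cH * (⟨1 / 2, 1 / 2⟩ : ℂ) = -1 / 2 := by
    unfold cH
    apply Complex.ext
    · simp [mul_re]; norm_num
    · simp [mul_im]; norm_num
  set H : ℂ → ℂ := fun w => -1 / 2 * F (rot w) with hH
  have nH : ∀ w, ‖H w‖ = 1 / 2 * ‖F (rot w)‖ := fun w => by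
    simp only [hH]; rw [norm_mul]; norm_num
  have rH : ∀ w, (H w).re = -1 / 2 * (F (rot w)).re := fun w => by
    simp only [hH]
    have : (-1 / 2 : ℂ) = ((-1 / 2 : ℝ) : ℂ) := by push_cast; ring
    rw [this, re_ofReal_mul]
  have iH : ∀ w, (H w).im = -1 / 2 * (F (rot w)).im := fun w => by
    simp only [hH]
    have : (-1 / 2 : ℂ) = ((-1 / 2 : ℝ) : ℂ) := by push_cast; ring
    rw [this, im_ofReal_mul]
  -- radial limits
  have rad : ∀ (w : ℂ) {Φ : ℂ → ℝ}, sn w = 1 → Tendsto Φ (𝓝[Dia] (rot w)) (𝓝 0) →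
      Tendsto (fun t : ℝ => Φ (rot (t * w))) (𝓝[<] 1) (𝓝 0) := by
    intro w Φ hw hΦ
    refine hΦ.comp (tendsto_nhdsWithin_iff.2 ⟨?_, ?_⟩)
    · have h1 : Continuous fun t : ℝ => rot (t * w) := rot_cont.comp (by fun_prop)
      have h2 := h1.tendsto 1
      rw [ofReal_one, one_mul] at h2
      exact h2.mono_left nhdsWithin_le_nhds
    · have e0 : Set.Ioo (0:ℝ) 1 ∈ 𝓝[<] (1:ℝ) := Ioo_mem_nhdsLT one_pos
      filter_upwards [e0] with t ht
      refine mD _ ?_
      rw [sn_smul, hw, mul_one, abs_of_pos ht.1]; exact ht.2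
  have main := sq_unique (P := M.image tor) (r := fun p => c (rot p))
    (R := fun w => -1 / 2 * R₀ (rot w)) (H := H) (K := 1 / 2 * K) (δ := δ) ?_ ?_ ?_ ?_ hδ ?_
    ?_ ?_ ?_ ?_
  · obtain ⟨m1, m2⟩ := main
    -- `F = 0` off `M`
    have hF0 : ∀ z ∈ Dia, z ∉ M → q z = 0 := by
      intro z hz hzM
      have e1 := hpf z hz hzM
      have e2 : R₀ z = 0 := by
        have hz' : |z.re| + |z.im| < 1 := hz
        have := m2 (tor z) (by rw [sn_tor]; exact hz')
        rw [rot_tor] at this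
        simpa using this
      have e3 : ∀ m ∈ M, q m ^ 2 / ∏ m' ∈ M.erase m, (m - m') = 0 := by
        intro m hm
        have h1 := m1 (tor m) (Finset.mem_image_of_mem _ hm)
        rw [rot_tor] at h1
        have h2 := hc m hm
        rw [h1, ofReal_zero] at h2
        have hcH : cH ≠ 0 := by
          intro h; rw [h, zero_mul] at hcc
          have := congrArg re hcc; norm_num at this
        exact (mul_eq_zero.1 h2).resolve_left hcH
      rw [e2, add_zero, Finset.sum_eq_zero fun m hm => by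
        show q m ^ 2 / _ * _ = 0
        rw [e3 m hm, zero_mul]] at e1
      have e4 : ∏ m ∈ M, (z - m) ≠ 0 := Finset.prod_ne_zero_iff.2 fun m hm =>
        sub_ne_zero.2 fun h => hzM (h ▸ hm)
      have e5 : q z ^ 2 = 0 := by
        rcases div_eq_zero_iff.1 e1 with h | h
        · exact h
        · exact absurd h e4
      exact pow_eq_zero_iff (two_ne_zero) |>.1 e5
    intro z hz
    by_cases hzM : z ∈ M
    · -- continuity
      have hcz : ContinuousAt q z := (hq.differentiableAt (hDo.mem_nhds hz)).continuousAt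
      have h1 : Tendsto q (𝓝[≠] z) (𝓝 (q z)) := hcz.tendsto.mono_left nhdsWithin_le_nhds
      have h2 : Tendsto q (𝓝[≠] z) (𝓝 0) := by
        refine tendsto_const_nhds.congr' ?_
        have h3 : Dia \ (M.erase z : Set ℂ) ∈ 𝓝 z :=
          (hDo.sdiff (M.erase z).finite_toSet.isClosed).mem_nhds ⟨hz, by simp⟩
        filter_upwards [nhdsWithin_le_nhds h3, self_mem_nhdsWithin] with y hy hyz
        refine (hF0 y hy.1 fun hyM => hy.2 ?_).symm
        rw [Finset.mem_coe, Finset.mem_erase]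
        exact ⟨hyz, hyM⟩
      exact tendsto_nhds_unique h1 h2
    · exact hF0 z hz hzM
  · intro p hp
    obtain ⟨m, hm, rfl⟩ := Finset.mem_image.1 hp
    rw [sn_tor]; exact hM m hm
  · intro p hp
    obtain ⟨m, hm, rfl⟩ := Finset.mem_image.1 hp
    rw [rot_tor]; exact hc0 m hm
  · refine DifferentiableOn.const_mul ?_ _
    exact hR₀.comp rot_diff.differentiableOn fun w hw => mD w hw
  · intro w hw hwM
    have hz := mD w hw
    have hzM : rot w ∉ M := fun h => hwM (by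
      rw [← tor_rot w]; exact Finset.mem_image_of_mem _ h)
    have e1 := hpf (rot w) hz hzM
    simp only [hH]
    have e6 : F (rot w) = (q (rot w)) ^ 2 / ∏ m ∈ M, (rot w - m) := hF _ hz hzM
    have e7 : (q ^ 2) (rot w) = q (rot w) ^ 2 := rfl
    rw [e6, ← e7, e1, mul_add, Finset.sum_image (fun x _ y _ h => htinj h), Finset.mul_sum]
    congr 1
    refine Finset.sum_congr rfl fun m hm => ?_
    rw [rot_tor, ← hc m hm]
    have e8 : rot w - m = (⟨1 / 2, 1 / 2⟩ : ℂ) * (w - tor m) := by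
      conv_lhs => rw [← rot_tor m]
      unfold rot; ring
    rw [e8, mul_inv, ← hcc]
    have e9 : (q ^ 2) m = q m ^ 2 := rfl
    rw [e9]
    field_simp
  · intro w h1 h2
    rw [nH]
    have := hK (rot w) (mD w h2) (by rw [sn_rot]; exact h1)
    linarith
  · intro x hx
    have hx' := abs_lt.1 hx
    have h1 := rad (g1 x) (sn_g1 hx.le) (hSE (rot (g1 x)) (by rw [rot_re, g1_re, g1_im]; linarith)
      (by rw [rot_im, g1_re, g1_im]; linarith) (by rw [rot_re, rot_im, g1_re, g1_im]; ring))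
    have h2 := h1.const_mul (1 / 2)
    rw [mul_zero] at h2
    refine h2.congr fun t => ?_
    rw [nH, iH]; ring
  · intro x hx
    have hx' := abs_lt.1 hx
    have h1 := rad (g2 x) (sn_g2 hx.le) (hNW (rot (g2 x)) (by rw [rot_re, g2_re, g2_im]; linarith)
      (by rw [rot_im, g2_re, g2_im]; linarith) (by rw [rot_re, rot_im, g2_re, g2_im]; ring))
    have h2 := h1.const_mul (1 / 2)
    rw [mul_zero] at h2
    refine h2.congr fun t => ?_
    rw [nH, iH]; ring
  · intro x hx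
    have hx' := abs_lt.1 hx
    have h1 := rad (g3 x) (sn_g3 hx.le) (hNE (rot (g3 x)) (by rw [rot_re, g3_re, g3_im]; linarith)
      (by rw [rot_im, g3_re, g3_im]; linarith) (by rw [rot_re, rot_im, g3_re, g3_im]; ring))
    have h2 := h1.const_mul (1 / 2)
    rw [mul_zero] at h2
    refine h2.congr fun t => ?_
    rw [nH, rH]; ring
  · intro x hx
    have hx' := abs_lt.1 hx
    have h1 := rad (g4 x) (sn_g4 hx.le) (hSW (rot (g4 x)) (by rw [rot_re, g4_re, g4_im]; linarith)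
      (by rw [rot_im, g4_re, g4_im]; linarith) (by rw [rot_re, rot_im, g4_re, g4_im]; ring))
    have h2 := h1.const_mul (1 / 2)
    rw [mul_zero] at h2
    refine h2.congr fun t => ?_
    rw [nH, rH]; ring

end Vale.Agent.P144.H365
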