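import Vale.Agent.P144.U.Half
import Vale.Agent.P144.H170.Comp
import Mathlib.MeasureTheory.Integral.IntervalIntegral.IntegrationByParts
import Mathlib.Analysis.SpecialFunctions.Integrability.Basic
import Mathlib.Analysis.SpecialFunctions.Trigonometric.InverseDeriv

/-!
The discrete harmonic function of the slit plane that is `1` at the tip of the slit
`{(i, i) : i ≤ 0}`.
-/

namespace Vale.Agent.P144.H365

open Finset intervalIntegral MeasureTheory Vale.Agent.P144

/-- `(2 sin θ)^(-1/2)` -/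
noncomputable def wt (θ : ℝ) : ℝ := (√(2 * Real.sin θ))⁻¹

theorem wt_nonneg (θ : ℝ) : 0 ≤ wt θ := by unfold wt; positivity

theorem wt_meas : Measurable wt := by
  unfold wt
  fun_prop

theorem wt_le {θ : ℝ} (h0 : 0 < θ) (h1 : θ ≤ Real.pi / 2) : wt θ ≤ θ ^ (-(1/2) : ℝ) := by
  have hs := Real.mul_le_sin h0.le h1
  have hp := Real.pi_pos
  have hp4 : Real.pi ≤ 4 := Real.pi_le_four
  have h2 : θ ≤ 2 * Real.sin θ := by
    have : 1 / 2 * θ ≤ 2 / Real.pi * θ := by
      refine mul_le_mul_of_nonneg_right ?_ h0.le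
      rw [div_le_div_iff₀ (by norm_num) hp]; linarith
    linarith
  unfold wt
  rw [Real.rpow_neg h0.le, ← Real.sqrt_eq_rpow]
  exact inv_anti₀ (Real.sqrt_pos.2 h0) (Real.sqrt_le_sqrt h2)

theorem wt_int : IntervalIntegrable wt volume 0 (Real.pi / 2) := by
  have hg : IntervalIntegrable (fun x : ℝ => x ^ (-(1/2) : ℝ)) volume 0 (Real.pi / 2) :=
    intervalIntegrable_rpow' (by norm_num)
  refine hg.mono_fun' wt_meas.aestronglyMeasurable ?_
  have hp := Real.pi_pos
  rw [Filter.EventuallyLE, ae_restrict_iff' measurableSet_uIoc]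
  refine Filter.Eventually.of_forall fun θ hθ => ?_
  rw [Set.uIoc_of_le (by linarith)] at hθ
  rw [Real.norm_eq_abs, abs_of_nonneg (wt_nonneg θ)]
  exact wt_le hθ.1 hθ.2

theorem wt_mul_int {g : ℝ → ℝ} (hg : Continuous g) :
    IntervalIntegrable (fun θ => wt θ * g θ) volume 0 (Real.pi / 2) :=
  wt_int.mul_continuousOn hg.continuousOn

/-- The kernel in rotated coordinates. -/
noncomputable def GG (s : ℤ) (t : ℕ) : ℝ :=
  2 / Real.pi * ∫ θ in (0:ℝ)..(Real.pi / 2), wt θ * (Real.cos ((s + 1 / 2) * θ - Real.pi / 4) * rh θ ^ t)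

theorem cont_g (c : ℝ) (t : ℕ) :
    Continuous fun θ : ℝ => Real.cos (c * θ - Real.pi / 4) * rh θ ^ t :=
  (Real.continuous_cos.comp ((continuous_const.mul continuous_id).sub continuous_const)).mul
    (rh_cont.pow t)

theorem GG_int (s : ℤ) (t : ℕ) : IntervalIntegrable
    (fun θ => wt θ * (Real.cos ((s + 1 / 2) * θ - Real.pi / 4) * rh θ ^ t)) volume 0 (Real.pi / 2) :=
  wt_mul_int (cont_g _ _)

theorem GG_harm (s : ℤ) (t : ℕ) :
    GG (s + 1) (t + 2) + GG (s - 1) (t + 2) + GG (s + 1) t + GG (s - 1) t = 4 * GG s (t + 1) := by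
  unfold GG
  have i1 := GG_int (s + 1) (t + 2)
  have i2 := GG_int (s - 1) (t + 2)
  have i3 := GG_int (s + 1) t
  have i4 := GG_int (s - 1) t
  rw [← mul_add, ← mul_add, ← mul_add, mul_left_comm, ← integral_add i1 i2,
    ← integral_add (i1.add i2) i3, ← integral_add ((i1.add i2).add i3) i4,
    ← intervalIntegral.integral_const_mul 4]
  congr 1
  refine integral_congr fun θ hθ => ?_
  have e1 := rh_one hθ
  have e2 := rh_two hθ
  push_cast
  obtain ⟨α, hα⟩ : ∃ α : ℝ, α = ((s:ℝ) + 1 / 2) * θ - Real.pi / 4 := ⟨_, rfl⟩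
  have t1 : ((s:ℝ) + 1 + 1 / 2) * θ - Real.pi / 4 = α + θ := by rw [hα]; ring
  have t2 : ((s:ℝ) - 1 + 1 / 2) * θ - Real.pi / 4 = α - θ := by rw [hα]; ring
  rw [t1, t2, ← hα, Real.cos_add, Real.cos_sub]
  rw [pow_add, pow_succ]
  linear_combination (2 * wt θ * Real.cos α * rh θ ^ t) * (rh θ * e2 - e1)

/-- `∫ wt cos(...)` -/
noncomputable def G0 (s : ℤ) : ℝ := GG s 0

theorem GG_lap0 (s : ℤ) :
    2 * (GG (s + 1) 1 + GG (s - 1) 1) - 4 * GG s 0 = -2 * (GG (-s) 0 - GG (-s - 2) 0) := by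
  unfold GG
  have i1 := GG_int (s + 1) 1
  have i2 := GG_int (s - 1) 1
  have i3 := GG_int s 0
  have i4 := GG_int (-s) 0
  have i5 := GG_int (-s - 2) 0
  rw [← mul_add, mul_left_comm 2, mul_left_comm 4, ← mul_sub, ← mul_sub, mul_left_comm (-2),
    ← integral_add i1 i2, ← integral_sub i4 i5, ← intervalIntegral.integral_const_mul, ← intervalIntegral.integral_const_mul,
    ← intervalIntegral.integral_const_mul, ← integral_sub ((i1.add i2).const_mul 2) (i3.const_mul 4)]
  congr 1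
  refine integral_congr fun θ hθ => ?_
  have e1 := rh_one hθ
  have e2 := rh_two hθ
  push_cast
  have t1 : ((s:ℝ) + 1 + 1 / 2) * θ - Real.pi / 4 = (s + 1 / 2) * θ + θ - Real.pi / 4 := by ring
  have t2 : ((s:ℝ) - 1 + 1 / 2) * θ - Real.pi / 4 = (s + 1 / 2) * θ - θ - Real.pi / 4 := by ring
  have t3 : (-(s:ℝ) + 1 / 2) * θ - Real.pi / 4 = -((s + 1 / 2) * θ - θ + Real.pi / 4) := by ring
  have t4 : (-(s:ℝ) - 2 + 1 / 2) * θ - Real.pi / 4 = -((s + 1 / 2) * θ + θ + Real.pi / 4) := by ring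
  simp only [t1, t2, t3, t4, Real.cos_neg]
  set β := ((s:ℝ) + 1 / 2) * θ
  simp only [Real.cos_add, Real.cos_sub, Real.sin_add, Real.sin_sub, Real.cos_pi_div_four,
    Real.sin_pi_div_four, pow_zero, mul_one, pow_one]
  linear_combination (4 * wt θ * (Real.cos β * (√2 / 2) + Real.sin β * (√2 / 2))) * e2

/-- The recursion on the axis. -/
theorem GG_rec (m : ℤ) : (2 * m : ℝ) * GG (2 * m) 0 = (2 * m - 1) * GG (2 * m - 2) 0 := by
  set c : ℝ := 2 * m - 1 / 2 with hc
  set F : ℝ → ℝ := fun θ => √(2 * Real.sin θ) * Real.sin (c * θ + Real.pi / 4) with hF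
  have hp := Real.pi_pos
  have i1 := GG_int (2 * m) 0
  have i2 := GG_int (2 * m - 2) 0
  have hder : ∀ θ ∈ Set.Ioo (0:ℝ) (Real.pi / 2), HasDerivAt F
      ((2 * m : ℝ) * (wt θ * (Real.cos ((((2 * m : ℤ) : ℝ) + 1 / 2) * θ - Real.pi / 4) * rh θ ^ 0)) -
        (2 * m - 1) * (wt θ * (Real.cos ((((2 * m - 2 : ℤ) : ℝ) + 1 / 2) * θ - Real.pi / 4) * rh θ ^ 0))) θ := by
    intro θ hθ
    have hs : 0 < Real.sin θ := Real.sin_pos_of_pos_of_lt_pi hθ.1 (by linarith [hθ.2])
    have h1 : HasDerivAt (fun θ => √(2 * Real.sin θ)) ((2 * Real.cos θ) / (2 * √(2 * Real.sin θ))) θ :=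
      ((Real.hasDerivAt_sin θ).const_mul 2).sqrt (by positivity)
    have h2 : HasDerivAt (fun θ => Real.sin (c * θ + Real.pi / 4)) (Real.cos (c * θ + Real.pi / 4) * c) θ := by
      have := ((hasDerivAt_id θ).const_mul c).add_const (Real.pi / 4)
      simp only [mul_one, id] at this
      exact this.sin
    have h3 := h1.mul h2
    refine h3.congr_deriv ?_
    unfold wt
    have hq : √(2 * Real.sin θ) * √(2 * Real.sin θ) = 2 * Real.sin θ :=
      Real.mul_self_sqrt (by positivity)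
    have hq0 : √(2 * Real.sin θ) ≠ 0 := (Real.sqrt_pos.2 (by positivity)).ne'
    have t1 : (((2 * m : ℤ) : ℝ) + 1 / 2) * θ - Real.pi / 4 = (c * θ + Real.pi / 4) + θ - Real.pi / 2 := by
      rw [hc]; push_cast; ring
    have t2 : (((2 * m - 2 : ℤ) : ℝ) + 1 / 2) * θ - Real.pi / 4 = (c * θ + Real.pi / 4) - θ - Real.pi / 2 := by
      rw [hc]; push_cast; ring
    rw [t1, t2, Real.cos_sub_pi_div_two, Real.cos_sub_pi_div_two, Real.sin_add _ θ, Real.sin_sub _ θ]
    set α := c * θ + Real.pi / 4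
    have e : (2 * m : ℝ) = c + 1 / 2 := by rw [hc]; ring
    have e' : (2 * m - 1 : ℝ) = c - 1 / 2 := by rw [hc]; ring
    rw [e', e]
    field_simp
    rw [pow_two, hq]
    ring
  have hcont : ContinuousOn F (Set.Icc 0 (Real.pi / 2)) := by
    refine Continuous.continuousOn ?_
    rw [hF]
    exact (Real.continuous_sqrt.comp (continuous_const.mul Real.continuous_sin)).mul
      (Real.continuous_sin.comp ((continuous_const.mul continuous_id).add continuous_const))
  have key := integral_eq_sub_of_hasDerivAt_of_le (by linarith) hcont hder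
    ((i1.const_mul _).sub (i2.const_mul _))
  rw [integral_sub (i1.const_mul _) (i2.const_mul _), intervalIntegral.integral_const_mul,
    intervalIntegral.integral_const_mul] at key
  have hF0 : F 0 = 0 := by simp [hF]
  have hF1 : F (Real.pi / 2) = 0 := by
    simp only [hF]
    have : c * (Real.pi / 2) + Real.pi / 4 = m * Real.pi := by rw [hc]; ring
    rw [this, Real.sin_int_mul_pi, mul_zero]
  rw [hF0, hF1, sub_zero] at key
  unfold GG
  linear_combination (2 / Real.pi) * key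

theorem GG_neg (m : ℕ) : GG (-(2 * (m + 1) : ℤ)) 0 = 0 := by
  induction m with
  | zero =>
    have := GG_rec 0
    simp only [Int.cast_zero, mul_zero, zero_mul, zero_sub] at this
    have e : (-(2 * (((0:ℕ):ℤ) + 1)) : ℤ) = -2 := by norm_num
    rw [e]
    linarith
  | succ m ih =>
    have := GG_rec (-(m + 1))
    have e1 : 2 * (-((m:ℤ) + 1)) = -(2 * (m + 1)) := by ring
    rw [e1, ih, mul_zero] at this
    have e2 : -(2 * (((m + 1 : ℕ) : ℤ) + 1)) = -(2 * ((m:ℤ) + 1)) - 2 := by push_cast; ring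
    rw [e2]
    have h3 : (2 * ((-((m:ℤ) + 1) : ℤ) : ℝ) - 1) ≠ 0 := by
      push_cast
      have : (0:ℝ) ≤ m := Nat.cast_nonneg m
      intro h
      linarith
    rcases mul_eq_zero.1 this.symm with h | h
    · exact absurd h h3
    · exact h

theorem GG_zero : GG 0 0 = 1 := by
  have hp := Real.pi_pos
  set F : ℝ → ℝ := fun θ => -Real.arcsin (√2 * Real.sin (Real.pi / 4 - θ / 2)) with hF
  have i1 := GG_int 0 0
  have h22 : √2 * √2 = 2 := Real.mul_self_sqrt (by norm_num)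
  have hder : ∀ θ ∈ Set.Ioo (0:ℝ) (Real.pi / 2), HasDerivAt F
      (wt θ * (Real.cos ((((0 : ℤ) : ℝ) + 1 / 2) * θ - Real.pi / 4) * rh θ ^ 0)) θ := by
    intro θ hθ
    have hs : 0 < Real.sin θ := Real.sin_pos_of_pos_of_lt_pi hθ.1 (by linarith [hθ.2])
    have hlt : Real.sin (Real.pi / 4 - θ / 2) ^ 2 < 1 / 2 := by
      have h1 : Real.sin (Real.pi / 4 - θ / 2) ^ 2 = (1 - Real.sin θ) / 2 := by
        rw [Real.sin_sq, Real.cos_sq]
        have : 2 * (Real.pi / 4 - θ / 2) = Real.pi / 2 - θ := by ring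
        rw [this, Real.cos_pi_div_two_sub]; ring
      rw [h1]; linarith
    have hu2 : (√2 * Real.sin (Real.pi / 4 - θ / 2)) ^ 2 = 1 - Real.sin θ := by
      have h1 : Real.sin (Real.pi / 4 - θ / 2) ^ 2 = (1 - Real.sin θ) / 2 := by
        rw [Real.sin_sq, Real.cos_sq]
        have : 2 * (Real.pi / 4 - θ / 2) = Real.pi / 2 - θ := by ring
        rw [this, Real.cos_pi_div_two_sub]; ring
      rw [mul_pow, h1, pow_two, h22]; ring
    have hne1 : √2 * Real.sin (Real.pi / 4 - θ / 2) ≠ -1 := by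
      intro h
      rw [h] at hu2
      norm_num at hu2
      linarith
    have hne2 : √2 * Real.sin (Real.pi / 4 - θ / 2) ≠ 1 := by
      intro h
      rw [h] at hu2
      norm_num at hu2
      linarith
    have h1 : HasDerivAt (fun θ : ℝ => √2 * Real.sin (Real.pi / 4 - θ / 2))
        (√2 * (Real.cos (Real.pi / 4 - θ / 2) * (-(1/2)))) θ := by
      have h0 : HasDerivAt (fun θ : ℝ => Real.pi / 4 - θ / 2) (-(1/2)) θ := by
        have := ((hasDerivAt_id θ).div_const 2).const_sub (Real.pi / 4)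
        simpa using this
      exact (h0.sin).const_mul _
    have h2 := ((Real.hasDerivAt_arcsin hne1 hne2).comp θ h1).neg
    refine h2.congr_deriv ?_
    rw [hu2]
    have e1 : 1 - (1 - Real.sin θ) = Real.sin θ := by ring
    rw [e1]
    unfold wt
    rw [Real.sqrt_mul (by norm_num)]
    have t1 : (((0 : ℤ) : ℝ) + 1 / 2) * θ - Real.pi / 4 = -(Real.pi / 4 - θ / 2) := by push_cast; ring
    rw [t1, Real.cos_neg]
    have hq0 : √(Real.sin θ) ≠ 0 := (Real.sqrt_pos.2 hs).ne'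
    field_simp
    rw [pow_two, h22]
  have hcont : ContinuousOn F (Set.Icc 0 (Real.pi / 2)) := by
    refine Continuous.continuousOn ?_
    rw [hF]
    exact (Real.continuous_arcsin.comp (continuous_const.mul (Real.continuous_sin.comp
      (continuous_const.sub (continuous_id.div_const 2))))).neg
  have key := integral_eq_sub_of_hasDerivAt_of_le (by linarith) hcont hder i1
  unfold GG
  rw [key]
  have hF0 : F 0 = -(Real.pi / 2) := by
    simp only [hF, zero_div, sub_zero, Real.sin_pi_div_four]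
    have : √2 * (√2 / 2) = 1 := by linarith
    rw [this, Real.arcsin_one]
  have hF1 : F (Real.pi / 2) = 0 := by
    simp only [hF]
    have : Real.pi / 4 - Real.pi / 2 / 2 = 0 := by ring
    rw [this]; simp
  rw [hF0, hF1]
  field_simp
  ring

/-- The kernel: harmonic off the slit `{(i, i) : i ≤ 0}`, zero on `{(i, i) : i < 0}`, one at the
tip. -/
noncomputable def W (x : Site) : ℝ := GG (x.1 + x.2) (x.1 - x.2).natAbs

theorem W_diag (i : ℤ) : W (i, i) = GG (2 * i) 0 := by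
  unfold W
  simp only [sub_self, Int.natAbs_zero]
  congr 1; ring

theorem W_tip : W (0, 0) = 1 := by rw [W_diag, mul_zero, GG_zero]

theorem W_slit {i : ℤ} (hi : i < 0) : W (i, i) = 0 := by
  rw [W_diag]
  obtain ⟨m, rfl⟩ : ∃ m : ℕ, i = -((m:ℤ) + 1) := ⟨(-i - 1).toNat, by lia⟩
  have := GG_neg m
  rw [show 2 * -((m:ℤ) + 1) = -(2 * (m + 1)) by ring]
  exact this

theorem W_swap (x : Site) : W x.swap = W x := by
  unfold W
  simp only [Prod.fst_swap, Prod.snd_swap]
  rw [add_comm x.2 x.1, ← Int.natAbs_neg (x.2 - x.1), neg_sub]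

theorem W_lap_off {x : Site} (hx : x.1 ≠ x.2) : H170.lap W x = 0 := by
  unfold H170.lap W
  simp only [Prod.fst_add, Prod.snd_add]
  obtain ⟨k, hk⟩ : ∃ k : ℕ, (x.1 - x.2).natAbs = k + 1 := ⟨(x.1 - x.2).natAbs - 1, by lia⟩
  have key := GG_harm (x.1 + x.2) k
  rw [hk]
  rcases lt_or_gt_of_ne hx with h | h
  · have n1 : (x.1 + 1 - (x.2 + 0)).natAbs = k := by lia
    have n2 : (x.1 - 1 - (x.2 - 0)).natAbs = k + 2 := by lia
    have n3 : (x.1 + 0 - (x.2 + 1)).natAbs = k + 2 := by lia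
    have n4 : (x.1 - 0 - (x.2 - 1)).natAbs = k := by lia
    simp only [Prod.fst_sub, Prod.snd_sub, n1, n2, n3, n4]
    rw [show x.1 + 1 + (x.2 + 0) = x.1 + x.2 + 1 by ring, show x.1 - 1 + (x.2 - 0) = x.1 + x.2 - 1 by ring,
      show x.1 + 0 + (x.2 + 1) = x.1 + x.2 + 1 by ring, show x.1 - 0 + (x.2 - 1) = x.1 + x.2 - 1 by ring]
    linarith
  · have n1 : (x.1 + 1 - (x.2 + 0)).natAbs = k + 2 := by lia
    have n2 : (x.1 - 1 - (x.2 - 0)).natAbs = k := by lia
    have n3 : (x.1 + 0 - (x.2 + 1)).natAbs = k := by lia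
    have n4 : (x.1 - 0 - (x.2 - 1)).natAbs = k + 2 := by lia
    simp only [Prod.fst_sub, Prod.snd_sub, n1, n2, n3, n4]
    rw [show x.1 + 1 + (x.2 + 0) = x.1 + x.2 + 1 by ring, show x.1 - 1 + (x.2 - 0) = x.1 + x.2 - 1 by ring,
      show x.1 + 0 + (x.2 + 1) = x.1 + x.2 + 1 by ring, show x.1 - 0 + (x.2 - 1) = x.1 + x.2 - 1 by ring]
    linarith

theorem W_lap_diag (i : ℤ) : H170.lap W (i, i) = -2 * (GG (-(2 * i)) 0 - GG (-(2 * i) - 2) 0) := by
  unfold H170.lap W
  have n1 : ((i, i) + ((1, 0) : Site)) = (i + 1, i) := by ext <;> simp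
  have n2 : ((i, i) - ((1, 0) : Site)) = (i - 1, i) := by ext <;> simp
  have n3 : ((i, i) + ((0, 1) : Site)) = (i, i + 1) := by ext <;> simp
  have n4 : ((i, i) - ((0, 1) : Site)) = (i, i - 1) := by ext <;> simp
  rw [n1, n2, n3, n4]
  simp only
  have key := GG_lap0 (2 * i)
  rw [show (i + 1 - i).natAbs = 1 by lia, show (i - 1 - i).natAbs = 1 by lia,
    show (i - (i + 1)).natAbs = 1 by lia, show (i - (i - 1)).natAbs = 1 by lia,
    show (i - i).natAbs = 0 by lia,
    show i + 1 + i = 2 * i + 1 by ring, show i - 1 + i = 2 * i - 1 by ring,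
    show i + (i + 1) = 2 * i + 1 by ring, show i + (i - 1) = 2 * i - 1 by ring,
    show i + i = 2 * i by ring]
  linarith

theorem GG_neg' {s : ℤ} (hs : s < 0) (he : Even s) : GG s 0 = 0 := by
  obtain ⟨m, hm⟩ := he
  obtain ⟨k, rfl⟩ : ∃ k : ℕ, m = -((k:ℤ) + 1) := ⟨(-m - 1).toNat, by lia⟩
  have := GG_neg k
  rw [hm, show -((k:ℤ) + 1) + -((k:ℤ) + 1) = -(2 * (k + 1)) by ring]
  exact this

/-- `W` is harmonic at the positive diagonal points. -/
theorem W_lap_pos {i : ℤ} (hi : 0 < i) : H170.lap W (i, i) = 0 := by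
  rw [W_lap_diag, GG_neg' (by lia) ⟨-i, by ring⟩, GG_neg' (by lia) ⟨-i - 1, by ring⟩]
  ring

/-- The mass at the tip. -/
theorem W_lap_tip : H170.lap W (0, 0) = -2 := by
  rw [W_lap_diag]
  simp only [mul_zero, neg_zero, zero_sub]
  rw [GG_zero, GG_neg' (s := -2) (by lia) ⟨-1, by ring⟩]
  ring

/-- `W` is harmonic off the closed slit. -/
theorem W_harm {x : Site} (hx : ¬ (x.1 = x.2 ∧ x.1 ≤ 0)) : H170.lap W x = 0 := by
  by_cases h : x.1 = x.2
  · have : x = (x.1, x.1) := Prod.ext rfl h.symm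
    rw [this]
    exact W_lap_pos (by lia)
  · exact W_lap_off h

end Vale.Agent.P144.H365
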