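import Vale.Agent.P144.H365.Ker
import Mathlib.MeasureTheory.Integral.Gamma
import Mathlib.Analysis.Real.Pi.Bounds
import Mathlib.Analysis.SpecialFunctions.Gamma.Basic
import Mathlib.Analysis.SpecialFunctions.Gaussian.GaussianIntegral

/-!
Bounds for the slit kernel.
-/

namespace Vale.Agent.P144.H365

open Finset intervalIntegral MeasureTheory Vale.Agent.P144

/-- An oscillating integral of a decreasing function is bounded by the integral over half a
period. -/
theorem osc {g : ℝ → ℝ} {b ω c : ℝ} (hg : IntervalIntegrable g volume 0 b) (hb : 0 < b)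
    (h0 : ∀ θ ∈ Set.Ioc 0 b, 0 ≤ g θ)
    (ha : ∀ θ ∈ Set.Ioc 0 b, ∀ θ' ∈ Set.Ioc 0 b, θ ≤ θ' → g θ' ≤ g θ)
    (hω : ω ≠ 0) (hh : Real.pi / |ω| ≤ b) :
    |∫ θ in (0:ℝ)..b, g θ * Real.cos (ω * θ + c)| ≤ ∫ θ in (0:ℝ)..(Real.pi / |ω|), g θ := by
  have hp := Real.pi_pos
  set h := Real.pi / |ω| with hhd
  have hpos : 0 < h := by rw [hhd]; positivity
  have hcc : Continuous fun θ : ℝ => Real.cos (ω * θ + c) := by fun_prop
  have hI : IntervalIntegrable (fun θ => g θ * Real.cos (ω * θ + c)) volume 0 b :=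
    hg.mul_continuousOn hcc.continuousOn
  have sub : ∀ {u v : ℝ} {f : ℝ → ℝ}, IntervalIntegrable f volume 0 b → 0 ≤ u → u ≤ v → v ≤ b →
      IntervalIntegrable f volume u v := by
    intro u v f hf hu huv hv
    refine hf.mono_set ?_
    rw [Set.uIcc_of_le huv, Set.uIcc_of_le hb.le]
    exact Set.Icc_subset_Icc hu hv
  have hshift : ∀ θ, Real.cos (ω * (θ + h) + c) = -Real.cos (ω * θ + c) := by
    intro θ
    rcases lt_or_gt_of_ne hω with h1 | h1
    · have : ω * (θ + h) + c = (ω * θ + c) - Real.pi := by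
        rw [hhd, abs_of_neg h1]; field_simp; ring
      rw [this, Real.cos_sub_pi]
    · have : ω * (θ + h) + c = (ω * θ + c) + Real.pi := by
        rw [hhd, abs_of_pos h1]; field_simp; ring
      rw [this, Real.cos_add_pi]
  have hgs : IntervalIntegrable (fun θ => g (θ + h)) volume 0 (b - h) := by
    have := (sub hg hpos.le hh le_rfl).comp_add_right h
    simpa using this
  have hIs : IntervalIntegrable (fun θ => g (θ + h) * Real.cos (ω * θ + c)) volume 0 (b - h) :=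
    hgs.mul_continuousOn hcc.continuousOn
  -- first splitting
  have e1 : (∫ θ in (0:ℝ)..b, g θ * Real.cos (ω * θ + c)) =
      (∫ θ in (0:ℝ)..h, g θ * Real.cos (ω * θ + c)) -
        ∫ θ in (0:ℝ)..(b - h), g (θ + h) * Real.cos (ω * θ + c) := by
    rw [← integral_add_adjacent_intervals (sub hI le_rfl hpos.le hh) (sub hI hpos.le hh le_rfl)]
    have := integral_comp_add_right (fun θ => g θ * Real.cos (ω * θ + c)) h (a := 0) (b := b - h)
    simp only [zero_add, sub_add_cancel] at this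
    rw [← this]
    simp only [hshift, mul_neg]
    rw [intervalIntegral.integral_neg]
    ring
  have e2 : (∫ θ in (0:ℝ)..b, g θ * Real.cos (ω * θ + c)) =
      (∫ θ in (0:ℝ)..(b - h), g θ * Real.cos (ω * θ + c)) +
        ∫ θ in (b - h)..b, g θ * Real.cos (ω * θ + c) :=
    (integral_add_adjacent_intervals (sub hI le_rfl (by linarith) (by linarith))
      (sub hI (by linarith) (by linarith) le_rfl)).symm
  have e3 : (∫ θ in (0:ℝ)..(b - h), g θ * Real.cos (ω * θ + c)) -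
      (∫ θ in (0:ℝ)..(b - h), g (θ + h) * Real.cos (ω * θ + c)) =
      ∫ θ in (0:ℝ)..(b - h), (g θ - g (θ + h)) * Real.cos (ω * θ + c) := by
    rw [← integral_sub (sub hI le_rfl (by linarith) (by linarith)) hIs]
    refine integral_congr fun θ _ => ?_
    ring
  have bnd : ∀ {u v : ℝ} {f : ℝ → ℝ}, u ≤ v → (∀ θ ∈ Set.Ioc u v, 0 ≤ f θ) →
      IntervalIntegrable f volume u v →
      |∫ θ in u..v, f θ * Real.cos (ω * θ + c)| ≤ ∫ θ in u..v, f θ := by
    intro u v f huv hf hfi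
    rw [← Real.norm_eq_abs]
    refine intervalIntegral.norm_integral_le_of_norm_le huv ?_ hfi
    refine Filter.Eventually.of_forall fun θ hθ => ?_
    rw [norm_mul, Real.norm_eq_abs, Real.norm_eq_abs, abs_of_nonneg (hf θ hθ)]
    exact mul_le_of_le_one_right (hf θ hθ) (Real.abs_cos_le_one _)
  have b1 : |∫ θ in (0:ℝ)..h, g θ * Real.cos (ω * θ + c)| ≤ ∫ θ in (0:ℝ)..h, g θ :=
    bnd hpos.le (fun θ hθ => h0 θ ⟨hθ.1, hθ.2.trans hh⟩) (sub hg le_rfl hpos.le hh)
  have b2 : |∫ θ in (b - h)..b, g θ * Real.cos (ω * θ + c)| ≤ ∫ θ in (b - h)..b, g θ :=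
    bnd (by linarith) (fun θ hθ => h0 θ ⟨by linarith [hθ.1], hθ.2⟩)
      (sub hg (by linarith) (by linarith) le_rfl)
  have b3 : |∫ θ in (0:ℝ)..(b - h), (g θ - g (θ + h)) * Real.cos (ω * θ + c)| ≤
      ∫ θ in (0:ℝ)..(b - h), (g θ - g (θ + h)) :=
    bnd (by linarith) (fun θ hθ => sub_nonneg.2 (ha θ ⟨hθ.1, by linarith [hθ.2]⟩ (θ + h)
      ⟨by linarith [hθ.1], by linarith [hθ.2]⟩ (by linarith)))
      ((sub hg le_rfl (by linarith) (by linarith)).sub hgs)
  have e4 : (∫ θ in (0:ℝ)..(b - h), (g θ - g (θ + h))) =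
      (∫ θ in (0:ℝ)..(b - h), g θ) - ∫ θ in h..b, g θ := by
    rw [integral_sub (sub hg le_rfl (by linarith) (by linarith)) hgs]
    have := integral_comp_add_right g h (a := 0) (b := b - h)
    simp only [zero_add, sub_add_cancel] at this
    rw [this]
  have e5 : (∫ θ in (0:ℝ)..(b - h), g θ) + ∫ θ in (b - h)..b, g θ = ∫ θ in (0:ℝ)..b, g θ :=
    integral_add_adjacent_intervals (sub hg le_rfl (by linarith) (by linarith))
      (sub hg (by linarith) (by linarith) le_rfl)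
  have e6 : (∫ θ in (0:ℝ)..h, g θ) + ∫ θ in h..b, g θ = ∫ θ in (0:ℝ)..b, g θ :=
    integral_add_adjacent_intervals (sub hg le_rfl hpos.le hh) (sub hg hpos.le hh le_rfl)
  rw [abs_le] at *
  constructor <;> linarith [b1.1, b1.2, b2.1, b2.2, b3.1, b3.2]

theorem int_rpow {h : ℝ} (h0 : 0 ≤ h) : ∫ θ in (0:ℝ)..h, θ ^ (-(1/2) : ℝ) = 2 * √h := by
  rw [integral_rpow (Or.inl (by norm_num)), Real.sqrt_eq_rpow]
  norm_num
  ring

theorem wt_int_sub {h : ℝ} (h0 : 0 ≤ h) (h1 : h ≤ Real.pi / 2) : IntervalIntegrable wt volume 0 h := by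
  refine wt_int.mono_set ?_
  rw [Set.uIcc_of_le h0, Set.uIcc_of_le (h0.trans h1)]
  exact Set.Icc_subset_Icc le_rfl h1

theorem int_wt {h : ℝ} (h0 : 0 ≤ h) (h1 : h ≤ Real.pi / 2) : ∫ θ in (0:ℝ)..h, wt θ ≤ 2 * √h := by
  rw [← int_rpow h0]
  refine integral_mono_on_of_le_Ioo h0 (wt_int_sub h0 h1) (intervalIntegrable_rpow' (by norm_num)) ?_
  intro θ hθ
  exact wt_le hθ.1 (hθ.2.le.trans h1)

theorem wt_anti {θ θ' : ℝ} (h0 : 0 < θ) (h : θ ≤ θ') (h1 : θ' ≤ Real.pi / 2) : wt θ' ≤ wt θ := by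
  have hp := Real.pi_pos
  have hs : 0 < Real.sin θ := Real.sin_pos_of_pos_of_lt_pi h0 (by linarith)
  have hm : Real.sin θ ≤ Real.sin θ' := Real.sin_le_sin_of_le_of_le_pi_div_two (by linarith) h1 h
  unfold wt
  exact inv_anti₀ (Real.sqrt_pos.2 (by linarith)) (Real.sqrt_le_sqrt (by linarith))

theorem mem_u {θ : ℝ} (h0 : 0 ≤ θ) (h1 : θ ≤ Real.pi / 2) : θ ∈ Set.uIcc 0 (Real.pi / 2) := by
  rw [Set.uIcc_of_le (h0.trans h1)]; exact ⟨h0, h1⟩

theorem rh_anti {θ θ' : ℝ} (h0 : 0 ≤ θ) (h : θ ≤ θ') (h1 : θ' ≤ Real.pi / 2) : rh θ' ≤ rh θ := by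
  have hp := Real.pi_pos
  have a1 := sin_nn (mem_u h0 (h.trans h1))
  have a2 := sin_nn (mem_u (h0.trans h) h1)
  have hm : Real.sin θ ≤ Real.sin θ' := Real.sin_le_sin_of_le_of_le_pi_div_two (by linarith) h1 h
  have hc : Real.cos θ' ≤ Real.cos θ := Real.cos_le_cos_of_nonneg_of_le_pi h0 (by linarith) h
  unfold rh
  rw [abs_of_nonneg a1.1, abs_of_nonneg a2.1]
  exact div_le_div₀ a1.2 hc (by linarith) (by linarith)

theorem rh_exp {θ : ℝ} (h0 : 0 ≤ θ) (h1 : θ ≤ Real.pi / 2) : rh θ ≤ Real.exp (-(θ / 4)) := by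
  have hp := Real.pi_pos
  have hp4 : Real.pi ≤ 4 := Real.pi_le_four
  have a1 := sin_nn (mem_u h0 h1)
  have hs := Real.mul_le_sin h0 h1
  have h2 : θ / 2 ≤ Real.sin θ := by
    have : 1 / 2 * θ ≤ 2 / Real.pi * θ := by
      refine mul_le_mul_of_nonneg_right ?_ h0
      rw [div_le_div_iff₀ (by norm_num) hp]; linarith
    linarith
  unfold rh
  rw [abs_of_nonneg a1.1, div_le_iff₀ (by linarith)]
  have h3 : Real.cos θ ≤ 1 := Real.cos_le_one θ
  have h4 : Real.exp (θ / 4) ≤ 1 + Real.sin θ := by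
    have hlt : θ / 4 < 1 := by linarith
    have := Real.exp_bound_div_one_sub_of_interval (x := θ / 4) (by linarith) hlt
    refine this.trans ?_
    rw [div_le_iff₀ (by linarith)]
    nlinarith
  rw [Real.exp_neg]
  have h5 := Real.exp_pos (θ / 4)
  calc Real.cos θ ≤ 1 := h3
    _ = (Real.exp (θ / 4))⁻¹ * Real.exp (θ / 4) := by field_simp
    _ ≤ (Real.exp (θ / 4))⁻¹ * (1 + Real.sin θ) := by gcongr

theorem GG_abs_s (s : ℤ) (t : ℕ) : |GG s t| ≤ 4 / √|(s:ℝ) + 1 / 2| := by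
  have hp := Real.pi_pos
  have hp3 : 3 < Real.pi := Real.pi_gt_three
  have hp4 : Real.pi ≤ 4 := Real.pi_le_four
  set ω : ℝ := (s:ℝ) + 1 / 2 with hω
  have hω0 : ω ≠ 0 := by
    intro h
    have h2 : (2 * s + 1 : ℝ) = 0 := by linarith
    have : 2 * s + 1 = 0 := by exact_mod_cast h2
    lia
  have habs : 0 < |ω| := abs_pos.2 hω0
  have hsq : 0 < √|ω| := Real.sqrt_pos.2 habs
  have hg : IntervalIntegrable (fun θ => wt θ * rh θ ^ t) volume 0 (Real.pi / 2) :=
    wt_mul_int (rh_cont.pow t)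
  have hle : ∀ θ ∈ Set.Ioc 0 (Real.pi / 2), wt θ * rh θ ^ t ≤ wt θ := by
    intro θ hθ
    have := rh_mem (mem_u hθ.1.le hθ.2)
    exact mul_le_of_le_one_right (wt_nonneg _) (pow_le_one₀ this.1 this.2)
  have e : GG s t = 2 / Real.pi * ∫ θ in (0:ℝ)..(Real.pi / 2), (wt θ * rh θ ^ t) * Real.cos (ω * θ + (-(Real.pi / 4))) := by
    unfold GG
    congr 1
    refine integral_congr fun θ _ => ?_
    rw [← sub_eq_add_neg]; ring
  rcases le_or_gt (Real.pi / |ω|) (Real.pi / 2) with h | h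
  · have h0 : 0 < Real.pi / |ω| := by positivity
    have := osc (c := -(Real.pi / 4)) hg (by positivity)
      (fun θ hθ => mul_nonneg (wt_nonneg _) (pow_nonneg (rh_mem (mem_u hθ.1.le hθ.2)).1 _))
      (fun θ hθ θ' hθ' hh => mul_le_mul (wt_anti hθ.1 hh hθ'.2)
        (pow_le_pow_left₀ (rh_mem (mem_u hθ'.1.le hθ'.2)).1 (rh_anti hθ.1.le hh hθ'.2) t)
        (pow_nonneg (rh_mem (mem_u hθ'.1.le hθ'.2)).1 _) (wt_nonneg _)) hω0 h
    have h2 : ∫ θ in (0:ℝ)..(Real.pi / |ω|), wt θ * rh θ ^ t ≤ 2 * √(Real.pi / |ω|) := by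
      refine le_trans ?_ (int_wt h0.le h)
      refine integral_mono_on_of_le_Ioo h0.le ?_ (wt_int_sub h0.le h) ?_
      · refine hg.mono_set ?_
        rw [Set.uIcc_of_le h0.le, Set.uIcc_of_le (h0.le.trans h)]
        exact Set.Icc_subset_Icc le_rfl h
      · intro θ hθ
        exact hle θ ⟨hθ.1, hθ.2.le.trans h⟩
    rw [e, abs_mul, abs_of_pos (by positivity : 0 < 2 / Real.pi)]
    calc 2 / Real.pi * |∫ θ in (0:ℝ)..(Real.pi / 2), (wt θ * rh θ ^ t) * Real.cos (ω * θ + (-(Real.pi / 4)))|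
        ≤ 2 / Real.pi * (2 * √(Real.pi / |ω|)) := by gcongr; exact this.trans h2
      _ = (4 / √Real.pi) / √|ω| := by
          rw [Real.sqrt_div hp.le]
          have : √Real.pi / Real.pi = 1 / √Real.pi := Real.sqrt_div_self'
          calc 2 / Real.pi * (2 * (√Real.pi / √|ω|)) = 4 * (√Real.pi / Real.pi) / √|ω| := by ring
            _ = 4 / √Real.pi / √|ω| := by rw [this]; ring
      _ ≤ 4 / √|ω| := by
          gcongr
          rw [div_le_iff₀ (Real.sqrt_pos.2 hp)]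
          have : 1 ≤ √Real.pi := by rw [Real.one_le_sqrt]; linarith
          linarith
  · have h2 : |∫ θ in (0:ℝ)..(Real.pi / 2), (wt θ * rh θ ^ t) * Real.cos (ω * θ + (-(Real.pi / 4)))| ≤
        2 * √(Real.pi / 2) := by
      rw [← Real.norm_eq_abs]
      refine (intervalIntegral.norm_integral_le_of_norm_le (by positivity) ?_ wt_int).trans
        (int_wt (by positivity) le_rfl)
      refine Filter.Eventually.of_forall fun θ hθ => ?_
      rw [norm_mul, Real.norm_eq_abs, Real.norm_eq_abs, abs_of_nonneg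
        (mul_nonneg (wt_nonneg _) (pow_nonneg (rh_mem (mem_u hθ.1.le hθ.2)).1 _))]
      exact (mul_le_of_le_one_right (mul_nonneg (wt_nonneg _)
        (pow_nonneg (rh_mem (mem_u hθ.1.le hθ.2)).1 _)) (Real.abs_cos_le_one _)).trans (hle θ hθ)
    have h3 : |ω| < 2 := by
      rw [div_lt_div_iff₀ (by norm_num) habs] at h
      nlinarith
    have h4 : √|ω| ≤ √2 := Real.sqrt_le_sqrt h3.le
    have h5 : √(Real.pi / 2) ≤ √2 := Real.sqrt_le_sqrt (by linarith)
    have h22 : √2 * √2 = 2 := Real.mul_self_sqrt (by norm_num)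
    rw [e, abs_mul, abs_of_pos (by positivity : 0 < 2 / Real.pi), le_div_iff₀ hsq]
    calc 2 / Real.pi * |∫ θ in (0:ℝ)..(Real.pi / 2), (wt θ * rh θ ^ t) * Real.cos (ω * θ + (-(Real.pi / 4)))| * √|ω|
        ≤ 2 / Real.pi * (2 * √2) * √2 := by gcongr; exact h2.trans (by gcongr)
      _ = 8 / Real.pi := by rw [mul_assoc, mul_assoc, h22]; ring
      _ ≤ 4 := by rw [div_le_iff₀ hp]; linarith

theorem GG_abs_t (s : ℤ) {t : ℕ} (ht : 1 ≤ t) : |GG s t| ≤ 4 / √(t:ℝ) := by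
  have hp := Real.pi_pos
  have hp3 : 3 < Real.pi := Real.pi_gt_three
  have ht0 : (0:ℝ) < t := by exact_mod_cast ht
  have hG := Real.integral_rpow_mul_exp_neg_mul_Ioi (a := 1 / 2) (r := t / 4) (by norm_num)
    (by positivity)
  have hGi : IntegrableOn (fun θ : ℝ => θ ^ ((1:ℝ) / 2 - 1) * Real.exp (-(t / 4 * θ))) (Set.Ioi 0) := by
    have := integrableOn_rpow_mul_exp_neg_mul_rpow (s := (1:ℝ) / 2 - 1) (p := 1) (b := t / 4)
      (by norm_num) (by norm_num) (by positivity)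
    simpa using this
  have h2 : |∫ θ in (0:ℝ)..(Real.pi / 2), wt θ * (Real.cos ((s + 1 / 2) * θ - Real.pi / 4) * rh θ ^ t)| ≤
      ∫ θ in Set.Ioi (0:ℝ), θ ^ ((1:ℝ) / 2 - 1) * Real.exp (-(t / 4 * θ)) := by
    rw [← Real.norm_eq_abs]
    have h3 : ∫ θ in (0:ℝ)..(Real.pi / 2), θ ^ ((1:ℝ) / 2 - 1) * Real.exp (-(t / 4 * θ)) ≤
        ∫ θ in Set.Ioi (0:ℝ), θ ^ ((1:ℝ) / 2 - 1) * Real.exp (-(t / 4 * θ)) := by
      rw [integral_of_le (by positivity)]
      refine setIntegral_mono_set hGi ?_ ?_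
      · rw [Filter.EventuallyLE, ae_restrict_iff' measurableSet_Ioi]
        refine Filter.Eventually.of_forall fun θ hθ => ?_
        have : (0:ℝ) < θ := hθ
        simp only [Pi.zero_apply]
        exact mul_nonneg (Real.rpow_nonneg this.le _) (Real.exp_pos _).le
      · exact (Set.Ioc_subset_Ioi_self).eventuallyLE
    refine (intervalIntegral.norm_integral_le_of_norm_le (by positivity) ?_ ?_).trans h3
    · refine Filter.Eventually.of_forall fun θ hθ => ?_
      have hr := rh_mem (mem_u hθ.1.le hθ.2)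
      rw [norm_mul, norm_mul, Real.norm_eq_abs, Real.norm_eq_abs, Real.norm_eq_abs,
        abs_of_nonneg (wt_nonneg _), abs_of_nonneg (pow_nonneg hr.1 t)]
      refine mul_le_mul ?_ ?_ (mul_nonneg (abs_nonneg _) (pow_nonneg hr.1 t))
        (Real.rpow_nonneg hθ.1.le _)
      · have := wt_le hθ.1 hθ.2
        norm_num at this ⊢
        exact this
      · have h4 : rh θ ^ t ≤ Real.exp (-(θ / 4)) ^ t :=
          pow_le_pow_left₀ hr.1 (rh_exp hθ.1.le hθ.2) t
        rw [← Real.exp_nat_mul] at h4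
        have e : (t:ℝ) * -(θ / 4) = -(t / 4 * θ) := by ring
        rw [e] at h4
        refine le_trans ?_ h4
        exact mul_le_of_le_one_left (pow_nonneg hr.1 t) (Real.abs_cos_le_one _)
    · rw [intervalIntegrable_iff_integrableOn_Ioc_of_le (by positivity)]
      exact hGi.mono_set Set.Ioc_subset_Ioi_self
  rw [hG, Real.Gamma_one_half_eq] at h2
  unfold GG
  rw [abs_mul, abs_of_pos (by positivity : 0 < 2 / Real.pi)]
  have h5 : (1 / ((t:ℝ) / 4)) ^ ((1:ℝ) / 2) = 2 / √t := by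
    rw [← Real.sqrt_eq_rpow, one_div_div, Real.sqrt_div (by norm_num)]
    congr 1
    rw [show (4:ℝ) = 2 ^ 2 by norm_num, Real.sqrt_sq (by norm_num)]
  rw [h5] at h2
  calc 2 / Real.pi * |∫ θ in (0:ℝ)..(Real.pi / 2), wt θ * (Real.cos ((s + 1 / 2) * θ - Real.pi / 4) * rh θ ^ t)|
      ≤ 2 / Real.pi * (2 / √t * √Real.pi) := by gcongr
    _ = (4 / √Real.pi) / √t := by
        have : √Real.pi / Real.pi = 1 / √Real.pi := Real.sqrt_div_self'
        calc 2 / Real.pi * (2 / √t * √Real.pi) = 4 * (√Real.pi / Real.pi) / √t := by ring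
          _ = 4 / √Real.pi / √t := by rw [this]; ring
    _ ≤ 4 / √t := by
        gcongr
        rw [div_le_iff₀ (Real.sqrt_pos.2 hp)]
        have : 1 ≤ √Real.pi := by rw [Real.one_le_sqrt]; linarith
        linarith

/-- The decay of `W`. -/
theorem W_bound {x : Site} {n : ℝ} (hn : 0 < n) (hx : n ≤ |(x.1:ℝ)| + |(x.2:ℝ)|) :
    |W x| ≤ 8 / √n := by
  have hnn : 0 < √n := Real.sqrt_pos.2 hn
  unfold W
  rcases le_or_gt n (x.1 - x.2).natAbs with h | h
  · have h1 : 1 ≤ (x.1 - x.2).natAbs := by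
      have : (0:ℝ) < ((x.1 - x.2).natAbs : ℝ) := hn.trans_le h
      exact_mod_cast this
    refine (GG_abs_t _ h1).trans ?_
    refine div_le_div₀ (by norm_num) (by norm_num) hnn (Real.sqrt_le_sqrt h)
  · -- `|x.1 + x.2|` is at least `n`
    have h2 : n ≤ |((x.1:ℝ) + x.2)| := by
      have e : (((x.1 - x.2).natAbs : ℕ) : ℝ) = |(x.1:ℝ) - x.2| := by
        rw [Nat.cast_natAbs]; push_cast; ring
      rw [e] at h
      rcases abs_cases ((x.1:ℝ)) with a | a <;> rcases abs_cases ((x.2:ℝ)) with b | b <;>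
        rcases abs_cases ((x.1:ℝ) - x.2) with c | c <;> rcases abs_cases ((x.1:ℝ) + x.2) with d | d <;>
        linarith
    have h3 : (1:ℝ) ≤ |((x.1:ℝ) + x.2)| := by
      have : (0:ℝ) < |(((x.1 + x.2 : ℤ)) : ℝ)| := by push_cast; exact hn.trans_le h2
      have h5 : 0 < |x.1 + x.2| := by exact_mod_cast this
      have h6 : 1 ≤ |x.1 + x.2| := by lia
      have : ((1:ℤ):ℝ) ≤ ((|x.1 + x.2| : ℤ) : ℝ) := by exact_mod_cast h6
      push_cast at this
      exact this
    have h4 : n / 4 ≤ |(((x.1 + x.2 : ℤ) : ℝ)) + 1 / 2| := by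
      push_cast
      rcases abs_cases ((x.1:ℝ) + x.2 + 1 / 2) with a | a <;>
        rcases abs_cases ((x.1:ℝ) + x.2) with d | d <;> linarith
    refine (GG_abs_s _ _).trans ?_
    have h5 : √(n / 4) = √n / 2 := by
      rw [Real.sqrt_div hn.le, show (4:ℝ) = 2 ^ 2 by norm_num, Real.sqrt_sq (by norm_num)]
    calc 4 / √|(((x.1 + x.2 : ℤ) : ℝ)) + 1 / 2| ≤ 4 / √(n / 4) :=
          div_le_div₀ (by norm_num) le_rfl (Real.sqrt_pos.2 (by positivity)) (Real.sqrt_le_sqrt h4)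
      _ = 8 / √n := by rw [h5]; field_simp; norm_num

end Vale.Agent.P144.H365
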