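import Vale.Agent.P144.H365.Ker2
import Mathlib.Analysis.SpecialFunctions.Gaussian.GaussianIntegral

/-!
The scaling limit of the slit kernel.
-/

namespace Vale.Agent.P144.H365

open Finset intervalIntegral MeasureTheory Filter Topology Vale.Agent.P144

/-- Pairs of a mesh and a site that tend to `(0, z)`. -/
noncomputable def FF (z : ℂ) : Filter (ℝ × Site) :=
  comap (fun p : ℝ × Site => (p.1, H170.pt p.1 p.2)) (𝓝[>] 0 ×ˢ 𝓝 z)

instance (z : ℂ) : (FF z).IsCountablyGenerated := by unfold FF; infer_instance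

theorem FF_both (z : ℂ) : Tendsto (fun p : ℝ × Site => (p.1, H170.pt p.1 p.2)) (FF z)
    (𝓝[>] 0 ×ˢ 𝓝 z) := tendsto_comap

theorem FF_fst (z : ℂ) : Tendsto (fun p : ℝ × Site => p.1) (FF z) (𝓝[>] 0) :=
  (tendsto_prod_iff'.1 (FF_both z)).1

theorem FF_pt (z : ℂ) : Tendsto (fun p : ℝ × Site => H170.pt p.1 p.2) (FF z) (𝓝 z) :=
  (tendsto_prod_iff'.1 (FF_both z)).2

theorem tendsto_FF {ι : Type*} {l : Filter ι} {a : ι → ℝ} {x : ι → Site} {z : ℂ}
    (ha : Tendsto a l (𝓝[>] 0)) (hx : Tendsto (fun k => H170.pt (a k) (x k)) l (𝓝 z)) :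
    Tendsto (fun k => (a k, x k)) l (FF z) := by
  unfold FF
  rw [tendsto_comap_iff]
  exact ha.prodMk hx

/-- The scaling limit of `W`. -/
noncomputable def w (z : ℂ) : ℝ := √((√2 * ‖z‖ + (z.re + z.im)) / Real.pi) / (√2 * ‖z‖)

theorem log_rho_slope : Tendsto (fun θ : ℝ => Real.log (Real.cos θ / (1 + Real.sin θ)) / θ)
    (𝓝[≠] 0) (𝓝 (-1)) := by
  have h : HasDerivAt (fun θ : ℝ => Real.log (Real.cos θ / (1 + Real.sin θ))) (-1) 0 := by
    have h1 : HasDerivAt (fun θ : ℝ => Real.cos θ / (1 + Real.sin θ))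
        ((-Real.sin 0 * (1 + Real.sin 0) - Real.cos 0 * (Real.cos 0)) / (1 + Real.sin 0) ^ 2) 0 :=
      (Real.hasDerivAt_cos 0).div ((Real.hasDerivAt_sin 0).const_add 1) (by simp)
    have h2 := h1.log (by simp)
    simpa using h2
  have := h.tendsto_slope
  refine this.congr' ?_
  filter_upwards [self_mem_nhdsWithin] with θ hθ
  simp [slope_def_field]

/-- The pointwise limit of the rescaled integrand. -/
theorem integrand_lim (z : ℂ) {ξ : ℝ} (hξ : 0 < ξ) :
    Tendsto (fun p : ℝ × Site => √p.1 * wt (p.1 * ξ) *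
      (Real.cos (((((p.2.1 + p.2.2 : ℤ)) : ℝ) + 1 / 2) * (p.1 * ξ) - Real.pi / 4) *
        rh (p.1 * ξ) ^ (p.2.1 - p.2.2).natAbs)) (FF z)
      (𝓝 ((√(2 * ξ))⁻¹ * (Real.cos ((z.re + z.im) * ξ - Real.pi / 4) *
        Real.exp (-(|z.re - z.im| * ξ))))) := by
  have ha := FF_fst z
  have ha' : Tendsto (fun p : ℝ × Site => p.1) (FF z) (𝓝 0) := ha.mono_right nhdsWithin_le_nhds
  have hpos : ∀ᶠ p : ℝ × Site in FF z, 0 < p.1 := ha.eventually self_mem_nhdsWithin
  have hpt := FF_pt z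
  have hre : Tendsto (fun p : ℝ × Site => p.1 * p.2.1) (FF z) (𝓝 z.re) :=
    (Complex.continuous_re.tendsto z).comp hpt
  have him : Tendsto (fun p : ℝ × Site => p.1 * p.2.2) (FF z) (𝓝 z.im) :=
    (Complex.continuous_im.tendsto z).comp hpt
  have haξ : Tendsto (fun p : ℝ × Site => p.1 * ξ) (FF z) (𝓝[>] 0) := by
    refine tendsto_nhdsWithin_iff.2 ⟨?_, ?_⟩
    · simpa using ha'.mul_const ξ
    · filter_upwards [hpos] with p hp
      exact mul_pos hp hξ
  have haξ' : Tendsto (fun p : ℝ × Site => p.1 * ξ) (FF z) (𝓝[≠] 0) :=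
    haξ.mono_right (nhdsWithin_mono _ fun x hx => ne_of_gt hx)
  refine Tendsto.mul ?_ (Tendsto.mul ?_ ?_)
  · -- the weight
    have h1 : Tendsto (fun θ : ℝ => Real.sin θ / θ) (𝓝[≠] 0) (𝓝 1) := by
      have := (Real.hasDerivAt_sin 0).tendsto_slope
      rw [Real.cos_zero] at this
      refine this.congr' ?_
      filter_upwards [self_mem_nhdsWithin] with θ hθ
      simp [slope_def_field]
    have h2 : Tendsto (fun p : ℝ × Site => (√(2 * ξ * (Real.sin (p.1 * ξ) / (p.1 * ξ))))⁻¹) (FF z)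
        (𝓝 (√(2 * ξ * 1))⁻¹) := by
      refine Tendsto.inv₀ ?_ (by rw [mul_one]; exact (Real.sqrt_pos.2 (by positivity)).ne')
      exact (Real.continuous_sqrt.tendsto _).comp ((h1.comp haξ').const_mul _)
    rw [mul_one] at h2
    refine h2.congr' ?_
    filter_upwards [hpos] with p hp
    unfold wt
    have e : 2 * ξ * (Real.sin (p.1 * ξ) / (p.1 * ξ)) = (2 * Real.sin (p.1 * ξ)) / p.1 := by
      field_simp
    rw [e, Real.sqrt_div' _ hp.le, inv_div]
    rfl
  · -- the cosine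
    refine (Real.continuous_cos.tendsto _).comp (Tendsto.sub_const ?_ _)
    have : Tendsto (fun p : ℝ × Site => (p.1 * p.2.1 + p.1 * p.2.2 + 1 / 2 * p.1) * ξ) (FF z)
        (𝓝 ((z.re + z.im + 1 / 2 * 0) * ξ)) := ((hre.add him).add (ha'.const_mul _)).mul_const ξ
    rw [mul_zero, add_zero] at this
    refine this.congr fun p => ?_
    push_cast
    ring
  · -- the decay
    have h1 : Tendsto (fun p : ℝ × Site => |p.1 * p.2.1 - p.1 * p.2.2| * ξ *
        (Real.log (Real.cos (p.1 * ξ) / (1 + Real.sin (p.1 * ξ))) / (p.1 * ξ))) (FF z)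
        (𝓝 (|z.re - z.im| * ξ * (-1))) :=
      ((hre.sub him).abs.mul_const ξ).mul (log_rho_slope.comp haξ')
    rw [mul_neg_one] at h1
    refine ((Real.continuous_exp.tendsto _).comp h1).congr' ?_
    have hsm : ∀ᶠ p : ℝ × Site in FF z, p.1 * ξ < Real.pi / 2 :=
      (haξ.mono_right nhdsWithin_le_nhds).eventually (gt_mem_nhds (by positivity))
    filter_upwards [hpos, hsm] with p hp hps
    have hpx : 0 < p.1 * ξ := mul_pos hp hξ
    have hs : 0 < Real.sin (p.1 * ξ) := Real.sin_pos_of_pos_of_lt_pi hpx (by linarith [Real.pi_pos])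
    have hc : 0 < Real.cos (p.1 * ξ) := Real.cos_pos_of_mem_Ioo ⟨by linarith [Real.pi_pos], hps⟩
    have hr : rh (p.1 * ξ) = Real.cos (p.1 * ξ) / (1 + Real.sin (p.1 * ξ)) := by
      unfold rh; rw [abs_of_pos hs]
    rw [hr]
    have hrp : 0 < Real.cos (p.1 * ξ) / (1 + Real.sin (p.1 * ξ)) := by positivity
    have e : |p.1 * (p.2.1:ℝ) - p.1 * p.2.2| * ξ *
        (Real.log (Real.cos (p.1 * ξ) / (1 + Real.sin (p.1 * ξ))) / (p.1 * ξ)) =
        ((p.2.1 - p.2.2).natAbs : ℕ) * Real.log (Real.cos (p.1 * ξ) / (1 + Real.sin (p.1 * ξ))) := by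
      rw [Nat.cast_natAbs]
      push_cast
      rw [← mul_sub, abs_mul, abs_of_pos hp]
      field_simp
    simp only [Function.comp]
    rw [e, mul_comm, Real.exp_mul, Real.exp_log hrp, Real.rpow_natCast]

theorem sqrt_re_nonneg {x : ℂ} : 0 ≤ (x ^ (1 / 2 : ℂ)).re := by
  by_cases hx : x = 0
  · subst hx
    rw [Complex.zero_cpow (by norm_num)]; simp
  · rw [Complex.cpow_def_of_ne_zero hx, Complex.exp_re]
    refine mul_nonneg (Real.exp_pos _).le (Real.cos_nonneg_of_mem_Icc ?_)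
    have h : (Complex.log x * (1 / 2)).im = x.arg / 2 := by
      have : (1 / 2 : ℂ) = ((1 / 2 : ℝ) : ℂ) := by push_cast; rfl
      rw [this, Complex.im_mul_ofReal, Complex.log_im]; ring
    rw [h]
    constructor
    · linarith [Complex.neg_pi_lt_arg x]
    · linarith [Complex.arg_le_pi x]

/-- `w` through a square root. -/
theorem w_eq {z r : ℂ} (hz : z ≠ 0) (hr : r ^ 2 = (1 - Complex.I) * z) (h0 : 0 ≤ r.re) :
    w z = √(2 / Real.pi) * (1 / r).re := by
  have hp := Real.pi_pos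
  have hz' : 0 < ‖z‖ := norm_pos_iff.2 hz
  have h2 : 0 < √2 := by positivity
  have h22 : √2 * √2 = 2 := Real.mul_self_sqrt (by norm_num)
  have hn : ‖r‖ ^ 2 = √2 * ‖z‖ := by
    rw [← norm_pow, hr, norm_mul]
    congr 1
    rw [Complex.norm_eq_sqrt_sq_add_sq]
    norm_num
  have hre : r.re ^ 2 - r.im ^ 2 = z.re + z.im := by
    have := congrArg Complex.re hr
    simp [pow_two] at this
    linarith
  have hn' : r.re ^ 2 + r.im ^ 2 = √2 * ‖z‖ := by
    rw [← hn, Complex.sq_norm, Complex.normSq_apply]; ring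
  have e1 : (1 / r).re = r.re / (√2 * ‖z‖) := by
    rw [one_div, Complex.inv_re, Complex.normSq_apply, ← hn']
    congr 1; ring
  have e2 : √2 * ‖z‖ + (z.re + z.im) = 2 * r.re ^ 2 := by linarith
  unfold w
  rw [e1, e2]
  have e3 : √(2 * r.re ^ 2 / Real.pi) = √(2 / Real.pi) * r.re := by
    rw [show 2 * r.re ^ 2 / Real.pi = (2 / Real.pi) * r.re ^ 2 by ring, Real.sqrt_mul (by positivity),
      Real.sqrt_sq h0]
  rw [e3]; ring

theorem bound_int {τ : ℝ} (hτ : 0 < τ) :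
    IntegrableOn (fun ξ : ℝ => ξ ^ (-(1/2) : ℝ) * Real.exp (-(τ * ξ))) (Set.Ioi 0) := by
  have := integrableOn_rpow_mul_exp_neg_mul_rpow (s := (-(1/2) : ℝ)) (p := 1) (b := τ)
    (by norm_num) (by norm_num) hτ
  simpa using this

/-- The limiting integral. -/
theorem lim_int {z : ℂ} (hz : z.re ≠ z.im) :
    ∫ ξ in Set.Ioi (0:ℝ), (√(2 * ξ))⁻¹ * (Real.cos ((z.re + z.im) * ξ - Real.pi / 4) *
        Real.exp (-(|z.re - z.im| * ξ))) = Real.pi / 2 * w z := by
  have hp := Real.pi_pos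
  have h22 : √2 * √2 = 2 := Real.mul_self_sqrt (by norm_num)
  obtain ⟨τ, hτd⟩ : ∃ τ, τ = |z.re - z.im| := ⟨_, rfl⟩
  have hτ : 0 < τ := by rw [hτd]; exact abs_pos.2 (sub_ne_zero.2 hz)
  obtain ⟨σ, hσ⟩ : ∃ σ, σ = z.re + z.im := ⟨_, rfl⟩
  have hn : √2 * ‖z‖ = √(σ ^ 2 + τ ^ 2) := by
    rw [Complex.norm_eq_sqrt_sq_add_sq, ← Real.sqrt_mul (by norm_num), hτd, hσ, sq_abs]
    congr 1; ring
  rw [← hτd, ← hσ]
  set p : ℂ := ⟨τ, -σ⟩ with hpd
  have hpre : 0 < p.re := hτ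
  set e : ℂ := ⟨√2 / 2, -(√2 / 2)⟩ with he
  set g : ℝ → ℂ := fun y => (((√(2 * y))⁻¹ : ℝ) : ℂ) * (e * Complex.exp (-p * y)) with hg
  have hexp : ∀ y : ℝ, (e * Complex.exp (-p * y)).re =
      Real.cos (σ * y - Real.pi / 4) * Real.exp (-(τ * y)) := by
    intro y
    rw [Complex.mul_re, Complex.exp_re, Complex.exp_im]
    have h1 : (-p * (y:ℂ)).re = -(τ * y) := by
      rw [Complex.re_mul_ofReal]; simp [hpd]
    have h2 : (-p * (y:ℂ)).im = σ * y := by
      rw [Complex.im_mul_ofReal]; simp [hpd]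
    rw [h1, h2, Real.cos_sub, Real.cos_pi_div_four, Real.sin_pi_div_four]
    simp only [he]
    ring
  have hre : ∀ y : ℝ, (g y).re = (√(2 * y))⁻¹ * (Real.cos (σ * y - Real.pi / 4) * Real.exp (-(τ * y))) := by
    intro y
    simp only [hg]
    rw [Complex.re_ofReal_mul, hexp]
  have hgi : IntegrableOn g (Set.Ioi 0) := by
    refine Integrable.mono' (bound_int hτ) ?_ ?_
    · refine Measurable.aestronglyMeasurable ?_
      simp only [hg]
      fun_prop
    · rw [ae_restrict_iff' measurableSet_Ioi]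
      refine Eventually.of_forall fun y (hy : 0 < y) => ?_
      simp only [hg]
      rw [norm_mul, norm_mul, Complex.norm_real, Complex.norm_exp, Real.norm_eq_abs,
        abs_of_nonneg (by positivity)]
      have h1 : (-p * (y:ℂ)).re = -(τ * y) := by
        rw [Complex.re_mul_ofReal]; simp [hpd]
      have h3 : ‖e‖ = 1 := by
        rw [Complex.norm_eq_sqrt_sq_add_sq, he]
        simp only
        rw [Real.sqrt_eq_one]
        nlinarith
      rw [h1, h3, one_mul]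
      gcongr
      rw [Real.rpow_neg hy.le, ← Real.sqrt_eq_rpow]
      exact inv_anti₀ (Real.sqrt_pos.2 hy) (Real.sqrt_le_sqrt (by linarith))
  have hcomp := integral_comp_rpow_Ioi g (p := 2) (by norm_num)
  have hval : ∫ y in Set.Ioi (0:ℝ), g y = √2 * e * ((Real.pi / p) ^ (1 / 2 : ℂ) / 2) := by
    rw [← integral_gaussian_complex_Ioi hpre, ← hcomp, ← MeasureTheory.integral_const_mul]
    refine setIntegral_congr_fun measurableSet_Ioi fun x (hx : 0 < x) => ?_
    have h1 : x ^ (2:ℝ) = x ^ 2 := by norm_cast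
    have h2 : x ^ ((2:ℝ) - 1) = x := by norm_num
    simp only [hg]
    rw [h1, h2, abs_of_pos (by norm_num)]
    have h3 : √(2 * x ^ 2) = √2 * x := by
      rw [Real.sqrt_mul (by norm_num), Real.sqrt_sq hx.le]
    rw [h3, Complex.real_smul]
    have h4 : (2 * x) * (√2 * x)⁻¹ = √2 := by
      field_simp
      linarith
    have h5 : (((2 * x : ℝ)) : ℂ) * (((√2 * x)⁻¹ : ℝ) : ℂ) = (√2 : ℂ) := by
      rw [← Complex.ofReal_mul, h4]
    push_cast at h5 ⊢
    calc _ = ((2 * (x:ℂ)) * ((√2 : ℂ) * x)⁻¹) * (e * Complex.exp (-p * (x:ℂ) ^ 2)) := by ring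
      _ = _ := by rw [h5]; ring
  have hint : ∫ ξ in Set.Ioi (0:ℝ), (√(2 * ξ))⁻¹ * (Real.cos (σ * ξ - Real.pi / 4) *
        Real.exp (-(τ * ξ))) = (∫ y in Set.Ioi (0:ℝ), g y).re := by
    have := Complex.reCLM.integral_comp_comm hgi
    simp only [Complex.reCLM_apply, hre] at this
    exact this
  rw [hint, hval]
  -- the value
  obtain ⟨u, hu⟩ : ∃ u, u = (Real.pi / p : ℂ) ^ (1 / 2 : ℂ) := ⟨_, rfl⟩
  have hu0 : 0 ≤ u.re := by rw [hu]; exact sqrt_re_nonneg
  have hu2 : u ^ 2 = Real.pi / p := by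
    rw [hu, ← Complex.cpow_nat_mul]
    norm_num
  have hn0 : 0 < σ ^ 2 + τ ^ 2 := by positivity
  have hpn : Complex.normSq p = σ ^ 2 + τ ^ 2 := by
    rw [Complex.normSq_apply, hpd]; ring
  have hdiv : (Real.pi / p : ℂ) = ⟨Real.pi * τ / (σ ^ 2 + τ ^ 2), Real.pi * σ / (σ ^ 2 + τ ^ 2)⟩ := by
    apply Complex.ext
    · rw [Complex.div_re, hpn]
      simp [hpd]
    · rw [Complex.div_im, hpn]
      simp [hpd]
      ring
  have q1 : u.re ^ 2 - u.im ^ 2 = Real.pi * τ / (σ ^ 2 + τ ^ 2) := by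
    have := congrArg Complex.re (hu2.trans hdiv)
    simp [pow_two] at this
    rw [pow_two, pow_two, pow_two, pow_two]
    exact this
  have q2 : 2 * (u.re * u.im) = Real.pi * σ / (σ ^ 2 + τ ^ 2) := by
    have := congrArg Complex.im (hu2.trans hdiv)
    simp [pow_two] at this
    rw [pow_two, pow_two]
    linarith
  have q3 : u.re ^ 2 + u.im ^ 2 = Real.pi / √(σ ^ 2 + τ ^ 2) := by
    have h1 : (u.re ^ 2 + u.im ^ 2) ^ 2 = (Real.pi / √(σ ^ 2 + τ ^ 2)) ^ 2 := by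
      rw [div_pow, Real.sq_sqrt hn0.le]
      have : (u.re ^ 2 + u.im ^ 2) ^ 2 = (u.re ^ 2 - u.im ^ 2) ^ 2 + (2 * (u.re * u.im)) ^ 2 := by ring
      rw [this, q1, q2]
      field_simp
      ring
    exact (pow_left_inj₀ (by positivity) (by positivity) two_ne_zero).1 h1
  have hsum0 : 0 ≤ u.re + u.im := by
    have h1 : 0 < u.re ^ 2 - u.im ^ 2 := by rw [q1]; positivity
    nlinarith [abs_nonneg (u.re), sq_nonneg (u.re + u.im)]
  have hs2 : (u.re + u.im) ^ 2 = Real.pi * (√(σ ^ 2 + τ ^ 2) + σ) / (σ ^ 2 + τ ^ 2) := by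
    have h1 : (u.re + u.im) ^ 2 = (u.re ^ 2 + u.im ^ 2) + 2 * (u.re * u.im) := by ring
    rw [h1, q3, q2]
    have h2 : √(σ ^ 2 + τ ^ 2) * √(σ ^ 2 + τ ^ 2) = σ ^ 2 + τ ^ 2 := Real.mul_self_sqrt hn0.le
    have h3 : √(σ ^ 2 + τ ^ 2) ≠ 0 := (Real.sqrt_pos.2 hn0).ne'
    have h4 : Real.pi / √(σ ^ 2 + τ ^ 2) = Real.pi * √(σ ^ 2 + τ ^ 2) / (σ ^ 2 + τ ^ 2) := by
      rw [div_eq_div_iff h3 hn0.ne']; rw [mul_assoc, h2]
    rw [h4]; ring
  have hs : u.re + u.im = Real.pi * (√((√(σ ^ 2 + τ ^ 2) + σ) / Real.pi) / √(σ ^ 2 + τ ^ 2)) := by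
    have hge : 0 ≤ √(σ ^ 2 + τ ^ 2) + σ := by
      have : |σ| ≤ √(σ ^ 2 + τ ^ 2) := Real.abs_le_sqrt (by nlinarith [sq_nonneg τ])
      linarith [neg_abs_le σ]
    refine (pow_left_inj₀ hsum0 (by positivity) two_ne_zero).1 ?_
    rw [hs2, mul_pow, div_pow, Real.sq_sqrt hn0.le, Real.sq_sqrt (by positivity)]
    field_simp
  rw [← hu]
  have hfin : ((√2 : ℂ) * e * (u / 2)).re = (u.re + u.im) / 2 := by
    have : (√2 : ℂ) * e = ⟨1, -1⟩ := by
      apply Complex.ext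
      · rw [Complex.re_ofReal_mul, he]; simp only; linarith
      · rw [Complex.im_ofReal_mul, he]; simp only; linarith
    rw [this, Complex.mul_re]
    simp
    ring
  rw [hfin, hs]
  unfold w
  rw [hn, ← hσ]
  ring

theorem W_lim_off {z : ℂ} (hz : z.re ≠ z.im) :
    Tendsto (fun p : ℝ × Site => (√p.1)⁻¹ * W p.2) (FF z) (𝓝 (w z)) := by
  have hp := Real.pi_pos
  have hτ : 0 < |z.re - z.im| := abs_pos.2 (sub_ne_zero.2 hz)
  set τ := |z.re - z.im| with hτd
  have ha := FF_fst z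
  have hpos : ∀ᶠ p : ℝ × Site in FF z, 0 < p.1 := ha.eventually self_mem_nhdsWithin
  have hpt := FF_pt z
  have hre : Tendsto (fun p : ℝ × Site => p.1 * p.2.1) (FF z) (𝓝 z.re) :=
    (Complex.continuous_re.tendsto z).comp hpt
  have him : Tendsto (fun p : ℝ × Site => p.1 * p.2.2) (FF z) (𝓝 z.im) :=
    (Complex.continuous_im.tendsto z).comp hpt
  have hτl : ∀ᶠ p : ℝ × Site in FF z, τ / 2 < |p.1 * p.2.1 - p.1 * p.2.2| :=
    (hre.sub him).abs.eventually (lt_mem_nhds (by linarith))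
  set g : ℝ × Site → ℝ → ℝ := fun p ξ => √p.1 * wt (p.1 * ξ) *
      (Real.cos (((((p.2.1 + p.2.2 : ℤ)) : ℝ) + 1 / 2) * (p.1 * ξ) - Real.pi / 4) *
        rh (p.1 * ξ) ^ (p.2.1 - p.2.2).natAbs) with hg
  have hrepr : ∀ᶠ p : ℝ × Site in FF z, 2 / Real.pi * (∫ ξ in Set.Ioi (0:ℝ),
      (Set.Ioc 0 (Real.pi / 2 / p.1)).indicator (g p) ξ) = (√p.1)⁻¹ * W p.2 := by
    filter_upwards [hpos] with p h0
    rw [setIntegral_indicator measurableSet_Ioc, Set.inter_eq_right.2 Set.Ioc_subset_Ioi_self,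
      ← integral_of_le (by positivity)]
    unfold W GG
    have h1 := intervalIntegral.mul_integral_comp_mul_left (a := 0) (b := Real.pi / 2 / p.1) p.1
      (f := fun θ => wt θ * (Real.cos (((((p.2.1 + p.2.2 : ℤ)) : ℝ) + 1 / 2) * θ - Real.pi / 4) *
        rh θ ^ (p.2.1 - p.2.2).natAbs))
    rw [mul_zero, mul_div_cancel₀ _ h0.ne'] at h1
    rw [← h1]
    have h2 : (∫ ξ in (0:ℝ)..(Real.pi / 2 / p.1), g p ξ) = √p.1 * ∫ ξ in (0:ℝ)..(Real.pi / 2 / p.1),
        wt (p.1 * ξ) * (Real.cos (((((p.2.1 + p.2.2 : ℤ)) : ℝ) + 1 / 2) * (p.1 * ξ) - Real.pi / 4) *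
        rh (p.1 * ξ) ^ (p.2.1 - p.2.2).natAbs) := by
      rw [← intervalIntegral.integral_const_mul]
      refine integral_congr fun ξ _ => ?_
      simp only [hg]; ring
    rw [h2]
    have h3 : (√p.1)⁻¹ * p.1 = √p.1 := by
      have : √p.1 ≠ 0 := (Real.sqrt_pos.2 h0).ne'
      field_simp
      rw [pow_two, Real.mul_self_sqrt h0.le]
    calc _ = 2 / Real.pi * (((√p.1)⁻¹ * p.1) * ∫ ξ in (0:ℝ)..(Real.pi / 2 / p.1),
        wt (p.1 * ξ) * (Real.cos (((((p.2.1 + p.2.2 : ℤ)) : ℝ) + 1 / 2) * (p.1 * ξ) - Real.pi / 4) *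
        rh (p.1 * ξ) ^ (p.2.1 - p.2.2).natAbs)) := by rw [h3]
      _ = _ := by ring
  refine Tendsto.congr' hrepr ?_
  have e : w z = 2 / Real.pi * (Real.pi / 2 * w z) := by field_simp
  rw [e, ← lim_int hz]
  refine Tendsto.const_mul _ ?_
  refine tendsto_integral_filter_of_dominated_convergence
    (fun ξ => ξ ^ (-(1/2) : ℝ) * Real.exp (-(τ / 8 * ξ))) ?_ ?_ (bound_int (by positivity)) ?_
  · refine Eventually.of_forall fun p => ?_
    refine AEStronglyMeasurable.indicator ?_ measurableSet_Ioc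
    refine Measurable.aestronglyMeasurable ?_
    have m1 : Measurable fun ξ : ℝ => wt (p.1 * ξ) := wt_meas.comp (measurable_const_mul _)
    have m2 : Measurable fun ξ : ℝ => rh (p.1 * ξ) := rh_cont.measurable.comp (measurable_const_mul _)
    simp only [hg]
    refine (m1.const_mul _).mul (Measurable.mul ?_ (m2.pow_const _))
    exact Real.measurable_cos.comp (((measurable_const_mul _).const_mul _).sub_const _)
  · filter_upwards [hpos, hτl] with p h0 h1
    rw [ae_restrict_iff' measurableSet_Ioi]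
    refine Eventually.of_forall fun ξ (hξ : 0 < ξ) => ?_
    by_cases hm : ξ ∈ Set.Ioc 0 (Real.pi / 2 / p.1)
    · rw [Set.indicator_of_mem hm]
      have hx0 : 0 < p.1 * ξ := mul_pos h0 hξ
      have hx1 : p.1 * ξ ≤ Real.pi / 2 := by
        have := hm.2
        rw [le_div_iff₀ h0] at this
        linarith
      have hr := rh_mem (mem_u hx0.le hx1)
      simp only [hg]
      rw [norm_mul, norm_mul, norm_mul, Real.norm_eq_abs, Real.norm_eq_abs, Real.norm_eq_abs,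
        Real.norm_eq_abs, abs_of_nonneg (Real.sqrt_nonneg _), abs_of_nonneg (wt_nonneg _),
        abs_of_nonneg (pow_nonneg hr.1 _)]
      refine mul_le_mul ?_ ?_ (mul_nonneg (abs_nonneg _) (pow_nonneg hr.1 _))
        (Real.rpow_nonneg hξ.le _)
      · calc √p.1 * wt (p.1 * ξ) ≤ √p.1 * (p.1 * ξ) ^ (-(1/2) : ℝ) := by
              gcongr; exact wt_le hx0 hx1
          _ = ξ ^ (-(1/2) : ℝ) := by
              rw [Real.mul_rpow h0.le hξ.le, Real.sqrt_eq_rpow, ← mul_assoc, ← Real.rpow_add h0]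
              norm_num
      · have h4 : rh (p.1 * ξ) ^ (p.2.1 - p.2.2).natAbs ≤
            Real.exp (-(p.1 * ξ / 4)) ^ (p.2.1 - p.2.2).natAbs :=
          pow_le_pow_left₀ hr.1 (rh_exp hx0.le hx1) _
        rw [← Real.exp_nat_mul] at h4
        refine (mul_le_of_le_one_left (pow_nonneg hr.1 _) (Real.abs_cos_le_one _)).trans
          (h4.trans (Real.exp_le_exp.2 ?_))
        rw [Nat.cast_natAbs]
        push_cast
        rw [← mul_sub, abs_mul, abs_of_pos h0] at h1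
        nlinarith
    · rw [Set.indicator_of_notMem hm, norm_zero]
      exact mul_nonneg (Real.rpow_nonneg hξ.le _) (Real.exp_pos _).le
  · rw [ae_restrict_iff' measurableSet_Ioi]
    refine Eventually.of_forall fun ξ (hξ : 0 < ξ) => ?_
    refine (integrand_lim z hξ).congr' ?_
    have hsm : ∀ᶠ p : ℝ × Site in FF z, p.1 * ξ < Real.pi / 2 := by
      have ha' : Tendsto (fun p : ℝ × Site => p.1) (FF z) (𝓝 0) := ha.mono_right nhdsWithin_le_nhds
      have : Tendsto (fun p : ℝ × Site => p.1 * ξ) (FF z) (𝓝 0) := by simpa using ha'.mul_const ξ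
      exact this.eventually (gt_mem_nhds (by positivity))
    filter_upwards [hpos, hsm] with p h0 h1
    rw [Set.indicator_of_mem]
    exact ⟨hξ, by rw [le_div_iff₀ h0]; linarith⟩

end Vale.Agent.P144.H365
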