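import Vale.Agent.P144.H365.Ker3

/-!
Locally uniform convergence of the rescaled slit kernel.
-/

namespace Vale.Agent.P144.H365

open Finset MeasureTheory Filter Topology Vale.Agent.P144

theorem w_cont {z : ℂ} (hz : z ≠ 0) : ContinuousAt w z := by
  unfold w
  have h : √2 * ‖z‖ ≠ 0 := by
    have := norm_pos_iff.2 hz
    positivity
  refine ContinuousAt.div ?_ (continuousAt_const.mul continuous_norm.continuousAt) h
  refine Real.continuous_sqrt.continuousAt.comp ?_
  exact ((continuousAt_const.mul continuous_norm.continuousAt).add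
    (Complex.continuous_re.continuousAt.add Complex.continuous_im.continuousAt)).div_const _

theorem w_slit {z : ℂ} (h : z.re = z.im) (h0 : z.re ≤ 0) : w z = 0 := by
  unfold w
  have : √2 * ‖z‖ + (z.re + z.im) = 0 := by
    rw [Complex.norm_eq_sqrt_sq_add_sq, ← h, ← Real.sqrt_mul (by norm_num),
      show (2:ℝ) * (z.re ^ 2 + z.re ^ 2) = (-(2 * z.re)) ^ 2 by ring, Real.sqrt_sq (by linarith)]
    ring
  rw [this]; simp

theorem near_large {a r : ℝ} {z : ℂ} {x : Site} (ha : 0 < a) (hr : r ≤ ‖z‖ / 2)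
    (hx : ‖H170.pt a x - z‖ ≤ r) : ‖z‖ / 2 / a ≤ |(x.1:ℝ)| + |(x.2:ℝ)| := by
  rw [div_le_iff₀ ha]
  have h1 : ‖z‖ ≤ ‖H170.pt a x‖ + ‖H170.pt a x - z‖ := by
    have := norm_sub_norm_le z (z - H170.pt a x)
    rw [sub_sub_cancel, norm_sub_rev z] at this
    linarith
  have h2 : ‖H170.pt a x‖ ≤ a * (|(x.1:ℝ)| + |(x.2:ℝ)|) := by
    refine (Complex.norm_le_abs_re_add_abs_im _).trans ?_
    simp only [H170.pt, abs_mul, abs_of_pos ha]
    linarith
  linarith

/-- The rescaled kernel is bounded away from `0`. -/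
theorem W_scaled_bound {a r : ℝ} {z : ℂ} {x : Site} (ha : 0 < a) (hz : z ≠ 0) (hr : r ≤ ‖z‖ / 2)
    (hx : ‖H170.pt a x - z‖ ≤ r) : |(√a)⁻¹ * W x| ≤ 8 / √(‖z‖ / 2) := by
  have hz' : 0 < ‖z‖ := norm_pos_iff.2 hz
  have hn : 0 < ‖z‖ / 2 / a := by positivity
  have := W_bound hn (near_large ha hr hx)
  rw [abs_mul, abs_of_nonneg (by positivity)]
  have hs : 0 < √a := Real.sqrt_pos.2 ha
  have e : √(‖z‖ / 2 / a) = √(‖z‖ / 2) / √a := Real.sqrt_div (by positivity) _
  rw [e] at this
  calc (√a)⁻¹ * |W x| ≤ (√a)⁻¹ * (8 / (√(‖z‖ / 2) / √a)) := by gcongr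
    _ = 8 / √(‖z‖ / 2) := by field_simp

/-- The complement of the closed slit. -/
def US : Set ℂ := {z | ¬ (z.re = z.im ∧ z.re ≤ 0)}

theorem US_open : IsOpen US := by
  have : US = {z : ℂ | z.re = z.im ∧ z.re ≤ 0}ᶜ := rfl
  rw [this, isOpen_compl_iff]
  exact (isClosed_eq Complex.continuous_re Complex.continuous_im).inter
    (isClosed_le Complex.continuous_re continuous_const)

theorem US_ne {z : ℂ} (hz : z ∈ US) : z ≠ 0 := by
  rintro rfl
  exact hz ⟨rfl, le_rfl⟩

theorem W_locB {ι : Type*} {l : Filter ι} {a : ι → ℝ} (ha : Tendsto a l (𝓝[>] 0)) :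
    H170.LocB l a US (fun k x => (√(a k))⁻¹ * W x) := by
  intro z hz
  obtain ⟨s, hs, hsU⟩ := Metric.isOpen_iff.1 US_open z hz
  have hz' : 0 < ‖z‖ := norm_pos_iff.2 (US_ne hz)
  refine ⟨min (s / 2) (‖z‖ / 2), by positivity, 8 / √(‖z‖ / 2), ?_⟩
  filter_upwards [ha.eventually self_mem_nhdsWithin] with k hk x hx
  have hk' : 0 < a k := hk
  refine ⟨?_, W_scaled_bound hk (US_ne hz) (min_le_right _ _) hx⟩
  rw [H170.lap_const_mul]
  have hm : H170.pt (a k) x ∈ US := hsU (by
    rw [Metric.mem_ball, dist_eq_norm]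
    exact hx.trans_lt ((min_le_left _ _).trans_lt (by linarith)))
  rw [W_harm, mul_zero]
  rintro ⟨h1, h2⟩
  refine hm ⟨?_, ?_⟩
  · simp only [H170.pt]; rw [h1]
  · simp only [H170.pt]
    have : (x.1:ℝ) ≤ 0 := by exact_mod_cast h2
    nlinarith

/-- The odd extension across the slit. -/
noncomputable def Wo (x : Site) : ℝ := if x.1 ≤ x.2 then W x else - W x

theorem Wo_abs (x : Site) : |Wo x| = |W x| := by
  unfold Wo; split_ifs
  · rfl
  · rw [abs_neg]

theorem Wo_harm {x : Site} (hx : x.1 + x.2 < -1) : H170.lap Wo x = 0 := by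
  rcases lt_trichotomy x.1 x.2 with h | h | h
  · have := W_harm (x := x) (by lia)
    rw [← this]
    unfold H170.lap Wo
    simp only [Prod.fst_add, Prod.snd_add, Prod.fst_sub, Prod.snd_sub]
    rw [if_pos (by lia), if_pos (by lia), if_pos (by lia), if_pos (by lia), if_pos (by lia)]
  · have hx' : x = (x.1, x.1) := Prod.ext rfl h.symm
    rw [hx']
    obtain ⟨i, hi⟩ : ∃ i, i = x.1 := ⟨_, rfl⟩
    rw [← hi]
    unfold H170.lap Wo
    have n1 : ((i, i) + ((1, 0) : Site)) = (i + 1, i) := by ext <;> simp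
    have n2 : ((i, i) - ((1, 0) : Site)) = (i - 1, i) := by ext <;> simp
    have n3 : ((i, i) + ((0, 1) : Site)) = (i, i + 1) := by ext <;> simp
    have n4 : ((i, i) - ((0, 1) : Site)) = (i, i - 1) := by ext <;> simp
    rw [n1, n2, n3, n4]
    simp only
    rw [if_neg (by lia), if_pos (by lia), if_pos (by lia), if_neg (by lia), if_pos le_rfl,
      W_slit (by lia)]
    have s1 := W_swap (i + 1, i)
    have s2 := W_swap (i - 1, i)
    simp only [Prod.swap_prod_mk] at s1 s2
    rw [s1, s2]; ring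
  · have := W_harm (x := x) (by lia)
    have e : ∀ y : Site, y.1 ≥ y.2 → y.1 + y.2 < 0 → Wo y = - W y := by
      intro y hy1 hy2
      unfold Wo
      by_cases hh : y.1 ≤ y.2
      · rw [if_pos hh]
        have : y = (y.1, y.1) := Prod.ext rfl (le_antisymm hy1 hh)
        rw [this, W_slit (by lia)]; simp
      · rw [if_neg hh]
    unfold H170.lap at this ⊢
    rw [e, e, e, e, e]
    · linarith
    all_goals first
      | lia
      | (simp only [Prod.fst_add, Prod.snd_add, Prod.fst_sub, Prod.snd_sub]; lia)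

/-- The half-plane in which the odd extension is harmonic. -/
def UL : Set ℂ := {z | z.re + z.im < 0}

theorem UL_open : IsOpen UL :=
  isOpen_lt (Complex.continuous_re.add Complex.continuous_im) continuous_const

theorem UL_ne {z : ℂ} (hz : z ∈ UL) : z ≠ 0 := by
  rintro rfl
  simp [UL] at hz

theorem Wo_locB {ι : Type*} {l : Filter ι} {a : ι → ℝ} (ha : Tendsto a l (𝓝[>] 0)) :
    H170.LocB l a UL (fun k x => (√(a k))⁻¹ * Wo x) := by
  intro z hz
  have hz0 : z.re + z.im < 0 := hz
  have hz' : 0 < ‖z‖ := norm_pos_iff.2 (UL_ne hz)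
  set s := -(z.re + z.im) with hs
  have hs0 : 0 < s := by linarith
  refine ⟨min (s / 4) (‖z‖ / 2), by positivity, 8 / √(‖z‖ / 2), ?_⟩
  have ha1 : ∀ᶠ k in l, a k < s / 4 :=
    (ha.mono_right nhdsWithin_le_nhds).eventually (gt_mem_nhds (by positivity))
  filter_upwards [ha.eventually self_mem_nhdsWithin, ha1] with k hk hk1 x hx
  have hk' : 0 < a k := hk
  refine ⟨?_, ?_⟩
  · rw [H170.lap_const_mul, Wo_harm, mul_zero]
    have h1 := (Complex.abs_re_le_norm _).trans hx
    have h2 := (Complex.abs_im_le_norm _).trans hx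
    simp only [H170.pt, Complex.sub_re, Complex.sub_im] at h1 h2
    have h3 : min (s / 4) (‖z‖ / 2) ≤ s / 4 := min_le_left _ _
    have h4 : a k * (x.1 + x.2) < -(s / 4) := by
      have := (abs_le.1 h1).2
      have := (abs_le.1 h2).2
      linarith
    have h5 : a k * ((x.1:ℝ) + x.2) < a k * (-1) := by linarith
    have h6 : ((x.1:ℝ) + x.2) < -1 := lt_of_mul_lt_mul_left h5 hk'.le
    exact_mod_cast h6
  · have := W_scaled_bound hk' (UL_ne hz) (min_le_right _ _) hx
    rwa [abs_mul, Wo_abs, ← abs_mul]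

theorem W_lim {z : ℂ} (hz : z ≠ 0) :
    Tendsto (fun p : ℝ × Site => (√p.1)⁻¹ * W p.2) (FF z) (𝓝 (w z)) := by
  rw [tendsto_iff_ultrafilter]
  intro 𝒰 hU
  have ha : Tendsto (fun p : ℝ × Site => p.1) 𝒰 (𝓝[>] 0) := (FF_fst z).mono_left hU
  have hpt : Tendsto (fun p : ℝ × Site => H170.pt p.1 p.2) 𝒰 (𝓝 z) := (FF_pt z).mono_left hU
  have hpos : ∀ᶠ p : ℝ × Site in 𝒰, 0 < p.1 := ha.eventually self_mem_nhdsWithin
  have conv : ∀ {V : Set ℂ} {h : ℝ × Site → Site → ℝ} {H : ℂ → ℝ},
      H170.CConv (𝒰 : Filter (ℝ × Site)) (fun p => p.1) V h H → z ∈ V →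
      Tendsto (fun p => h p p.2) 𝒰 (𝓝 (H z)) := by
    intro V h H hc hzV
    rw [Metric.tendsto_nhds]
    intro ε hε
    obtain ⟨r, hr, hk⟩ := hc z hzV (ε / 2) (by positivity)
    have h1 : ∀ᶠ p : ℝ × Site in 𝒰, ‖H170.pt p.1 p.2 - z‖ < r := by
      have := (tendsto_iff_norm_sub_tendsto_zero.1 hpt).eventually (gt_mem_nhds hr)
      exact this
    filter_upwards [hk, h1] with p h2 h3
    rw [Real.dist_eq]
    exact (h2 _ h3.le).trans_lt (by linarith)
  -- values off the diagonal
  have off : ∀ z' : ℂ, z'.re ≠ z'.im →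
      Tendsto (fun p : ℝ × Site => (√p.1)⁻¹ * W (fl p.1 z')) 𝒰 (𝓝 (w z')) := by
    intro z' hz'
    exact (W_lim_off hz').comp (tendsto_FF ha (H170.pt_fl_tendsto ha z'))
  by_cases hzU : z ∈ US
  · obtain ⟨H, hH⟩ := H170.exists_cconv ha (W_locB ha)
    have hHw : H z = w z := by
      by_cases hd : z.re = z.im
      · have hcont := (hH.cont ha US_open).continuousAt (US_open.mem_nhds hzU)
        have hc : Tendsto (fun t : ℝ => z + t * Complex.I) (𝓝[>] 0) (𝓝 z) := by
          have : ContinuousAt (fun t : ℝ => z + t * Complex.I) 0 := by fun_prop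
          have h2 := this.tendsto
          simp only [Complex.ofReal_zero, zero_mul, add_zero] at h2
          exact h2.mono_left nhdsWithin_le_nhds
        have t1 : Tendsto (fun t : ℝ => H (z + t * Complex.I)) (𝓝[>] 0) (𝓝 (H z)) :=
          hcont.tendsto.comp hc
        have t2 : Tendsto (fun t : ℝ => w (z + t * Complex.I)) (𝓝[>] 0) (𝓝 (w z)) :=
          (w_cont hz).tendsto.comp hc
        refine tendsto_nhds_unique (t1.congr' ?_) t2
        filter_upwards [self_mem_nhdsWithin, hc.eventually (US_open.mem_nhds hzU)] with t ht hU'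
        have hne : (z + t * Complex.I).re ≠ (z + t * Complex.I).im := by
          have : (0:ℝ) < t := ht
          simp only [Complex.add_re, Complex.add_im, Complex.mul_re, Complex.mul_im,
            Complex.ofReal_re, Complex.ofReal_im, Complex.I_re, Complex.I_im]
          intro h; linarith
        exact tendsto_nhds_unique (hH.at ha hU') (off _ hne)
      · exact tendsto_nhds_unique (hH.at ha hzU) (off _ hd)
    rw [← hHw]
    exact conv hH hzU
  · have hd : z.re = z.im ∧ z.re ≤ 0 := not_not.1 hzU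
    have hzL : z ∈ UL := by
      have : z.re ≠ 0 := fun h => hz (Complex.ext h (by rw [← hd.1, h]; rfl))
      have h2 : z.re < 0 := lt_of_le_of_ne hd.2 this
      show z.re + z.im < 0
      rw [← hd.1]; linarith
    obtain ⟨H, hH⟩ := H170.exists_cconv ha (Wo_locB ha)
    have hHw : H z = w z := by
      have hcont := (hH.cont ha UL_open).continuousAt (UL_open.mem_nhds hzL)
      have hc : Tendsto (fun t : ℝ => z + t * Complex.I) (𝓝[>] 0) (𝓝 z) := by
        have : ContinuousAt (fun t : ℝ => z + t * Complex.I) 0 := by fun_prop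
        have h2 := this.tendsto
        simp only [Complex.ofReal_zero, zero_mul, add_zero] at h2
        exact h2.mono_left nhdsWithin_le_nhds
      have t1 : Tendsto (fun t : ℝ => H (z + t * Complex.I)) (𝓝[>] 0) (𝓝 (H z)) :=
        hcont.tendsto.comp hc
      have t2 : Tendsto (fun t : ℝ => w (z + t * Complex.I)) (𝓝[>] 0) (𝓝 (w z)) :=
        (w_cont hz).tendsto.comp hc
      refine tendsto_nhds_unique (t1.congr' ?_) t2
      filter_upwards [self_mem_nhdsWithin, hc.eventually (UL_open.mem_nhds hzL)] with t ht hU'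
      have ht' : (0:ℝ) < t := ht
      have e1 : (z + t * Complex.I).re = z.re := by simp
      have e2 : (z + t * Complex.I).im = z.im + t := by simp
      have hne : (z + t * Complex.I).re ≠ (z + t * Complex.I).im := by
        rw [e1, e2]; intro h; linarith [hd.1]
      refine tendsto_nhds_unique (hH.at ha hU') ((off _ hne).congr' ?_)
      filter_upwards [hpos] with p hp
      have : (fl p.1 (z + t * Complex.I)).1 ≤ (fl p.1 (z + t * Complex.I)).2 := by
        unfold fl
        rw [e1, e2]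
        refine Int.floor_le_floor ?_
        gcongr
        linarith [hd.1]
      unfold Wo
      rw [if_pos this]
    have h1 := conv hH hzL
    rw [hHw, w_slit hd.1 hd.2] at h1
    rw [w_slit hd.1 hd.2]
    rw [tendsto_zero_iff_abs_tendsto_zero] at h1 ⊢
    refine h1.congr fun p => ?_
    simp only [Function.comp, abs_mul, Wo_abs]

/-- Locally uniform convergence of the rescaled kernel. -/
theorem W_cconv {ι : Type*} {l : Filter ι} {a : ι → ℝ} (ha : Tendsto a l (𝓝[>] 0)) :
    H170.CConv l a {z | z ≠ 0} (fun k x => (√(a k))⁻¹ * W x) w := by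
  intro z hz ε hε
  have h1 := (Metric.tendsto_nhds.1 (W_lim hz)) ε hε
  unfold FF at h1
  rw [eventually_comap] at h1
  have h2 := eventually_prod_iff.1 h1
  obtain ⟨pa, hpa, pb, hpb, h3⟩ := h2
  obtain ⟨r, hr, hball⟩ := Metric.eventually_nhds_iff.1 hpb
  refine ⟨r / 2, by positivity, ?_⟩
  filter_upwards [ha.eventually hpa] with k hk x hx
  have h4 := h3 hk (y := H170.pt (a k) x) (hball (by rw [dist_eq_norm]; linarith)) (a k, x) rfl
  rw [Real.dist_eq] at h4
  exact h4.le

end Vale.Agent.P144.H365
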