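import Vale.Agent.P144.H365.Ker4
import Vale.Agent.P144.H436.Pot

/-!
The coefficient at a branch point: a function that is harmonic off a slit and vanishes on it is, at
the tip, asymptotically determined by the leading coefficient of its scaling limit.
-/

namespace Vale.Agent.P144.H365

open Finset MeasureTheory Filter Topology Vale.Agent.P144

variable {ι : Type*} {l : Filter ι} {a : ι → ℝ}

theorem compact_ev {K : Set ℂ} (hK : IsCompact K) {P : ι → Site → Prop}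
    (h : ∀ z ∈ K, ∃ r > 0, ∀ᶠ k in l, ∀ x, ‖H170.pt (a k) x - z‖ ≤ r → P k x) :
    ∀ᶠ k in l, ∀ x, H170.pt (a k) x ∈ K → P k x := by
  refine hK.induction_on (p := fun S => ∀ᶠ k in l, ∀ x, H170.pt (a k) x ∈ S → P k x) ?_ ?_ ?_ ?_
  · simp
  · intro s t hst ht
    filter_upwards [ht] with k hk x hx
    exact hk x (hst hx)
  · intro s t hs ht
    filter_upwards [hs, ht] with k h1 h2 x hx
    rcases hx with hx | hx
    · exact h1 x hx
    · exact h2 x hx
  · intro z hz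
    obtain ⟨r, hr, hk⟩ := h z hz
    refine ⟨Metric.closedBall z r, mem_nhdsWithin_of_mem_nhds (Metric.closedBall_mem_nhds z hr), ?_⟩
    filter_upwards [hk] with k h1 x hx
    refine h1 x ?_
    rwa [Metric.mem_closedBall, dist_eq_norm] at hx

theorem finite_ball {b : ℝ} (hb : 0 < b) (ρ : ℝ) : {x : Site | ‖H170.pt b x‖ < ρ}.Finite := by
  refine Set.Finite.subset (s := (Finset.Icc (-⌈ρ / b⌉) ⌈ρ / b⌉ ×ˢ
    Finset.Icc (-⌈ρ / b⌉) ⌈ρ / b⌉ : Finset Site)) (Finset.finite_toSet _) ?_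
  intro x hx
  have h1 := (Complex.abs_re_le_norm _).trans_lt hx
  have h2 := (Complex.abs_im_le_norm _).trans_lt hx
  simp only [H170.pt, abs_mul, abs_of_pos hb] at h1 h2
  have key : ∀ t : ℤ, b * |(t:ℝ)| < ρ → -⌈ρ / b⌉ ≤ t ∧ t ≤ ⌈ρ / b⌉ := by
    intro t ht
    have h3 : |(t:ℝ)| < ρ / b := by rw [lt_div_iff₀ hb]; linarith
    have h4 : |(t:ℝ)| ≤ (⌈ρ / b⌉ : ℝ) := h3.le.trans (Int.le_ceil _)
    have h5 : |t| ≤ ⌈ρ / b⌉ := by exact_mod_cast h4
    exact abs_le.1 h5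
  simp only [Finset.coe_product, Finset.coe_Icc, Set.mem_prod, Set.mem_Icc]
  exact ⟨key _ h1, key _ h2⟩

theorem lap_eq (u : Site → ℝ) (x : Site) : H436.lap u x = H170.lap u x := by
  unfold H436.lap H170.lap
  have n2 : x + ((-1, 0) : Site) = x - (1, 0) := by ext <;> simp [sub_eq_add_neg]
  have n4 : x + ((0, -1) : Site) = x - (0, 1) := by ext <;> simp [sub_eq_add_neg]
  rw [n2, n4]

theorem lap_sub' (u v : Site → ℝ) (x : Site) :
    H170.lap (fun y => u y - v y) x = H170.lap u x - H170.lap v x := by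
  unfold H170.lap; ring

/-- Maximum principle in a discrete ball with a slit. -/
theorem max_slit {v : Site → ℝ} {b ρ S : ℝ} (hb : 0 < b)
    (hS : 0 ≤ S)
    (hh : ∀ x : Site, ‖H170.pt b x‖ < ρ → ¬ (x.1 = x.2 ∧ x.1 ≤ 0) → H170.lap v x = 0)
    (h0 : ∀ x : Site, x.1 = x.2 → x.1 ≤ 0 → ‖H170.pt b x‖ < ρ + b → v x = 0)
    (h1 : ∀ x : Site, ρ ≤ ‖H170.pt b x‖ → ‖H170.pt b x‖ < ρ + b → |v x| ≤ S)
    {x : Site} (hx : ‖H170.pt b x‖ < ρ) (hxs : ¬ (x.1 = x.2 ∧ x.1 ≤ 0)) : |v x| ≤ S := by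
  classical
  set Λ : Finset Site := (finite_ball hb ρ).toFinset.filter fun x => ¬ (x.1 = x.2 ∧ x.1 ≤ 0) with hΛ
  have mem : ∀ x : Site, x ∈ Λ ↔ ‖H170.pt b x‖ < ρ ∧ ¬ (x.1 = x.2 ∧ x.1 ≤ 0) := by
    intro x; rw [hΛ, Finset.mem_filter, Set.Finite.mem_toFinset]; rfl
  have nb : ∀ x e : Site, (e = (1, 0) ∨ e = (-1, 0) ∨ e = (0, 1) ∨ e = (0, -1)) →
      x + e ∈ Λ → ‖H170.pt b x‖ < ρ + b := by
    intro x e he hxe
    have h2 := ((mem _).1 hxe).1
    have h3 : ‖H170.pt b x - H170.pt b (x + e)‖ ≤ b := by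
      refine (H170.pt_sub_norm hb _ _).trans ?_
      rcases he with rfl | rfl | rfl | rfl <;> simp
    have h4 : ‖H170.pt b x‖ ≤ ‖H170.pt b (x + e)‖ + ‖H170.pt b x - H170.pt b (x + e)‖ := by
      have := norm_add_le (H170.pt b (x + e)) (H170.pt b x - H170.pt b (x + e))
      rwa [add_sub_cancel] at this
    linarith
  have key : ∀ y : Site, y ∉ Λ → (y + (1, 0) ∈ Λ ∨ y + (-1, 0) ∈ Λ ∨ y + (0, 1) ∈ Λ ∨
      y + (0, -1) ∈ Λ) → |v y| ≤ S := by
    intro y hy hn
    have hlt : ‖H170.pt b y‖ < ρ + b := by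
      rcases hn with h | h | h | h
      · exact nb y _ (Or.inl rfl) h
      · exact nb y _ (Or.inr (Or.inl rfl)) h
      · exact nb y _ (Or.inr (Or.inr (Or.inl rfl))) h
      · exact nb y _ (Or.inr (Or.inr (Or.inr rfl))) h
    by_cases hρ : ‖H170.pt b y‖ < ρ
    · have hs : y.1 = y.2 ∧ y.1 ≤ 0 := by
        by_contra hc
        exact hy ((mem y).2 ⟨hρ, hc⟩)
      rw [h0 y hs.1 hs.2 hlt, abs_zero]
      exact hS
    · exact h1 y (not_lt.1 hρ) hlt
  have hxΛ : x ∈ Λ := (mem x).2 ⟨hx, hxs⟩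
  have lapc : ∀ (f : Site → ℝ) (y : Site), H436.lap (fun z => f z - S) y = H170.lap f y := by
    intro f y
    rw [lap_eq]; unfold H170.lap; ring
  rw [abs_le]
  constructor
  · have := H436.max_principle' (Λ := Λ) (u := fun y => - v y - S)
      (fun y hy => by
        rw [lapc (fun z => - v z) y]
        have := hh y ((mem y).1 hy).1 ((mem y).1 hy).2
        unfold H170.lap at this ⊢
        linarith)
      (fun y hy hn => by have := (abs_le.1 (key y hy hn)).1; linarith) hxΛ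
    linarith
  · have := H436.max_principle' (Λ := Λ) (u := fun y => v y - S)
      (fun y hy => by rw [lapc v y, hh y ((mem y).1 hy).1 ((mem y).1 hy).2])
      (fun y hy hn => by have := (abs_le.1 (key y hy hn)).2; linarith) hxΛ
    linarith

theorem w_le {z : ℂ} (hz : z ≠ 0) : w z ≤ 1 / √‖z‖ := by
  have hz' : 0 < ‖z‖ := norm_pos_iff.2 hz
  have hp := Real.pi_gt_three
  have h22 : √2 * √2 = 2 := Real.mul_self_sqrt (by norm_num)
  have hs2 : √2 ≤ 2 := by
    rw [Real.sqrt_le_left (by norm_num)]; norm_num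
  have h1 : √2 * ‖z‖ + (z.re + z.im) ≤ 4 * ‖z‖ := by
    have a1 := (abs_le.1 (Complex.abs_re_le_norm z)).2
    have a2 := (abs_le.1 (Complex.abs_im_le_norm z)).2
    nlinarith
  have h2 : (√2 * ‖z‖ + (z.re + z.im)) / Real.pi ≤ 2 * ‖z‖ := by
    rw [div_le_iff₀ Real.pi_pos]
    nlinarith
  unfold w
  rw [div_le_div_iff₀ (by positivity) (Real.sqrt_pos.2 hz'), one_mul]
  calc √((√2 * ‖z‖ + (z.re + z.im)) / Real.pi) * √‖z‖ ≤ √(2 * ‖z‖) * √‖z‖ := by
        gcongr
    _ = √2 * ‖z‖ := by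
        rw [Real.sqrt_mul (by norm_num), mul_assoc, Real.mul_self_sqrt hz'.le]

theorem w_diag {t : ℝ} (ht : 0 < t) : w ⟨t, t⟩ = 1 / √(Real.pi * t) := by
  have hp := Real.pi_pos
  have hn : √2 * ‖(⟨t, t⟩ : ℂ)‖ = 2 * t := by
    rw [Complex.norm_eq_sqrt_sq_add_sq, ← Real.sqrt_mul (by norm_num),
      show (2:ℝ) * (t ^ 2 + t ^ 2) = (2 * t) ^ 2 by ring, Real.sqrt_sq (by linarith)]
  unfold w
  rw [hn]
  simp only
  have e : (2 * t + (t + t)) / Real.pi = (2 * t) ^ 2 / (Real.pi * t) := by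
    field_simp; ring
  rw [e, Real.sqrt_div (by positivity), Real.sqrt_sq (by linarith)]
  field_simp

/-- The value at the tip converges to the leading coefficient of the limit. -/
theorem loc_tip (ha : Tendsto a l (𝓝[>] 0)) {u : ι → Site → ℝ} {U : ℂ → ℝ} {R lam C : ℝ}
    (hR : 0 < R)
    (hharm : ∀ᶠ k in l, ∀ x : Site, ‖H170.pt (a k) x‖ < R → ¬ (x.1 = x.2 ∧ x.1 ≤ 0) →
      H170.lap (u k) x = 0)
    (hslit : ∀ᶠ k in l, ∀ x : Site, ‖H170.pt (a k) x‖ < R → x.1 = x.2 → x.1 < 0 → u k x = 0)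
    (hconv : H170.CConv l a {z | z ≠ 0 ∧ ‖z‖ < R} (fun k x => (√(a k))⁻¹ * u k x) U)
    (hU : ∀ z : ℂ, z ≠ 0 → ‖z‖ < R → |U z - lam * w z| ≤ C) :
    Tendsto (fun k => u k (0, 0)) l (𝓝 lam) := by
  rw [Metric.tendsto_nhds]
  intro ε hε
  have hC : 0 ≤ C := by
    have := hU ((R / 2 : ℝ) : ℂ) (by
      intro h
      have : (R / 2 : ℝ) = 0 := by exact_mod_cast h
      linarith) (by rw [Complex.norm_real, Real.norm_eq_abs, abs_of_pos (by positivity)]; linarith)
    exact (abs_nonneg _).trans this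
  set ρ := R / 2 with hρ
  have hρ0 : 0 < ρ := by positivity
  set M := 1 / √ρ with hM
  have hM0 : 0 ≤ M := by positivity
  set K := 2 * (2 * C + 1) / ε with hK
  have hK0 : 0 < K := by positivity
  -- the test point
  obtain ⟨t, ht0, ht1, ht2⟩ : ∃ t : ℝ, 0 < t ∧ ‖(⟨t, t⟩ : ℂ)‖ < ρ ∧ M + K + 1 ≤ w ⟨t, t⟩ := by
    refine ⟨min (ρ / 4) (1 / (Real.pi * (M + K + 1) ^ 2)), by positivity, ?_, ?_⟩
    · set t := min (ρ / 4) (1 / (Real.pi * (M + K + 1) ^ 2))
      have ht : 0 < t := by positivity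
      have h1 : t ≤ ρ / 4 := min_le_left _ _
      refine (Complex.norm_le_abs_re_add_abs_im _).trans_lt ?_
      simp only [abs_of_pos ht]
      linarith
    · set t := min (ρ / 4) (1 / (Real.pi * (M + K + 1) ^ 2)) with htd
      have ht : 0 < t := by positivity
      have h1 : t ≤ 1 / (Real.pi * (M + K + 1) ^ 2) := min_le_right _ _
      have hp := Real.pi_pos
      rw [w_diag ht, le_div_iff₀ (Real.sqrt_pos.2 (by positivity))]
      have h2 : Real.pi * t ≤ (1 / (M + K + 1)) ^ 2 := by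
        rw [le_div_iff₀ (by positivity)] at h1
        rw [div_pow, one_pow, le_div_iff₀ (by positivity)]
        linarith
      have h3 : √(Real.pi * t) ≤ 1 / (M + K + 1) := by
        refine (Real.sqrt_le_sqrt h2).trans ?_
        rw [Real.sqrt_sq (by positivity)]
      calc (M + K + 1) * √(Real.pi * t) ≤ (M + K + 1) * (1 / (M + K + 1)) := by gcongr
        _ = 1 := by field_simp
  set z1 : ℂ := ⟨t, t⟩ with hz1
  have hz10 : z1 ≠ 0 := by
    intro h
    have := congrArg Complex.re h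
    simp [hz1] at this
    linarith
  obtain ⟨δ, hδ0, hδ1, hδ2⟩ : ∃ δ : ℝ, 0 < δ ∧ δ ≤ 1 / 4 ∧ 2 * δ * (1 + |lam|) ≤ 1 := by
    refine ⟨min (1 / 4) (1 / (2 * (1 + |lam|))), by positivity, min_le_left _ _, ?_⟩
    have h1 : min (1 / 4) (1 / (2 * (1 + |lam|))) ≤ 1 / (2 * (1 + |lam|)) := min_le_right _ _
    have h2 : 0 < 1 + |lam| := by positivity
    calc 2 * min (1 / 4) (1 / (2 * (1 + |lam|))) * (1 + |lam|)
        ≤ 2 * (1 / (2 * (1 + |lam|))) * (1 + |lam|) := by gcongr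
      _ = 1 := by field_simp
  have hW := W_cconv (l := l) (a := a) ha
  -- local estimate
  have near : ∀ z : ℂ, z ≠ 0 → ‖z‖ < R → ∃ r > 0, ∀ᶠ k in l, ∀ x, ‖H170.pt (a k) x - z‖ ≤ r →
      |(√(a k))⁻¹ * (u k x - u k (0, 0) * W x) - (lam - u k (0, 0)) * w z| ≤
        C + δ * (1 + |u k (0, 0)|) := by
    intro z hz hzR
    obtain ⟨r1, hr1, k1⟩ := hconv z ⟨hz, hzR⟩ δ hδ0
    obtain ⟨r2, hr2, k2⟩ := hW z hz δ hδ0
    refine ⟨min r1 r2, by positivity, ?_⟩
    filter_upwards [k1, k2] with k h1 h2 x hx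
    have e1 := h1 x (hx.trans (min_le_left _ _))
    have e2 := h2 x (hx.trans (min_le_right _ _))
    have e3 := hU z hz hzR
    have e4 : (√(a k))⁻¹ * (u k x - u k (0, 0) * W x) - (lam - u k (0, 0)) * w z =
        ((√(a k))⁻¹ * u k x - U z) + (U z - lam * w z) -
          u k (0, 0) * ((√(a k))⁻¹ * W x - w z) := by ring
    rw [e4]
    have e5 : |u k (0, 0) * ((√(a k))⁻¹ * W x - w z)| ≤ |u k (0, 0)| * δ := by
      rw [abs_mul]; gcongr
    have e6 := abs_sub (((√(a k))⁻¹ * u k x - U z) + (U z - lam * w z))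
      (u k (0, 0) * ((√(a k))⁻¹ * W x - w z))
    have e7 := abs_add_le ((√(a k))⁻¹ * u k x - U z) (U z - lam * w z)
    linarith
  -- on the annulus
  have hA : IsCompact (Metric.closedBall (0:ℂ) (3 * R / 4) \ Metric.ball 0 ρ) :=
    (isCompact_closedBall _ _).diff Metric.isOpen_ball
  have ann : ∀ᶠ k in l, ∀ x, H170.pt (a k) x ∈ Metric.closedBall (0:ℂ) (3 * R / 4) \ Metric.ball 0 ρ →
      |(√(a k))⁻¹ * (u k x - u k (0, 0) * W x)| ≤
        |lam - u k (0, 0)| * M + (C + δ * (1 + |u k (0, 0)|)) := by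
    refine compact_ev hA ?_
    rintro z ⟨hz1, hz2⟩
    rw [Metric.mem_closedBall, dist_zero_right] at hz1
    rw [Metric.mem_ball, dist_zero_right, not_lt] at hz2
    have hz0 : z ≠ 0 := by
      rintro rfl
      rw [norm_zero] at hz2
      linarith
    obtain ⟨r, hr, hk⟩ := near z hz0 (by linarith)
    refine ⟨r, hr, ?_⟩
    filter_upwards [hk] with k h1 x hx
    have e1 := h1 x hx
    have e2 : |(lam - u k (0, 0)) * w z| ≤ |lam - u k (0, 0)| * M := by
      rw [abs_mul]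
      have hw0 : 0 ≤ w z := by unfold w; positivity
      rw [abs_of_nonneg hw0]
      gcongr
      refine (w_le hz0).trans ?_
      rw [hM]
      exact one_div_le_one_div_of_le (Real.sqrt_pos.2 hρ0) (Real.sqrt_le_sqrt hz2)
    have e3 := abs_sub_abs_le_abs_sub ((√(a k))⁻¹ * (u k x - u k (0, 0) * W x))
      ((lam - u k (0, 0)) * w z)
    linarith
  obtain ⟨r, hr, hk⟩ := near z1 hz10 (by linarith)
  have ha0 : ∀ᶠ k in l, 0 < a k := ha.eventually self_mem_nhdsWithin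
  have ha1 : ∀ᶠ k in l, a k < R / 4 :=
    (ha.mono_right nhdsWithin_le_nhds).eventually (gt_mem_nhds (by positivity))
  have hfl := H170.pt_fl_tendsto ha z1
  have hfl1 : ∀ᶠ k in l, ‖H170.pt (a k) (fl (a k) z1) - z1‖ < r :=
    (tendsto_iff_norm_sub_tendsto_zero.1 hfl).eventually (gt_mem_nhds hr)
  have hfl2 : ∀ᶠ k in l, ‖H170.pt (a k) (fl (a k) z1)‖ < ρ :=
    hfl.norm.eventually (gt_mem_nhds ht1)
  have hfl3 : ∀ᶠ k in l, a k < t :=
    (ha.mono_right nhdsWithin_le_nhds).eventually (gt_mem_nhds ht0)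
  filter_upwards [hharm, hslit, ann, hk, ha0, ha1, hfl1, hfl2, hfl3] with k h1 h2 h3 h4 h5 h6 h7 h8 h9
  set b := u k (0, 0) with hb
  set S := |lam - b| * M + (C + δ * (1 + |b|)) with hS
  have hS0 : 0 ≤ S := by positivity
  have hmax : |(√(a k))⁻¹ * (u k (fl (a k) z1) - b * W (fl (a k) z1))| ≤ S := by
    refine max_slit (v := fun x => (√(a k))⁻¹ * (u k x - b * W x)) h5 hS0 ?_ ?_ ?_ h8 ?_
    · intro x hx hxs
      rw [H170.lap_const_mul, lap_sub', H170.lap_const_mul, W_harm hxs, h1 x (by linarith) hxs]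
      ring
    · intro x hx1 hx2 hx3
      by_cases h0 : x.1 = 0
      · have : x = (0, 0) := Prod.ext h0 (by rw [← hx1]; exact h0)
        simp only [this, W_tip, ← hb]
        ring
      · have hlt : x.1 < 0 := lt_of_le_of_ne hx2 h0
        rw [h2 x (by linarith) hx1 hlt]
        have : x = (x.1, x.1) := Prod.ext rfl hx1.symm
        rw [this, W_slit hlt]
        ring
    · intro x hx1 hx2
      refine h3 x ⟨?_, ?_⟩
      · rw [Metric.mem_closedBall, dist_zero_right]; linarith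
      · rw [Metric.mem_ball, dist_zero_right, not_lt]; exact hx1
    · -- the test point is off the slit
      rintro ⟨_, hs⟩
      have : 0 < (fl (a k) z1).1 := by
        show 0 < ⌊t / a k⌋
        refine Int.floor_pos.2 ?_
        rw [le_div_iff₀ h5]
        linarith
      lia
  have h10 := h4 _ h7.le
  have h11 : |lam - b| * w z1 ≤ S + (C + δ * (1 + |b|)) := by
    have e3 := abs_sub_abs_le_abs_sub ((lam - b) * w z1)
      ((√(a k))⁻¹ * (u k (fl (a k) z1) - b * W (fl (a k) z1)))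
    rw [abs_sub_comm ((lam - b) * w z1), abs_mul (lam - b)] at e3
    have hw0 : 0 ≤ w z1 := by unfold w; positivity
    rw [abs_of_nonneg hw0] at e3
    linarith
  have h12 : |b| ≤ |lam| + |lam - b| := by
    have := abs_sub_abs_le_abs_sub b lam
    rw [abs_sub_comm] at this
    linarith
  have h13 : |lam - b| * (M + K + 1) ≤ |lam - b| * w z1 :=
    mul_le_mul_of_nonneg_left ht2 (abs_nonneg _)
  have h14 : δ * |b| ≤ δ * (|lam| + |lam - b|) := mul_le_mul_of_nonneg_left h12 hδ0.le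
  have h15 : δ * |lam - b| ≤ 1 / 4 * |lam - b| := mul_le_mul_of_nonneg_right hδ1 (abs_nonneg _)
  have h16 : |lam - b| * K ≤ 2 * C + 1 := by
    rw [hS] at h11
    nlinarith [abs_nonneg (lam - b)]
  rw [Real.dist_eq, abs_sub_comm]
  have h17 : |lam - b| * (2 * (2 * C + 1)) ≤ (2 * C + 1) * ε := by
    rw [hK] at h16
    have : |lam - b| * (2 * (2 * C + 1) / ε) * ε ≤ (2 * C + 1) * ε :=
      mul_le_mul_of_nonneg_right h16 hε.le
    have e : |lam - b| * (2 * (2 * C + 1) / ε) * ε = |lam - b| * (2 * (2 * C + 1)) := by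
      field_simp
    rwa [e] at this
  have hc : 0 < 2 * C + 1 := by linarith
  have h18 : 2 * |lam - b| ≤ ε := by
    have : (2 * |lam - b|) * (2 * C + 1) ≤ ε * (2 * C + 1) := by linarith
    exact le_of_mul_le_mul_right this hc
  linarith

end Vale.Agent.P144.H365
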