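import Vale.Agent.P144.H365.Coef2

/-!
The values close to a branch point.
-/

namespace Vale.Agent.P144.H365

open MeasureTheory Filter Topology Vale.Agent.P144 Complex

variable {ι : Type*} {l : Filter ι} {a : ι → ℝ}

theorem pt_fixed (ha : Tendsto a l (𝓝[>] 0)) (x : Site) :
    Tendsto (fun k => ‖H170.pt (a k) x‖) l (𝓝 0) := by
  have h1 : ∀ k, ‖H170.pt (a k) x‖ = |a k| * ‖(⟨x.1, x.2⟩ : ℂ)‖ := by
    intro k
    have : H170.pt (a k) x = (a k : ℂ) * (⟨x.1, x.2⟩ : ℂ) := by
      apply Complex.ext <;> simp [H170.pt]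
    rw [this, norm_mul, norm_real, Real.norm_eq_abs]
  simp only [h1]
  have h2 := ((ha.mono_right nhdsWithin_le_nhds).abs).mul_const ‖(⟨x.1, x.2⟩ : ℂ)‖
  simpa using h2

/-- The values close to the tip. -/
theorem loc_all (ha : Tendsto a l (𝓝[>] 0)) {u : ι → Site → ℝ} {U : ℂ → ℝ} {R lam C : ℝ}
    (hR : 0 < R)
    (hharm : ∀ᶠ k in l, ∀ x : Site, ‖H170.pt (a k) x‖ < R → ¬ (x.1 = x.2 ∧ x.1 ≤ 0) →
      H170.lap (u k) x = 0)
    (hslit : ∀ᶠ k in l, ∀ x : Site, ‖H170.pt (a k) x‖ < R → x.1 = x.2 → x.1 < 0 → u k x = 0)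
    (hconv : H170.CConv l a {z | z ≠ 0 ∧ ‖z‖ < R} (fun k x => (√(a k))⁻¹ * u k x) U)
    (hU : ∀ z : ℂ, z ≠ 0 → ‖z‖ < R → |U z - lam * w z| ≤ C) (x₀ : Site) :
    Tendsto (fun k => u k x₀) l (𝓝 (lam * W x₀)) := by
  have hb := loc_tip ha hR hharm hslit hconv hU
  have hx₀ : ∀ r > 0, ∀ᶠ k in l, ‖H170.pt (a k) x₀‖ < r := fun r hr =>
    (pt_fixed ha x₀).eventually (gt_mem_nhds hr)
  by_cases hs : x₀.1 = x₀.2 ∧ x₀.1 ≤ 0
  · rcases hs.2.eq_or_lt with h0 | h0
    · have : x₀ = (0, 0) := Prod.ext h0 (by rw [← hs.1]; exact h0)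
      rw [this, W_tip, mul_one]; exact hb
    · have : x₀ = (x₀.1, x₀.1) := Prod.ext rfl hs.1.symm
      rw [this, W_slit h0, mul_zero]
      refine tendsto_const_nhds.congr' ?_
      filter_upwards [hslit, hx₀ R hR] with k h1 h2
      rw [← this]
      exact (h1 x₀ h2 hs.1 h0).symm
  · have hC : 0 ≤ C := by
      have := hU ((R / 2 : ℝ) : ℂ) (by
        intro h
        have : (R / 2 : ℝ) = 0 := by exact_mod_cast h
        linarith) (by rw [Complex.norm_real, Real.norm_eq_abs, abs_of_pos (by positivity)]; linarith)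
      exact (abs_nonneg _).trans this
    set ρ := R / 2 with hρ
    have hρ0 : 0 < ρ := by positivity
    have hc : H170.CConv l a {z | z ≠ 0 ∧ ‖z‖ < R}
        (fun k x => (√(a k))⁻¹ * (u k x - u k (0, 0) * W x)) (fun z => U z - lam * w z) := by
      have c2 := W_cconv (l := l) (a := a) ha
      rw [H170.cconv_iff] at hconv c2 ⊢
      rintro z ⟨hz0, hzR⟩
      have d1 := hconv z ⟨hz0, hzR⟩
      have d2 := c2 z hz0
      have d3 := (hb.comp (H170.tendsto_fst_nf (a := a) z)).mul d2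
      refine (d1.sub d3).congr fun kx => ?_
      simp only [Function.comp_apply]
      ring
    have hA : IsCompact (Metric.closedBall (0:ℂ) (3 * R / 4) \ Metric.ball 0 ρ) :=
      (isCompact_closedBall _ _).diff Metric.isOpen_ball
    have ann : ∀ᶠ k in l, ∀ x, H170.pt (a k) x ∈ Metric.closedBall (0:ℂ) (3 * R / 4) \ Metric.ball 0 ρ →
        |(√(a k))⁻¹ * (u k x - u k (0, 0) * W x)| ≤ C + 1 := by
      refine compact_ev hA ?_
      rintro z ⟨hz1, hz2⟩
      rw [Metric.mem_closedBall, dist_zero_right] at hz1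
      rw [Metric.mem_ball, dist_zero_right, not_lt] at hz2
      have hz0 : z ≠ 0 := by
        rintro rfl
        rw [norm_zero] at hz2
        linarith
      obtain ⟨r, hr, hk⟩ := hc z ⟨hz0, by linarith⟩ 1 one_pos
      refine ⟨r, hr, ?_⟩
      filter_upwards [hk] with k h1 x hx
      have e1 := h1 x hx
      have e2 := hU z hz0 (by linarith)
      have e3 := abs_sub_abs_le_abs_sub ((√(a k))⁻¹ * (u k x - u k (0, 0) * W x)) (U z - lam * w z)
      linarith
    have ha0 : ∀ᶠ k in l, 0 < a k := ha.eventually self_mem_nhdsWithin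
    have ha1 : ∀ᶠ k in l, a k < R / 4 :=
      (ha.mono_right nhdsWithin_le_nhds).eventually (gt_mem_nhds (by positivity))
    have bd : ∀ᶠ k in l, |u k x₀ - u k (0, 0) * W x₀| ≤ √(a k) * (C + 1) := by
      filter_upwards [hharm, hslit, ann, ha0, ha1, hx₀ ρ hρ0] with k h1 h2 h3 h5 h6 h7
      have hmax : |(√(a k))⁻¹ * (u k x₀ - u k (0, 0) * W x₀)| ≤ C + 1 := by
        refine max_slit (v := fun x => (√(a k))⁻¹ * (u k x - u k (0, 0) * W x)) h5 (by linarith)
          ?_ ?_ ?_ h7 hs
        · intro x hx hxs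
          rw [H170.lap_const_mul, lap_sub', H170.lap_const_mul, W_harm hxs, h1 x (by linarith) hxs]
          ring
        · intro x hx1 hx2 hx3
          by_cases h0 : x.1 = 0
          · have : x = (0, 0) := Prod.ext h0 (by rw [← hx1]; exact h0)
            simp only [this, W_tip]
            ring
          · have hlt : x.1 < 0 := lt_of_le_of_ne hx2 h0
            rw [h2 x (by linarith) hx1 hlt]
            have : x = (x.1, x.1) := Prod.ext rfl hx1.symm
            rw [this, W_slit hlt]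
            ring
        · intro x hx1 hx2
          refine h3 x ⟨?_, ?_⟩
          · rw [Metric.mem_closedBall, dist_zero_right]; linarith
          · rw [Metric.mem_ball, dist_zero_right, not_lt]; exact hx1
      have hsq : 0 < √(a k) := Real.sqrt_pos.2 h5
      rw [abs_mul, abs_of_pos (inv_pos.2 hsq)] at hmax
      calc |u k x₀ - u k (0, 0) * W x₀| = √(a k) * ((√(a k))⁻¹ * |u k x₀ - u k (0, 0) * W x₀|) := by
            field_simp
        _ ≤ _ := mul_le_mul_of_nonneg_left hmax hsq.le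
    have hz : Tendsto (fun k => u k x₀ - u k (0, 0) * W x₀) l (𝓝 0) := by
      rw [tendsto_zero_iff_abs_tendsto_zero]
      have hsa : Tendsto (fun k => √(a k) * (C + 1)) l (𝓝 0) := by
        have h1 := (Real.continuous_sqrt.tendsto 0).comp (ha.mono_right nhdsWithin_le_nhds)
        rw [Real.sqrt_zero] at h1
        simpa using h1.mul_const (C + 1)
      exact squeeze_zero' (Eventually.of_forall fun k => abs_nonneg _) bd hsa
    have := hz.add (hb.mul_const (W x₀))
    rw [zero_add] at this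
    refine this.congr fun k => ?_
    ring

/-- The values of the symmetrized field close to the branch point. -/
theorem T1x (ha : Tendsto a l (𝓝[>] 0)) {R : ℝ} (hR : 0 < R) {X : ι → Site → ℝ} {g : ℂ → ℂ}
    (hX : ALim l a R X g) (hg : DifferentiableOn ℂ g (Metric.ball 0 R))
    (hh : ∀ᶠ k in l, ∀ x : Site, ‖H170.pt (a k) x‖ < R → x ≠ (0, 0) → slap (X k) x = 0)
    (x₀ : Site) :
    Tendsto (fun k => Pm (X k) x₀) l (𝓝 (√(2 * Real.pi) * (c0 * g 0).re * W x₀)) := by
  obtain ⟨L, hL0, hL⟩ := lip_center hR hg (R' := R / 2) (by linarith)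
  have hh2 := harm_ev ha hR hh
  refine loc_all (l := l) (a := a) ha (u := fun k => Pm (X k)) (U := pA g) (R := R / 2)
    (lam := √(2 * Real.pi) * (c0 * g 0).re) (C := 2 * L * √(R / 2)) (by positivity) ?_ ?_ ?_ ?_ x₀
  · filter_upwards [hh2] with k hk x hx hs
    obtain ⟨i, j⟩ := x
    have := hk (i, j) hx
    have hne : ((i, j) : Site) ≠ (0, 0) := by
      rintro h
      rw [Prod.mk.injEq] at h
      exact hs ⟨by simp only; rw [h.1, h.2], by simp only; rw [h.1]⟩
    refine lap_Pm hs (this.1 hne) (this.2 ?_)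
    rintro h
    simp only [Prod.swap_prod_mk, Prod.mk.injEq] at h
    exact hne (by rw [h.1, h.2])
  · refine Eventually.of_forall fun k x _ h1 h2 => ?_
    have : x = (x.1, x.1) := Prod.ext rfl h1.symm
    rw [this]; exact Pm_slit h2
  · intro z hz
    exact Pm_cconv ha hX z ⟨hz.1, lt_of_lt_of_le hz.2 (by linarith)⟩
  · intro z hz hzR
    exact pA_bound hL hL0 hz hzR

end Vale.Agent.P144.H365
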