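import Vale.Agent.P144.H365.Merge1
import Vale.Agent.P144.H436.Norm4
import Vale.Agent.P144.U.AL.Cor
import Mathlib.Analysis.Complex.AbsMax

/-!
Merging of two points.
-/

namespace Vale.Agent.P144.H365

open MeasureTheory Filter Topology Vale.Agent.P144 Complex Vale.Agent.P144.H436

theorem rM_unit (r : Site) : H170.rM (fun _ : Unit => r) = r ::ₘ 0 := by
  unfold H170.rM
  simp

/-- The value of the spinor at its disorder is the quotient of the two correlations. -/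
theorem jA_pair {J : ℝ} (hJ : 0 < J) {a : ℝ} (ha : 0 < a) {z z' : ℂ} (hne : z ≠ z')
    (hfl : fl a z ≠ fl a z') (h1 : fl a z ∈ dia (nn a)) (h2 : fl a z' ∈ dia (nn a)) :
    H170.jA (nn a) (fun _ : Unit => fl a z') (fl a z) (fl a z') * Mn a {z, z'} =
      Sn J a {z, z'} := by
  rw [Mn_pair hne, Sn_pair]
  unfold MM fcor H170.jA AL.xA AL.zj
  rw [rM_unit, if_pos h2, AL.QQ_dis_pair, disc_Dia ha]
  change _ / _ * (AL.QQ (dia (nn a)) _ 0 / AL.QQ (dia (nn a)) 0 0) =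
    gibbs J 0 (fun _ => 0) (Kc / J) none (dia (nn a)) _
  have e1 := AL.gibbs_spn (Λ := dia (nn a)) hJ (A := fl a z ::ₘ fl a z' ::ₘ 0) (by
    intro v hv
    rw [Multiset.mem_cons, Multiset.mem_cons] at hv
    rcases hv with rfl | rfl | hv
    · exact h1
    · exact h2
    · simp at hv)
  simp only [Multiset.map_cons, Multiset.prod_cons, Multiset.map_zero, Multiset.prod_zero,
    mul_one] at e1
  simp only [Finset.prod_pair hfl]
  rw [e1]
  have e2 : fl a z' ::ₘ {fl a z} = fl a z ::ₘ fl a z' ::ₘ 0 := by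
    rw [Multiset.cons_swap]; rfl
  rw [e2]
  have p1 := AL.QQ_pos (dia (nn a)) (fl a z ::ₘ fl a z' ::ₘ 0)
  have p2 := AL.QQ_pos (dia (nn a)) 0
  field_simp

theorem Sn_nonneg {J : ℝ} (hJ : 0 < J) (a : ℝ) (X : Finset ℂ) : 0 ≤ Sn J a X := by
  unfold Sn
  rw [H436.fcor_eq]
  exact cor_nonneg (div_nonneg kc_pos.le hJ.le) hJ.le le_rfl _ _

theorem pt_fl_lim {ι : Type*} {l : Filter ι} {a : ι → ℝ} (ha : Tendsto a l (𝓝[>] 0)) {w : ι → ℂ}
    {c : ℂ} (hw : Tendsto w l (𝓝 c)) : Tendsto (fun k => H170.pt (a k) (fl (a k) (w k))) l (𝓝 c) := by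
  have ha0 : Tendsto a l (𝓝 0) := tendsto_nhds_of_tendsto_nhdsWithin ha
  have h1 : Tendsto (fun k => H170.pt (a k) (fl (a k) (w k)) - w k) l (𝓝 0) := by
    refine squeeze_zero_norm' (a := fun k => 2 * a k) ?_ ?_
    · filter_upwards [ha.eventually self_mem_nhdsWithin] with k hk
      exact H170.pt_fl_norm hk _
    · have := ha0.const_mul 2
      rwa [mul_zero] at this
  have h2 := h1.add hw
  rw [zero_add] at h2
  exact h2.congr fun k => by ring

theorem ph_sum (f : ℂ) : H170.phA f ^ 2 + H170.phE f ^ 2 = ‖f ^ 2‖ := by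
  rw [H170.phA_apply, H170.phE_apply, norm_pow, ← normSq_eq_norm_sq, normSq_apply]
  ring

theorem grow {f : ℂ → ℂ} {z ζ : ℂ} {r0 δ : ℝ} (hr0 : 0 < r0)
    (hf : ∀ w, ‖w - z‖ ≤ r0 → DifferentiableAt ℂ f w) (hζ : ‖ζ - z‖ ≤ r0 / 2)
    (hb : ∀ w, ‖w - z‖ = r0 → ‖f w‖ ≤ δ) : ‖f ζ - f z‖ ≤ δ / (r0 / 2) * ‖ζ - z‖ := by
  have hall : ∀ w, ‖w - z‖ ≤ r0 → ‖f w‖ ≤ δ := by
    intro w hw
    refine Complex.norm_le_of_forall_mem_frontier_norm_le (U := Metric.ball z r0)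
      Metric.isBounded_ball ?_ ?_ ?_
    · refine DifferentiableOn.diffContOnCl ?_
      rw [closure_ball z hr0.ne']
      intro y hy
      rw [Metric.mem_closedBall, dist_eq_norm] at hy
      exact (hf y hy).differentiableWithinAt
    · intro y hy
      rw [frontier_ball z hr0.ne', mem_sphere_iff_norm] at hy
      exact hb y hy
    · rw [closure_ball z hr0.ne', Metric.mem_closedBall, dist_eq_norm]
      exact hw
  have hr2 : 0 < r0 / 2 := by positivity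
  refine Convex.norm_image_sub_le_of_norm_deriv_le (𝕜 := ℂ) (s := Metric.closedBall z (r0 / 2))
    (fun x hx => ?_) (fun x hx => ?_) (convex_closedBall z (r0 / 2))
    (Metric.mem_closedBall_self hr2.le) ?_
  · rw [Metric.mem_closedBall, dist_eq_norm] at hx
    exact hf x (by linarith)
  · rw [Metric.mem_closedBall, dist_eq_norm] at hx
    refine Complex.norm_deriv_le_of_forall_mem_sphere_norm_le hr2 ?_ ?_
    · refine DifferentiableOn.diffContOnCl ?_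
      rw [closure_ball x hr2.ne']
      intro y hy
      rw [Metric.mem_closedBall, dist_eq_norm] at hy
      have := norm_sub_le_norm_sub_add_norm_sub y x z
      exact (hf y (by linarith)).differentiableWithinAt
    · intro y hy
      rw [mem_sphere_iff_norm] at hy
      have := norm_sub_le_norm_sub_add_norm_sub y x z
      exact hall y (by linarith)
  · rw [Metric.mem_closedBall, dist_eq_norm]
    exact hζ

theorem id_lim {l : Filter ℝ} (hl : l ≤ 𝓝[>] 0) : Tendsto (fun a : ℝ => a) l (𝓝[>] 0) := hl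

theorem ev_fl_ne {l : Filter ℝ} (hl : l ≤ 𝓝[>] 0) {z z' : ℂ} (hne : z ≠ z') :
    ∀ᶠ a in l, fl a z ≠ fl a z' := by
  filter_upwards [H170.ev_ne_add (id_lim hl) (x := fun a => fl a z) (y := fun a => fl a z')
    (H170.pt_fl_tendsto (id_lim hl) z) (H170.pt_fl_tendsto (id_lim hl) z') hne 0] with a ha
  simpa using ha

theorem ev_fl_dia {l : Filter ℝ} (hl : l ≤ 𝓝[>] 0) {z : ℂ} (hz : z ∈ Dia) :
    ∀ᶠ a in l, fl a z ∈ dia (nn a) :=
  H170.mem_dia_ev (id_lim hl) (H436.nn_lim (id_lim hl)) hz (H170.pt_fl_tendsto (id_lim hl) z)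

/-- A deficit of the spin correlation forces the spinor to grow between the two points. -/
theorem merge_q {J : ℝ} (hJ : 0 < J) {l : Ultrafilter ℝ} (hl : (l : Filter ℝ) ≤ 𝓝[>] 0) {z ζ : ℂ}
    (hz : z ∈ Dia) (hζ : ζ ∈ Dia) (hne : ζ ≠ z) {ε : ℝ} (hε : 0 < ε)
    (hf : ∀ᶠ a in (l : Filter ℝ), Sn J a {z, ζ} < (1 - ε) * Mn a {z, ζ}) :
    ∃ q, H170.Pack (l : Filter ℝ) (fun a => a) nn (fun _ : Unit => fun a => fl a ζ)
      (fun a => fl a z) (fun _ => ζ) z q ∧ ε * ‖ζ - z‖ ≤ Real.pi * ‖q ζ ^ 2 - q z ^ 2‖ := by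
  have ha := id_lim hl
  have hN := H436.nn_lim ha
  have hr := H170.pt_fl_tendsto ha ζ
  have hv := H170.pt_fl_tendsto ha z
  obtain ⟨q, P⟩ := H170.pack_exists (κ := Unit) (r := fun _ : Unit => fun a => fl a ζ)
    (v := fun a => fl a z) (ζ := fun _ => ζ) (ω := z) ha hN (fun _ => hr) hv (fun _ => hζ) hz
    (fun _ _ _ => rfl) (fun _ => hne)
  refine ⟨q, P, ?_⟩
  set jr : ℝ → ℝ := fun a => H170.jA (nn a) (fun _ : Unit => fl a ζ) (fl a z) (fl a ζ) with hjr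
  have hj : ∀ᶠ a in (l : Filter ℝ), 0 ≤ jr a ∧ jr a ≤ 1 - ε := by
    filter_upwards [hf, ev_fl_ne hl hne.symm, ev_fl_dia hl hz, ev_fl_dia hl hζ,
      ha.eventually self_mem_nhdsWithin] with a h1 h2 h3 h4 h5
    have h6 := jA_pair hJ h5 hne.symm h2 h3 h4
    have h7 := Mn_pos a {z, ζ}
    have h8 := Sn_nonneg hJ a {z, ζ}
    rw [← h6] at h1 h8
    constructor
    · by_contra hc
      push Not at hc
      have := mul_neg_of_neg_of_pos hc h7
      linarith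
    · exact (lt_of_mul_lt_mul_right h1 h7.le).le
  have hd := P.disA ()
  simp only [Finset.univ_eq_empty, Finset.prod_empty, one_mul] at hd
  set T : ℝ → ℂ := fun a => H170.rtd (H170.pos a (fl a ζ) (1 / 4) (1 / 4) - H170.pt a (fl a z)) *
    (jr a : ℂ) with hT
  set X : ℂ := (√(2 * Real.pi) / 2 : ℝ) * (c0 * (I * q ζ)) with hX
  have hTX : Tendsto T l (𝓝 X) := hd
  have hX2 : X * X = -((Real.pi / 2 : ℂ) * (1 - I) * q ζ ^ 2) := by
    have e1 : ((√(2 * Real.pi) / 2 : ℝ) : ℂ) * ((√(2 * Real.pi) / 2 : ℝ) : ℂ) =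
        (Real.pi / 2 : ℂ) := by
      have : √(2 * Real.pi) / 2 * (√(2 * Real.pi) / 2) = Real.pi / 2 := by
        have := Real.mul_self_sqrt (show 0 ≤ 2 * Real.pi by positivity)
        linarith
      rw [← ofReal_mul, this]; push_cast; ring
    have hc := c0_sq
    have hI := I_sq
    rw [hX]
    linear_combination (c0 * (I * q ζ)) ^ 2 * e1 + (Real.pi / 2 : ℂ) * (I * q ζ) ^ 2 * hc +
      (Real.pi / 2 : ℂ) * (1 - I) * q ζ ^ 2 * hI
  have hpos : Tendsto (fun a : ℝ => H170.pos a (fl a ζ) (1 / 4) (1 / 4) - H170.pt a (fl a z)) l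
      (𝓝 (ζ - z)) :=
    ((H170.pos_nf ha ζ (1 / 4) (1 / 4)).comp (H170.tendsto_self hr)).sub hv
  have hne' : ζ - z ≠ 0 := sub_ne_zero.2 hne
  have h1 : Tendsto (fun a => (jr a : ℂ) ^ 2) l (𝓝 (X * X / (ζ - z))) := by
    refine ((hTX.mul hTX).div hpos hne').congr' ?_
    filter_upwards [hpos.eventually_ne hne'] with a h2
    rw [Pi.div_apply]
    simp only [hT]
    have h3 := H170.rtd_mul_self (H170.pos a (fl a ζ) (1 / 4) (1 / 4) - H170.pt a (fl a z))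
    rw [div_eq_iff h2]
    linear_combination (jr a : ℂ) ^ 2 * h3
  have h2 : Tendsto (fun a => ‖(1 : ℂ) - (jr a : ℂ) ^ 2‖) l (𝓝 ‖(1 : ℂ) - X * X / (ζ - z)‖) :=
    (h1.const_sub 1).norm
  have h3 : ε ≤ ‖(1 : ℂ) - X * X / (ζ - z)‖ := by
    refine ge_of_tendsto h2 ?_
    filter_upwards [hj] with a hja
    have e2 : (1 : ℂ) - (jr a : ℂ) ^ 2 = ((1 - jr a ^ 2 : ℝ) : ℂ) := by push_cast; ring
    rw [e2, norm_real]
    refine le_trans ?_ (le_abs_self _)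
    nlinarith [hja.1, hja.2]
  have hsrc := P.sol.src
  simp only [Finset.univ_unique, Finset.prod_singleton] at hsrc
  have e3 : (1 : ℂ) - X * X / (ζ - z) =
      (Real.pi / 2 : ℂ) * (1 - I) * (q ζ ^ 2 - q z ^ 2) / (ζ - z) := by
    rw [hX2, eq_div_iff hne', sub_mul, div_mul_cancel₀ _ hne']
    linear_combination hsrc
  rw [e3, norm_div, le_div_iff₀ (norm_pos_iff.2 hne')] at h3
  refine h3.trans ?_
  rw [norm_mul, norm_mul]
  have n1 : ‖(Real.pi / 2 : ℂ)‖ = Real.pi / 2 := by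
    have : (Real.pi / 2 : ℂ) = ((Real.pi / 2 : ℝ) : ℂ) := by push_cast; ring
    rw [this, norm_real, Real.norm_of_nonneg (by positivity)]
  have n2 : ‖(1 - I : ℂ)‖ ≤ 2 := by
    refine (norm_sub_le _ _).trans ?_
    rw [norm_one, norm_I]; norm_num
  rw [n1]
  have n3 := norm_nonneg (q ζ ^ 2 - q z ^ 2)
  have n4 : Real.pi / 2 * ‖(1 - I : ℂ)‖ ≤ Real.pi := by
    have := mul_le_mul_of_nonneg_left n2 (show 0 ≤ Real.pi / 2 by positivity)
    linarith
  exact mul_le_mul_of_nonneg_right n4 n3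

theorem merge_step {J : ℝ} (hJ : 0 < J) {z : ℂ} {ε r0 t η : ℝ} (hε : 0 < ε)
    (hr0 : 0 < r0) (hb : ∀ w, ‖w - z‖ ≤ r0 → w ∈ Dia) (ht : 0 < t) (ht' : 4 * t ≤ r0) (hη : 0 < η)
    (hf : ∃ᶠ a in 𝓝[>] (0:ℝ), Sn J a {z, z + ⟨t, t⟩} < (1 - ε) * Mn a {z, z + ⟨t, t⟩}) :
    ∃ a, 0 < a ∧ a < η ∧ ∃ w, ‖w - z‖ = r0 ∧ ε / (16 * Real.pi * r0) ≤
      ((√a)⁻¹ * H170.jA (nn a) (fun _ : Unit => fl a (z + ⟨t, t⟩)) (fl a z) (fl a w)) ^ 2 +
      ((√a)⁻¹ * H170.jD (nn a) (fun _ : Unit => fl a (z + ⟨t, t⟩)) (fl a z) (fl a w)) ^ 2 := by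
  set ζ : ℂ := z + ⟨t, t⟩ with hζd
  have hne : ζ ≠ z := (ne_diag ht z).symm
  have hζz : ‖ζ - z‖ ≤ 2 * t := by
    rw [hζd, add_sub_cancel_left]
    refine (Complex.norm_le_abs_re_add_abs_im _).trans ?_
    simp only [abs_of_pos ht]
    linarith
  have hζz' : ‖ζ - z‖ ≤ r0 / 2 := by linarith
  have hz : z ∈ Dia := hb z (by rw [sub_self, norm_zero]; exact hr0.le)
  have hζ : ζ ∈ Dia := hb ζ (by linarith)
  have hneg : NeBot (𝓝[>] (0:ℝ) ⊓ 𝓟 {a | Sn J a {z, ζ} < (1 - ε) * Mn a {z, ζ}}) :=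
    frequently_iff_neBot.1 hf
  set l := Ultrafilter.of (𝓝[>] (0:ℝ) ⊓ 𝓟 {a | Sn J a {z, ζ} < (1 - ε) * Mn a {z, ζ}}) with hl
  have hle : (l : Filter ℝ) ≤ 𝓝[>] (0:ℝ) ⊓ 𝓟 {a | Sn J a {z, ζ} < (1 - ε) * Mn a {z, ζ}} :=
    Ultrafilter.of_le _
  have hl1 : (l : Filter ℝ) ≤ 𝓝[>] (0:ℝ) := hle.trans inf_le_left
  have hl2 : ∀ᶠ a in (l : Filter ℝ), Sn J a {z, ζ} < (1 - ε) * Mn a {z, ζ} :=
    hle.trans inf_le_right (mem_principal_self _)
  obtain ⟨q, P, hq⟩ := merge_q hJ hl1 hz hζ hne hε hl2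
  have ha := id_lim hl1
  have hr := H170.pt_fl_tendsto ha ζ
  have hv := H170.pt_fl_tendsto ha z
  have hd0 : 0 < ‖ζ - z‖ := norm_pos_iff.2 (sub_ne_zero.2 hne)
  have hpi := Real.pi_pos
  -- the point on the circle
  obtain ⟨w, hw, hwq⟩ : ∃ w, ‖w - z‖ = r0 ∧ ε * r0 / (4 * Real.pi) < ‖q w ^ 2‖ := by
    by_contra hcon
    push Not at hcon
    have h1 := grow (f := fun w => q w ^ 2) (δ := ε * r0 / (4 * Real.pi)) hr0
      (fun w hw => (P.sol.diff.differentiableAt (Dia_open.mem_nhds (hb w hw))).pow 2) hζz' hcon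
    have h2 : Real.pi * ‖q ζ ^ 2 - q z ^ 2‖ ≤ ε / 2 * ‖ζ - z‖ := by
      refine (mul_le_mul_of_nonneg_left h1 hpi.le).trans (le_of_eq ?_)
      field_simp
      ring
    have h3 : 0 < ε * ‖ζ - z‖ := by positivity
    linarith
  have hwz : w ≠ z := by
    rintro rfl
    rw [sub_self, norm_zero] at hw
    linarith
  have hwζ : w ≠ ζ := by
    rintro rfl
    linarith
  have hM : w ∉ H170.Mk (fun _ : Unit => ζ) (fun _ : Unit => z) := by
    rw [H170.notMem_Mk]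
    exact ⟨fun _ => hwζ, fun _ => hwz⟩
  obtain ⟨f, hf1, hA, -, -, hE⟩ := H170.SLim.sq ha (fun _ => hr) (fun _ => hv) P.slim
    (z := w) ⟨hb w hw.le, hM⟩ hM
  have hs := H170.tendsto_self (H170.pt_fl_tendsto ha w)
  have h1 := (hA.comp hs).add (hE.comp hs)
  rw [ph_sum, hf1] at h1
  have hPP : H170.PP (fun _ : Unit => ζ) (fun _ : Unit => z) w = (w - ζ) * (w - z) := by
    unfold H170.PP
    simp
  have h2 : ε / (16 * Real.pi * r0) < ‖q w ^ 2 / H170.PP (fun _ : Unit => ζ)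
      (fun _ : Unit => z) w‖ := by
    rw [hPP, norm_div, norm_mul, hw]
    have n1 : ‖w - ζ‖ ≤ 2 * r0 := by
      have := norm_sub_le_norm_sub_add_norm_sub w z ζ
      rw [norm_sub_rev z ζ] at this
      linarith
    have n2 : 0 < ‖w - ζ‖ := norm_pos_iff.2 (sub_ne_zero.2 hwζ)
    rw [lt_div_iff₀ (by positivity)]
    have n3 : ε / (16 * Real.pi * r0) * (‖w - ζ‖ * r0) ≤
        ε / (16 * Real.pi * r0) * (2 * r0 * r0) := by gcongr
    have n4 : ε / (16 * Real.pi * r0) * (2 * r0 * r0) = ε * r0 / (4 * Real.pi) / 2 := by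
      field_simp
      norm_num
    have n5 : 0 < ε * r0 / (4 * Real.pi) := by positivity
    linarith
  have h3 := h1.eventually_const_lt h2
  have h4 : ∀ᶠ a in (l : Filter ℝ), a < η := hl1 (mem_nhdsWithin_of_mem_nhds (Iio_mem_nhds hη))
  have h5 : ∀ᶠ a in (l : Filter ℝ), 0 < a := ha.eventually self_mem_nhdsWithin
  obtain ⟨a, a1, a2, a3⟩ := (h3.and (h4.and h5)).exists
  exact ⟨a, a3, a2, w, hw, a1.le⟩

/-- The growth of the spinors contradicts the vanishing of the confluent limit. -/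
theorem merge_absurd {z : ℂ} {c r0 : ℝ} (hc0 : 0 < c) (hr0 : 0 < r0)
    (hb : ∀ w, ‖w - z‖ ≤ r0 → w ∈ Dia) {l : Ultrafilter ℕ} {a : ℕ → ℝ} {w : ℕ → ℂ}
    {r v : ℕ → Site} (ha : Tendsto a l (𝓝[>] 0))
    (hr : Tendsto (fun n => H170.pt (a n) (r n)) l (𝓝 z))
    (hv : Tendsto (fun n => H170.pt (a n) (v n)) l (𝓝 z))
    (hc : ∀ n, v n ∉ AL.cnr (r n)) (w1 : ∀ n, ‖w n - z‖ = r0) (w2 : ∀ n, c ≤
      ((√(a n))⁻¹ * H170.jA (nn (a n)) (fun _ : Unit => r n) (v n) (fl (a n) (w n))) ^ 2 +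
      ((√(a n))⁻¹ * H170.jD (nn (a n)) (fun _ : Unit => r n) (v n) (fl (a n) (w n))) ^ 2) :
    False := by
  have hz : z ∈ Dia := hb z (by rw [sub_self, norm_zero]; exact hr0.le)
  have hN := H436.nn_lim ha
  obtain ⟨Hs, Hf, q, h, -, hG⟩ := H170.xj_lim (κ := Unit) (r := fun _ : Unit => r) (v := v)
    (ζ := fun _ => z) (ω := z) ha hN (fun _ => hr) hv (fun _ => hz) hz
    (Eventually.of_forall fun n _ _ _ => rfl) (Eventually.of_forall fun n _ => hc n)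
  have hq := conf_zero hz hG
  -- the limit point on the circle
  obtain ⟨W, hW, hWl⟩ := (isCompact_sphere z r0).ultrafilter_le_nhds (l.map w) (by
    rw [le_principal_iff]
    refine mem_map.2 (univ_mem' fun n => ?_)
    rw [Set.mem_preimage, mem_sphere_iff_norm]
    exact w1 n)
  have hWt : Tendsto w l (𝓝 W) := hWl
  rw [mem_sphere_iff_norm] at hW
  have hWD : W ∈ Dia := hb W hW.le
  have hWz : W ≠ z := by
    rintro rfl
    rw [sub_self, norm_zero] at hW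
    linarith
  have hM := Mk_conf hWz
  obtain ⟨f, hf1, hA, -, -, hE⟩ := H170.SLim.sq ha (fun _ => hr) (fun _ => hv) hG.slim
    (z := W) ⟨hWD, hM⟩ hM
  have hs := H170.tendsto_self (pt_fl_lim ha hWt)
  have h1 := (hA.comp hs).add (hE.comp hs)
  rw [ph_sum, hf1, hq W hWD] at h1
  simp only [ne_eq, OfNat.ofNat_ne_zero, not_false_eq_true, zero_pow, zero_div, norm_zero] at h1
  obtain ⟨n, hn⟩ := (h1.eventually_lt_const hc0).exists
  exact absurd hn (not_lt.2 (w2 n))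

theorem cor_ne {z : ℂ} {a t : ℝ} (ha : 0 < a) (hat : a ≤ t) :
    fl a z ∉ AL.cnr (fl a (z + ⟨t, t⟩)) := by
  have h2 : (fl a z).1 + 1 ≤ (fl a (z + ⟨t, t⟩)).1 := by
    show ⌊z.re / a⌋ + 1 ≤ ⌊(z.re + t) / a⌋
    rw [← Int.floor_add_one]
    refine Int.floor_le_floor ?_
    rw [add_div]
    have : 1 ≤ t / a := by
      rw [le_div_iff₀ ha, one_mul]
      exact hat
    linarith
  rw [AL.mem_cnr]
  rintro (h | h | h | h)
  · rw [h] at h2; linarith
  · rw [h] at h2; linarith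
  · rw [h] at h2; linarith
  · rw [h] at h2; linarith

theorem diag_lim {l : Filter ℕ} {t : ℕ → ℝ} (ht0 : Tendsto t l (𝓝 0)) (z : ℂ) :
    Tendsto (fun n => z + ⟨t n, t n⟩) l (𝓝 z) := by
  have h2 : Tendsto (fun n => z + ((t n : ℂ) + (t n : ℂ) * I)) l
      (𝓝 (z + (((0:ℝ) : ℂ) + ((0:ℝ) : ℂ) * I))) := by
    have h3 : Tendsto (fun n => (t n : ℂ)) l (𝓝 ((0:ℝ) : ℂ)) :=
      (continuous_ofReal.tendsto 0).comp ht0
    exact (h3.add (h3.mul_const I)).const_add z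
  have e1 : z + (((0:ℝ) : ℂ) + ((0:ℝ) : ℂ) * I) = z := by simp
  rw [e1] at h2
  refine h2.congr fun n => ?_
  congr 1
  apply Complex.ext <;> simp

/-- **Merging of two points.** -/
theorem merge {J : ℝ} (hJ : 0 < J) : Merge J := by
  intro z hz ε₀ hε₀
  by_contra hcon
  push Not at hcon
  set ε := min ε₀ 1 with hεd
  have hε : 0 < ε := lt_min hε₀ one_pos
  obtain ⟨R0, hR0, hR0s⟩ := Metric.mem_nhds_iff.1 (Dia_open.mem_nhds hz)
  set r0 := R0 / 2 with hr0d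
  have hr0 : 0 < r0 := by positivity
  have hb : ∀ w, ‖w - z‖ ≤ r0 → w ∈ Dia := by
    intro w hw
    refine hR0s ?_
    rw [Metric.mem_ball, dist_eq_norm]
    linarith
  have hpi := Real.pi_pos
  have hcpos : 0 < ε / (16 * Real.pi * r0) := by positivity
  -- the diagonal sequence
  have hseq : ∀ n : ℕ, ∃ t a : ℝ, ∃ w : ℂ, 0 < t ∧ t < 1 / ((n : ℝ) + 1) ∧ 0 < a ∧ a < t ∧
      a < 1 / ((n : ℝ) + 1) ∧ ‖w - z‖ = r0 ∧ ε / (16 * Real.pi * r0) ≤
      ((√a)⁻¹ * H170.jA (nn a) (fun _ : Unit => fl a (z + ⟨t, t⟩)) (fl a z) (fl a w)) ^ 2 +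
      ((√a)⁻¹ * H170.jD (nn a) (fun _ : Unit => fl a (z + ⟨t, t⟩)) (fl a z) (fl a w)) ^ 2 := by
    intro n
    have hn : (0:ℝ) < 1 / ((n : ℝ) + 1) := by positivity
    obtain ⟨t, t1, t2, t3⟩ := hcon (min (1 / ((n : ℝ) + 1)) (r0 / 4)) (lt_min hn (by positivity))
    have t4 := t2.trans_le (min_le_left _ _)
    have t5 := t2.trans_le (min_le_right _ _)
    have hf : ∃ᶠ a in 𝓝[>] (0:ℝ), Sn J a {z, z + ⟨t, t⟩} < (1 - ε) * Mn a {z, z + ⟨t, t⟩} := by
      refine t3.mono fun a h => ?_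
      refine h.trans_le (mul_le_mul_of_nonneg_right ?_ (Mn_pos _ _).le)
      have := min_le_left ε₀ 1
      linarith
    obtain ⟨a, a1, a2, w, w1, w2⟩ := merge_step hJ hε hr0 hb t1 (by linarith)
      (η := min t (1 / ((n : ℝ) + 1))) (lt_min t1 hn) hf
    exact ⟨t, a, w, t1, t4, a1, a2.trans_le (min_le_left _ _), a2.trans_le (min_le_right _ _),
      w1, w2⟩
  choose t a w t1 t2 a1 a2 a3 w1 w2 using hseq
  have hlt : (hyperfilter ℕ : Filter ℕ) ≤ atTop := Nat.hyperfilter_le_atTop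
  have h1n : Tendsto (fun n : ℕ => 1 / ((n : ℝ) + 1)) (hyperfilter ℕ) (𝓝 0) :=
    (tendsto_one_div_add_atTop_nhds_zero_nat (𝕜 := ℝ)).mono_left hlt
  have ht0 : Tendsto t (hyperfilter ℕ) (𝓝 0) :=
    tendsto_of_tendsto_of_tendsto_of_le_of_le tendsto_const_nhds h1n (fun n => (t1 n).le)
      fun n => (t2 n).le
  have ha : Tendsto a (hyperfilter ℕ) (𝓝[>] 0) := by
    rw [tendsto_nhdsWithin_iff]
    exact ⟨tendsto_of_tendsto_of_tendsto_of_le_of_le tendsto_const_nhds h1n (fun n => (a1 n).le)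
      fun n => (a3 n).le, Eventually.of_forall fun n => a1 n⟩
  have hr := pt_fl_lim ha (diag_lim ht0 z)
  have hv := pt_fl_lim (w := fun _ => z) ha tendsto_const_nhds
  exact merge_absurd hcpos hr0 hb ha hr hv (fun n => cor_ne (a1 n) (a2 n).le) w1 w2

end Vale.Agent.P144.H365
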