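import Vale.Agent.P144.H170.Glue
import Vale.Agent.P144.H365.XjT2

/-!
Two marked points at the same place.
-/

namespace Vale.Agent.P144.H365

open MeasureTheory Filter Topology Vale.Agent.P144 Complex

section conf

variable {ι : Type*} {l : Filter ι} {a : ι → ℝ} {r v : Unit → ι → Site} {z0 : ℂ}
  {A B C E Hs Hf : ι → Site → ℝ} {q : ℂ → ℂ} {h : ℂ → ℝ}

theorem PP_conf (z0 w : ℂ) : H170.PP (fun _ : Unit => z0) (fun _ : Unit => z0) w =
    (w - z0) * (w - z0) := by
  unfold H170.PP
  simp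

theorem Mk_conf {z0 w : ℂ} (h : w ≠ z0) :
    w ∉ H170.Mk (fun _ : Unit => z0) (fun _ : Unit => z0) := by
  rw [H170.notMem_Mk]
  exact ⟨fun _ => h, fun _ => h⟩

/-- The logarithmic bound of the `H`-function excludes a double pole. -/
theorem conf_q0 (hz0 : z0 ∈ Dia)
    (hG : H170.GLim l a r v (fun _ : Unit => z0) (fun _ : Unit => z0) A B C E Hs Hf q h) :
    q z0 = 0 := by
  obtain ⟨M1, hM1, up⟩ := hG.up
  obtain ⟨M2, hM2, lo⟩ := hG.lo
  obtain ⟨R0, hR0, hR0s⟩ := Metric.mem_nhds_iff.1 (Dia_open.mem_nhds hz0)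
  set R := min (R0 / 4) (1 / 2) with hR
  have hRpos : 0 < R := by positivity
  have hlog2 : 0 < Real.log 2 := Real.log_pos (by norm_num)
  set K := M1 + M2 + 1 with hK
  have hKpos : 0 < K := by positivity
  -- the main estimate
  have est : ∀ d : ℝ, 0 < d → d < R → ‖q (z0 + ((2 * d : ℝ) : ℂ))‖ ^ 2 ≤
      64 * K * ((8 * √d + d) / (4 * Real.log 2)) := by
    intro d hd hdR
    set w : ℂ := z0 + ((2 * d : ℝ) : ℂ) with hw
    have hd1 : d < 1 := lt_of_lt_of_le hdR ((min_le_right _ _).trans (by norm_num))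
    have hd4 : 4 * d < R0 := by
      have := min_le_left (R0 / 4) (1 / 2)
      linarith
    have hwz : ‖w - z0‖ = 2 * d := by
      rw [hw, add_sub_cancel_left, norm_real, Real.norm_of_nonneg (by positivity)]
    have hball : ∀ y ∈ Metric.ball w d, y ∈ Dia ∧ y ≠ z0 ∧ d ≤ ‖y - z0‖ := by
      intro y hy
      rw [Metric.mem_ball, dist_eq_norm] at hy
      have h1 : ‖y - z0‖ ≤ ‖y - w‖ + ‖w - z0‖ := norm_sub_le_norm_sub_add_norm_sub y w z0
      have h2 : ‖w - z0‖ ≤ ‖w - y‖ + ‖y - z0‖ := norm_sub_le_norm_sub_add_norm_sub w y z0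
      rw [norm_sub_rev w y] at h2
      refine ⟨hR0s ?_, ?_, by linarith⟩
      · rw [Metric.mem_ball, dist_eq_norm]; linarith
      · intro hyz
        have h3 : ‖y - z0‖ = 0 := by rw [hyz, sub_self, norm_zero]
        linarith
    set Bd := (Real.log (16 / d ^ 2) + 1) / (4 * Real.log 2) with hBd
    have hlog : 0 ≤ Real.log (16 / d ^ 2) := by
      refine Real.log_nonneg ?_
      rw [le_div_iff₀ (by positivity)]
      have : d ^ 2 ≤ 1 := pow_le_one₀ hd.le hd1.le
      linarith
    have hBd0 : 0 < Bd := by positivity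
    have hbd : ∀ y ∈ Metric.ball w d, |h y| ≤ K * Bd := by
      intro y hy
      obtain ⟨y1, y2, y3⟩ := hball y hy
      have hm : y ∈ Dia \ H170.Mk (fun _ : Unit => z0) (fun _ : Unit => z0) := ⟨y1, Mk_conf y2⟩
      have u1 := up y hm
      have u2 := lo y hm
      simp only [Finset.univ_unique, Finset.sum_const, Finset.card_singleton, one_smul] at u1 u2
      have u3 : H170.gb y z0 ≤ Bd := H170.gb_le hd y3
      have u4 := mul_le_mul_of_nonneg_left u3 hM1
      have u5 := mul_le_mul_of_nonneg_left u3 hM2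
      have u6 : 0 ≤ M1 * Bd := by positivity
      have u7 : 0 ≤ M2 * Bd := by positivity
      rw [abs_le, hK]
      constructor <;> linarith
    have hgb := H170.grad_bound (h := h)
      (G := H170.gq (fun _ : Unit => z0) (fun _ : Unit => z0) q) (z₀ := w) (m := K * Bd) hd
      (by positivity) (fun y hy => (H170.gq_diff (hG.diff.differentiableAt
        (Dia_open.mem_nhds (hball y hy).1)) (Mk_conf (hball y hy).2.1)).differentiableWithinAt)
      (fun y hy => hG.hd y ⟨(hball y hy).1, Mk_conf (hball y hy).2.1⟩) hbd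
    have hF := H170.norm_gq (ζ := fun _ : Unit => z0) (ω := fun _ : Unit => z0) q w
    have e1 : ‖H170.F2 (fun _ : Unit => z0) (fun _ : Unit => z0) q w‖ =
        ‖q w‖ ^ 2 / (4 * d ^ 2) := by
      unfold H170.F2
      rw [PP_conf, norm_div, norm_pow, norm_mul, hwz]
      congr 1; ring
    rw [e1] at hF
    have e2 : ‖q w‖ ^ 2 ≤ 64 * (K * (Bd * d)) := by
      have h3 : ‖q w‖ ^ 2 / (4 * d ^ 2) ≤ 2 * (8 * (K * Bd) / d) := by linarith
      rw [div_le_iff₀ (by positivity)] at h3
      refine h3.trans (le_of_eq ?_)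
      field_simp
      ring
    have e3 : Bd * d ≤ (8 * √d + d) / (4 * Real.log 2) := by
      rw [hBd, div_mul_eq_mul_div]
      refine div_le_div_of_nonneg_right ?_ (by positivity)
      have hsd : 0 < √d := Real.sqrt_pos.2 hd
      have hsq : √d * √d = d := Real.mul_self_sqrt hd.le
      have h4 : Real.log (16 / d ^ 2) ≤ 4 * (2 / √d) := by
        have h5 : 16 / d ^ 2 = (2 / √d) ^ 4 := by
          have : d ^ 2 = √d ^ 4 := by
            calc d ^ 2 = (√d * √d) ^ 2 := by rw [hsq]
              _ = √d ^ 4 := by ring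
          rw [this, div_pow]; norm_num
        rw [h5, Real.log_pow]
        push_cast
        refine mul_le_mul_of_nonneg_left ?_ (by norm_num)
        exact Real.log_le_self (by positivity)
      have h6 : 4 * (2 / √d) * d = 8 * √d := by
        calc 4 * (2 / √d) * d = 4 * (2 / √d) * (√d * √d) := by rw [hsq]
          _ = 8 * √d := by field_simp; norm_num
      nlinarith
    calc ‖q w‖ ^ 2 ≤ 64 * (K * (Bd * d)) := e2
      _ ≤ 64 * (K * ((8 * √d + d) / (4 * Real.log 2))) := by gcongr
      _ = _ := by ring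
  -- the limit
  have hc : ContinuousAt q z0 := (hG.diff.differentiableAt (Dia_open.mem_nhds hz0)).continuousAt
  have l1 : Tendsto (fun d : ℝ => ‖q (z0 + ((2 * d : ℝ) : ℂ))‖ ^ 2) (𝓝[>] 0) (𝓝 (‖q z0‖ ^ 2)) := by
    have h1 : Tendsto (fun d : ℝ => z0 + ((2 * d : ℝ) : ℂ)) (𝓝[>] 0) (𝓝 z0) := by
      have : Continuous fun d : ℝ => z0 + ((2 * d : ℝ) : ℂ) := by fun_prop
      have := this.tendsto 0
      simp only [mul_zero, ofReal_zero, add_zero] at this
      exact this.mono_left nhdsWithin_le_nhds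
    exact ((hc.tendsto.comp h1).norm).pow 2
  have l2 : Tendsto (fun d : ℝ => 64 * K * ((8 * √d + d) / (4 * Real.log 2))) (𝓝[>] 0) (𝓝 0) := by
    have : Continuous fun d : ℝ => 64 * K * ((8 * √d + d) / (4 * Real.log 2)) := by fun_prop
    have := this.tendsto 0
    simp only [Real.sqrt_zero, mul_zero, add_zero, zero_div] at this
    exact this.mono_left nhdsWithin_le_nhds
  have l3 : ‖q z0‖ ^ 2 ≤ 0 := by
    refine le_of_tendsto_of_tendsto l1 l2 ?_
    filter_upwards [Ioo_mem_nhdsGT hRpos] with d hd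
    exact est d hd.1 hd.2
  have : ‖q z0‖ = 0 := by
    have h1 := norm_nonneg (q z0)
    nlinarith
  exact norm_eq_zero.1 this

/-- **The confluent limit vanishes.** -/
theorem conf_zero (hz0 : z0 ∈ Dia)
    (hG : H170.GLim l a r v (fun _ : Unit => z0) (fun _ : Unit => z0) A B C E Hs Hf q h) :
    ∀ w ∈ Dia, q w = 0 := by
  have hq0 := conf_q0 hz0 hG
  set g := dslope q z0 with hg
  have hgd : DifferentiableOn ℂ g Dia := (differentiableOn_dslope (Dia_open.mem_nhds hz0)).2 hG.diff
  have hqg : ∀ w, q w = (w - z0) * g w := by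
    intro w
    have := sub_smul_dslope q z0 w
    rw [smul_eq_mul, hq0, sub_zero] at this
    exact this.symm
  have hFg : ∀ w, w ≠ z0 → H170.F2 (fun _ : Unit => z0) (fun _ : Unit => z0) q w = g w ^ 2 := by
    intro w hw
    have hne : w - z0 ≠ 0 := sub_ne_zero.2 hw
    unfold H170.F2
    rw [PP_conf, hqg w]
    field_simp
  obtain ⟨l1, l2, l3, l4⟩ := (glim_bdc hG).lims
  have near : ∀ p : ℂ, |p.re| + |p.im| = 1 → ∀ᶠ w in 𝓝[Dia] p, w ≠ z0 := by
    intro p hp
    have hne : p ≠ z0 := by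
      rintro rfl
      have : |p.re| + |p.im| < 1 := hz0
      linarith
    exact nhdsWithin_le_nhds (isOpen_ne.mem_nhds hne)
  have hz0' : |z0.re| + |z0.im| < 1 := hz0
  have g0 : ∀ w ∈ Dia, g w = 0 := by
    refine hom_unique (M := ∅) (F := fun w => g w ^ 2) (fun m hm => absurd hm (by simp)) hgd
      (fun z _ _ => by simp) (fun m hm => absurd hm (by simp)) ?_ ?_ ?_ ?_ ?_
    · obtain ⟨δ, hδ, K, hK⟩ := (glim_bdc hG).bdd
      refine ⟨min δ (1 - (|z0.re| + |z0.im|)), lt_min hδ (by linarith), K, fun z hz hzδ => ?_⟩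
      have m1 := min_le_left δ (1 - (|z0.re| + |z0.im|))
      have m2 := min_le_right δ (1 - (|z0.re| + |z0.im|))
      have hne : z ≠ z0 := by
        rintro rfl
        linarith
      rw [← hFg z hne]
      exact hK z hz (by linarith)
    · intro p p1 p2 p3
      refine (l1 p p1 p2 p3).congr' ?_
      filter_upwards [near p (by rw [abs_of_pos p1, abs_of_pos p2]; exact p3)] with w hw
      rw [hFg w hw]
    · intro p p1 p2 p3
      refine (l2 p p1 p2 p3).congr' ?_
      filter_upwards [near p (by rw [abs_of_neg p1, abs_of_pos p2]; exact p3)] with w hw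
      rw [hFg w hw]
    · intro p p1 p2 p3
      refine (l3 p p1 p2 p3).congr' ?_
      filter_upwards [near p (by rw [abs_of_neg p1, abs_of_neg p2]; linarith)] with w hw
      rw [hFg w hw]
    · intro p p1 p2 p3
      refine (l4 p p1 p2 p3).congr' ?_
      filter_upwards [near p (by rw [abs_of_pos p1, abs_of_neg p2]; linarith)] with w hw
      rw [hFg w hw]
  intro w hw
  rw [hqg w, g0 w hw, mul_zero]

end conf

end Vale.Agent.P144.H365
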