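import Mathlib.Analysis.Complex.CauchyIntegral
import Mathlib.Analysis.Complex.RemovableSingularity
import Mathlib.Tactic

/-!
A uniqueness theorem for functions with simple poles with nonnegative residues in a square.
-/

namespace Vale.Agent.P144.H365

open MeasureTheory Filter Topology Complex

/-- The sup norm. -/
noncomputable def sn (w : ℂ) : ℝ := max |w.re| |w.im|

theorem sn_cont : Continuous sn := by
  unfold sn
  exact (continuous_re.abs).max (continuous_im.abs)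

theorem sn_smul (t : ℝ) (w : ℂ) : sn (t * w) = |t| * sn w := by
  unfold sn
  rw [re_ofReal_mul, im_ofReal_mul, abs_mul, abs_mul, mul_max_of_nonneg _ _ (abs_nonneg t)]

theorem sn_nonneg (w : ℂ) : 0 ≤ sn w := le_max_of_le_left (abs_nonneg _)

theorem sn_le (w : ℂ) : sn w ≤ ‖w‖ := max_le (abs_re_le_norm w) (abs_im_le_norm w)

theorem sn_sub (w p : ℂ) : sn w - sn p ≤ sn (w - p) := by
  unfold sn
  rw [sub_le_iff_le_add]
  refine max_le ?_ ?_
  · have h1 : |w.re| ≤ |(w - p).re| + |p.re| := by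
      have := abs_add_le (w - p).re p.re
      rwa [sub_re, sub_add_cancel] at this
    exact h1.trans (add_le_add (le_max_left _ _) (le_max_left _ _))
  · have h1 : |w.im| ≤ |(w - p).im| + |p.im| := by
      have := abs_add_le (w - p).im p.im
      rwa [sub_im, sub_add_cancel] at this
    exact h1.trans (add_le_add (le_max_right _ _) (le_max_right _ _))

/-- The four sides. -/
noncomputable def g1 (x : ℝ) : ℂ := x + (-1 : ℝ) * I
noncomputable def g2 (x : ℝ) : ℂ := x + (1 : ℝ) * I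
noncomputable def g3 (y : ℝ) : ℂ := (1 : ℝ) + y * I
noncomputable def g4 (y : ℝ) : ℂ := (-1 : ℝ) + y * I

theorem g1_cont : Continuous g1 := by unfold g1; fun_prop
theorem g2_cont : Continuous g2 := by unfold g2; fun_prop
theorem g3_cont : Continuous g3 := by unfold g3; fun_prop
theorem g4_cont : Continuous g4 := by unfold g4; fun_prop

theorem g1_re (x : ℝ) : (g1 x).re = x := by simp [g1]
theorem g1_im (x : ℝ) : (g1 x).im = -1 := by simp [g1]
theorem g2_re (x : ℝ) : (g2 x).re = x := by simp [g2]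
theorem g2_im (x : ℝ) : (g2 x).im = 1 := by simp [g2]
theorem g3_re (x : ℝ) : (g3 x).re = 1 := by simp [g3]
theorem g3_im (x : ℝ) : (g3 x).im = x := by simp [g3]
theorem g4_re (x : ℝ) : (g4 x).re = -1 := by simp [g4]
theorem g4_im (x : ℝ) : (g4 x).im = x := by simp [g4]

theorem sn_g1 {x : ℝ} (hx : |x| ≤ 1) : sn (g1 x) = 1 := by
  unfold sn; rw [g1_re, g1_im, abs_neg, abs_one, max_eq_right hx]
theorem sn_g2 {x : ℝ} (hx : |x| ≤ 1) : sn (g2 x) = 1 := by
  unfold sn; rw [g2_re, g2_im, abs_one, max_eq_right hx]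
theorem sn_g3 {x : ℝ} (hx : |x| ≤ 1) : sn (g3 x) = 1 := by
  unfold sn; rw [g3_re, g3_im, abs_one, max_eq_left hx]
theorem sn_g4 {x : ℝ} (hx : |x| ≤ 1) : sn (g4 x) = 1 := by
  unfold sn; rw [g4_re, g4_im, abs_neg, abs_one, max_eq_left hx]

/-- Boundary integral. -/
noncomputable def bi (f : ℂ → ℂ) : ℂ :=
  (∫ x in (-1:ℝ)..1, f (g1 x)) - (∫ x in (-1:ℝ)..1, f (g2 x)) +
    I * (∫ y in (-1:ℝ)..1, f (g3 y)) - I * (∫ y in (-1:ℝ)..1, f (g4 y))

/-- Integral of the norm. -/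
noncomputable def bn (f : ℂ → ℂ) : ℝ :=
  (∫ x in (-1:ℝ)..1, ‖f (g1 x)‖) + (∫ x in (-1:ℝ)..1, ‖f (g2 x)‖) +
    (∫ y in (-1:ℝ)..1, ‖f (g3 y)‖) + (∫ y in (-1:ℝ)..1, ‖f (g4 y)‖)

/-- Continuity on the boundary. -/
def CB (f : ℂ → ℂ) : Prop := ContinuousOn f {w | sn w = 1}

theorem icc {x : ℝ} (hx : x ∈ Set.uIcc (-1:ℝ) 1) : |x| ≤ 1 := by
  rw [Set.uIcc_of_le (by norm_num)] at hx
  exact abs_le.2 ⟨hx.1, hx.2⟩

theorem CB.c1 {f : ℂ → ℂ} (h : CB f) : ContinuousOn (fun x => f (g1 x)) (Set.uIcc (-1:ℝ) 1) :=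
  ContinuousOn.comp h g1_cont.continuousOn fun _ hx => sn_g1 (icc hx)
theorem CB.c2 {f : ℂ → ℂ} (h : CB f) : ContinuousOn (fun x => f (g2 x)) (Set.uIcc (-1:ℝ) 1) :=
  ContinuousOn.comp h g2_cont.continuousOn fun _ hx => sn_g2 (icc hx)
theorem CB.c3 {f : ℂ → ℂ} (h : CB f) : ContinuousOn (fun x => f (g3 x)) (Set.uIcc (-1:ℝ) 1) :=
  ContinuousOn.comp h g3_cont.continuousOn fun _ hx => sn_g3 (icc hx)
theorem CB.c4 {f : ℂ → ℂ} (h : CB f) : ContinuousOn (fun x => f (g4 x)) (Set.uIcc (-1:ℝ) 1) :=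
  ContinuousOn.comp h g4_cont.continuousOn fun _ hx => sn_g4 (icc hx)

theorem CB.sub {f g : ℂ → ℂ} (hf : CB f) (hg : CB g) : CB fun w => f w - g w :=
  ContinuousOn.sub hf hg

theorem CB.add {f g : ℂ → ℂ} (hf : CB f) (hg : CB g) : CB fun w => f w + g w :=
  ContinuousOn.add hf hg

theorem CB.mul {f g : ℂ → ℂ} (hf : CB f) (hg : CB g) : CB fun w => f w * g w :=
  ContinuousOn.mul hf hg

theorem CB.const_mul {f : ℂ → ℂ} (hf : CB f) (c : ℂ) : CB fun w => c * f w :=
  ContinuousOn.mul continuousOn_const hf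

theorem bi_add {f g : ℂ → ℂ} (hf : CB f) (hg : CB g) : bi (fun w => f w + g w) = bi f + bi g := by
  unfold bi
  rw [intervalIntegral.integral_add hf.c1.intervalIntegrable hg.c1.intervalIntegrable,
    intervalIntegral.integral_add hf.c2.intervalIntegrable hg.c2.intervalIntegrable,
    intervalIntegral.integral_add hf.c3.intervalIntegrable hg.c3.intervalIntegrable,
    intervalIntegral.integral_add hf.c4.intervalIntegrable hg.c4.intervalIntegrable]
  ring

theorem bi_const_mul (f : ℂ → ℂ) (c : ℂ) : bi (fun w => c * f w) = c * bi f := by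
  unfold bi
  simp only [intervalIntegral.integral_const_mul]
  ring

theorem CB_sum {P : Finset ℂ} {f : ℂ → ℂ → ℂ} (hf : ∀ p ∈ P, CB (f p)) :
    CB fun w => ∑ p ∈ P, f p w := continuousOn_finsetSum P hf

theorem bi_zero' : bi (fun _ => 0) = 0 := by simp [bi]

theorem bi_sum {P : Finset ℂ} {f : ℂ → ℂ → ℂ} (hf : ∀ p ∈ P, CB (f p)) :
    bi (fun w => ∑ p ∈ P, f p w) = ∑ p ∈ P, bi (f p) := by
  classical
  induction P using Finset.induction_on with
  | empty => simp [bi_zero']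
  | insert p P hp ih =>
    simp only [Finset.sum_insert hp]
    rw [bi_add (hf p (Finset.mem_insert_self _ _)) (CB_sum fun q hq =>
      hf q (Finset.mem_insert_of_mem hq)), ih fun q hq => hf q (Finset.mem_insert_of_mem hq)]

theorem bi_congr {f g : ℂ → ℂ} (h : ∀ w, sn w = 1 → f w = g w) : bi f = bi g := by
  unfold bi
  rw [intervalIntegral.integral_congr fun x hx => h _ (sn_g1 (icc hx)),
    intervalIntegral.integral_congr fun x hx => h _ (sn_g2 (icc hx)),
    intervalIntegral.integral_congr fun x hx => h _ (sn_g3 (icc hx)),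
    intervalIntegral.integral_congr fun x hx => h _ (sn_g4 (icc hx))]

theorem bi_diff {f : ℂ → ℂ} (h : DifferentiableOn ℂ f {w | sn w ≤ 1}) : bi f = 0 := by
  have h1 := Complex.integral_boundary_rect_eq_zero_of_differentiableOn f (⟨-1, -1⟩ : ℂ) (⟨1, 1⟩ : ℂ)
    (h.mono ?_)
  · simpa [bi, g1, g2, g3, g4, smul_eq_mul] using h1
  · rintro w ⟨h2, h3⟩
    exact max_le (icc h2) (icc h3)

theorem bi_norm_le {f : ℂ → ℂ} : ‖bi f‖ ≤ bn f := by
  unfold bi bn
  have e : ∀ g : ℝ → ℂ, ‖∫ x in (-1:ℝ)..1, g x‖ ≤ ∫ x in (-1:ℝ)..1, ‖g x‖ := fun g =>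
    intervalIntegral.norm_integral_le_integral_norm (by norm_num)
  refine (norm_sub_le _ _).trans (add_le_add ((norm_add_le _ _).trans
    (add_le_add ((norm_sub_le _ _).trans (add_le_add (e _) (e _))) ?_)) ?_)
  · rw [norm_mul, norm_I, one_mul]; exact e _
  · rw [norm_mul, norm_I, one_mul]; exact e _

theorem bn_mono {f g : ℂ → ℂ} (hf : CB f) (hg : CB g) {C : ℝ} (h : ∀ w, sn w = 1 → ‖f w‖ ≤ C * ‖g w‖) :
    bn f ≤ C * bn g := by
  unfold bn
  rw [mul_add, mul_add, mul_add]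
  have e : ∀ γ : ℝ → ℂ, ContinuousOn (fun x => f (γ x)) (Set.uIcc (-1:ℝ) 1) →
      ContinuousOn (fun x => g (γ x)) (Set.uIcc (-1:ℝ) 1) → (∀ x, |x| ≤ 1 → sn (γ x) = 1) →
      ∫ x in (-1:ℝ)..1, ‖f (γ x)‖ ≤ C * ∫ x in (-1:ℝ)..1, ‖g (γ x)‖ := by
    intro γ h1 h2 h3
    rw [← intervalIntegral.integral_const_mul]
    refine intervalIntegral.integral_mono_on (by norm_num) h1.norm.intervalIntegrable
      (h2.norm.intervalIntegrable.const_mul C) fun x hx => h _ (h3 x (abs_le.2 ⟨hx.1, hx.2⟩))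
  exact add_le_add (add_le_add (add_le_add (e _ hf.c1 hg.c1 fun _ => sn_g1)
    (e _ hf.c2 hg.c2 fun _ => sn_g2)) (e _ hf.c3 hg.c3 fun _ => sn_g3))
    (e _ hf.c4 hg.c4 fun _ => sn_g4)

theorem bi_im {f : ℂ → ℂ} (hf : CB f) : (bi f).im = (∫ x in (-1:ℝ)..1, (f (g1 x)).im) -
    (∫ x in (-1:ℝ)..1, (f (g2 x)).im) + (∫ x in (-1:ℝ)..1, (f (g3 x)).re) -
    (∫ x in (-1:ℝ)..1, (f (g4 x)).re) := by
  have e1 : ∀ g : ℝ → ℂ, ContinuousOn g (Set.uIcc (-1:ℝ) 1) →
      (∫ x in (-1:ℝ)..1, g x).im = ∫ x in (-1:ℝ)..1, (g x).im := by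
    intro g hg
    have := (imCLM).intervalIntegral_comp_comm (μ := volume) hg.intervalIntegrable
    exact this.symm
  have e2 : ∀ g : ℝ → ℂ, ContinuousOn g (Set.uIcc (-1:ℝ) 1) →
      (∫ x in (-1:ℝ)..1, g x).re = ∫ x in (-1:ℝ)..1, (g x).re := by
    intro g hg
    have := (reCLM).intervalIntegral_comp_comm (μ := volume) hg.intervalIntegrable
    exact this.symm
  unfold bi
  rw [sub_im, add_im, sub_im, I_mul_im, I_mul_im, e1 _ hf.c1, e1 _ hf.c2, e2 _ hf.c3, e2 _ hf.c4]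

theorem CB_pole {t : ℝ} {p : ℂ} (ht0 : 0 < t) (hp : sn p < t) : CB fun w => (t * w - p)⁻¹ := by
  refine ContinuousOn.inv₀ (by fun_prop) ?_
  intro w hw h
  have h1 : (t:ℂ) * w = p := sub_eq_zero.1 h
  have h2 := sn_smul t w
  rw [h1, hw, abs_of_pos ht0] at h2
  linarith

theorem bi_pole {t : ℝ} {p : ℂ} (ht0 : 0 < t) (ht : t ≤ 1) (hp : sn p < t) :
    t - sn p ≤ (bi fun w => (t * w - p)⁻¹).im := by
  have hc := CB_pole ht0 hp
  rw [bi_im hc]
  have hp1 : |p.re| ≤ sn p := le_max_left _ _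
  have hp2 : |p.im| ≤ sn p := le_max_right _ _
  have hns : ∀ w : ℂ, sn w = 1 → normSq (t * w - p) ≤ 8 := by
    intro w hw
    have h1 : |w.re| ≤ 1 := hw ▸ le_max_left _ _
    have h2 : |w.im| ≤ 1 := hw ▸ le_max_right _ _
    rw [normSq_apply, sub_re, sub_im, re_ofReal_mul, im_ofReal_mul]
    rw [abs_le] at h1 h2 hp1 hp2
    have a1 : |t * w.re - p.re| ≤ 2 := by
      rw [abs_le]; constructor <;> nlinarith
    have a2 : |t * w.im - p.im| ≤ 2 := by
      rw [abs_le]; constructor <;> nlinarith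
    have b1 : (t * w.re - p.re) ^ 2 ≤ 2 ^ 2 := sq_le_sq' (abs_le.1 a1).1 (abs_le.1 a1).2
    have b2 : (t * w.im - p.im) ^ 2 ≤ 2 ^ 2 := sq_le_sq' (abs_le.1 a2).1 (abs_le.1 a2).2
    nlinarith
  have hpos : ∀ w : ℂ, sn w = 1 → 0 < normSq (t * w - p) := by
    intro w hw
    refine normSq_pos.2 fun h => ?_
    have h1 : (t:ℂ) * w = p := sub_eq_zero.1 h
    have h2 := sn_smul t w
    rw [h1, hw, abs_of_pos ht0] at h2
    linarith
  have key : ∀ φ : ℝ → ℝ, ContinuousOn φ (Set.uIcc (-1:ℝ) 1) →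
      (∀ x, |x| ≤ 1 → (t - sn p) / 8 ≤ φ x) → (t - sn p) / 4 ≤ ∫ x in (-1:ℝ)..1, φ x := by
    intro φ h1 h2
    have h3 : ∫ x in (-1:ℝ)..1, (t - sn p) / 8 ≤ ∫ x in (-1:ℝ)..1, φ x :=
      intervalIntegral.integral_mono_on (by norm_num) (by simp) h1.intervalIntegrable
        fun x hx => h2 x (abs_le.2 ⟨hx.1, hx.2⟩)
    rw [intervalIntegral.integral_const, smul_eq_mul] at h3
    linarith
  have hdiv : ∀ c : ℝ, ∀ w : ℂ, sn w = 1 → t - sn p ≤ c → (t - sn p) / 8 ≤ c / normSq (t * w - p) := by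
    intro c w hw hc'
    rw [div_le_div_iff₀ (by norm_num) (hpos w hw)]
    have := hns w hw
    have h0 : 0 ≤ t - sn p := by linarith
    nlinarith [hpos w hw]
  have hcr : ContinuousOn (fun x => ((t * g3 x - p)⁻¹).re) (Set.uIcc (-1:ℝ) 1) :=
    continuous_re.comp_continuousOn hc.c3
  have hcl : ContinuousOn (fun x => ((t * g4 x - p)⁻¹).re) (Set.uIcc (-1:ℝ) 1) :=
    continuous_re.comp_continuousOn hc.c4
  have hcb : ContinuousOn (fun x => ((t * g1 x - p)⁻¹).im) (Set.uIcc (-1:ℝ) 1) :=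
    continuous_im.comp_continuousOn hc.c1
  have hct : ContinuousOn (fun x => ((t * g2 x - p)⁻¹).im) (Set.uIcc (-1:ℝ) 1) :=
    continuous_im.comp_continuousOn hc.c2
  rw [abs_le] at hp1 hp2
  have k1 := key _ hcb fun x hx => by
    rw [inv_im, sub_im, im_ofReal_mul, g1_im]
    exact hdiv _ _ (sn_g1 hx) (by linarith)
  have k2 := key (fun x => -((t * g2 x - p)⁻¹).im) hct.neg fun x hx => by
    rw [inv_im, sub_im, im_ofReal_mul, g2_im, ← neg_div]
    exact hdiv _ _ (sn_g2 hx) (by linarith)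
  have k3 := key _ hcr fun x hx => by
    rw [inv_re, sub_re, re_ofReal_mul, g3_re]
    exact hdiv _ _ (sn_g3 hx) (by linarith)
  have k4 := key (fun x => -((t * g4 x - p)⁻¹).re) hcl.neg fun x hx => by
    rw [inv_re, sub_re, re_ofReal_mul, g4_re, ← neg_div]
    exact hdiv _ _ (sn_g4 hx) (by linarith)
  simp only [intervalIntegral.integral_neg] at k2 k4
  linarith

section main

variable {P : Finset ℂ} {r : ℂ → ℝ} {R H : ℂ → ℂ} {K δ : ℝ}

theorem CB_scale {f : ℂ → ℂ} {t : ℝ} (ht0 : 0 < t) (ht : t < 1)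
    (hf : ContinuousOn f {w | sn w < 1}) : CB fun w => f (t * w) := by
  refine ContinuousOn.comp hf (by fun_prop) ?_
  intro w hw
  have h2 := sn_smul t w
  have hw' : sn w = 1 := hw
  rw [hw', abs_of_pos ht0] at h2
  show sn _ < 1
  rw [h2]; linarith

/-- Convergence of the integrals over one side. -/
theorem side_tendsto {γ : ℝ → ℂ} (hγ : Continuous γ) (hs : ∀ x, |x| ≤ 1 → sn (γ x) = 1)
    {Φ : ℂ → ℝ} {T : ℝ} (hT0 : 0 < T) (hT : T < 1) (hc : ContinuousOn Φ {w | T < sn w ∧ sn w < 1})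
    (hb : ∀ w, T < sn w → sn w < 1 → |Φ w| ≤ K)
    (hl : ∀ x, |x| < 1 → Tendsto (fun t : ℝ => Φ (t * γ x)) (𝓝[<] 1) (𝓝 0)) :
    Tendsto (fun t : ℝ => ∫ x in (-1:ℝ)..1, Φ (t * γ x)) (𝓝[<] 1) (𝓝 0) := by
  have hev : ∀ᶠ t : ℝ in 𝓝[<] 1, T < t ∧ t < 1 := by
    have : Set.Ioo T 1 ∈ 𝓝[<] (1:ℝ) := Ioo_mem_nhdsLT hT
    exact this
  have hsn : ∀ t : ℝ, T < t ∧ t < 1 → ∀ x, |x| ≤ 1 → T < sn (t * γ x) ∧ sn (t * γ x) < 1 := by
    intro t ht x hx
    rw [sn_smul, hs x hx, mul_one, abs_of_pos (hT0.trans ht.1)]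
    exact ht
  have h0 : ∫ _ in (-1:ℝ)..1, (0:ℝ) = 0 := by simp
  rw [← h0]
  refine intervalIntegral.tendsto_integral_filter_of_dominated_convergence (fun _ => K) ?_ ?_ ?_ ?_
  · filter_upwards [hev] with t ht
    have h1 : ContinuousOn (fun x => Φ (t * γ x)) (Set.uIcc (-1:ℝ) 1) := by
      refine ContinuousOn.comp hc (by fun_prop) ?_
      intro x hx
      exact hsn t ht x (icc hx)
    exact (h1.mono Set.uIoc_subset_uIcc).aestronglyMeasurable measurableSet_uIoc
  · filter_upwards [hev] with t ht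
    refine Eventually.of_forall fun x hx => ?_
    have h1 := hsn t ht x (icc (Set.uIoc_subset_uIcc hx))
    exact hb _ h1.1 h1.2
  · simp
  · have hne : ∀ᵐ x : ℝ, x ≠ 1 := by
      rw [ae_iff]; simp
    filter_upwards [hne] with x hx1 hx
    rw [Set.uIoc_of_le (by norm_num)] at hx
    exact hl x (abs_lt.2 ⟨hx.1, lt_of_le_of_ne hx.2 hx1⟩)

theorem sq_unique (hP : ∀ p ∈ P, sn p < 1) (hr : ∀ p ∈ P, 0 ≤ r p)
    (hR : DifferentiableOn ℂ R {w | sn w < 1})
    (hH : ∀ w, sn w < 1 → w ∉ P → H w = ∑ p ∈ P, r p * (w - p)⁻¹ + R w)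
    (hδ : 0 < δ) (hb : ∀ w, 1 - δ < sn w → sn w < 1 → ‖H w‖ ≤ K)
    (h1 : ∀ x, |x| < 1 → Tendsto (fun t : ℝ => ‖H (t * g1 x)‖ + (H (t * g1 x)).im) (𝓝[<] 1) (𝓝 0))
    (h2 : ∀ x, |x| < 1 → Tendsto (fun t : ℝ => ‖H (t * g2 x)‖ - (H (t * g2 x)).im) (𝓝[<] 1) (𝓝 0))
    (h3 : ∀ x, |x| < 1 → Tendsto (fun t : ℝ => ‖H (t * g3 x)‖ + (H (t * g3 x)).re) (𝓝[<] 1) (𝓝 0))
    (h4 : ∀ x, |x| < 1 → Tendsto (fun t : ℝ => ‖H (t * g4 x)‖ - (H (t * g4 x)).re) (𝓝[<] 1) (𝓝 0)) :
    (∀ p ∈ P, r p = 0) ∧ ∀ w, sn w < 1 → R w = 0 := by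
  -- a threshold
  obtain ⟨T, hT0, hT1, hTP, hTδ⟩ : ∃ T : ℝ, 0 < T ∧ T < 1 ∧ (∀ p ∈ P, sn p < T) ∧ 1 - δ ≤ T := by
    have : ∀ᶠ T : ℝ in 𝓝[<] 1, 0 < T ∧ T < 1 ∧ (∀ p ∈ P, sn p < T) ∧ 1 - δ ≤ T := by
      have e1 : ∀ c : ℝ, c < 1 → ∀ᶠ T : ℝ in 𝓝[<] 1, c < T := fun c hc =>
        (lt_mem_nhds hc).filter_mono nhdsWithin_le_nhds
      filter_upwards [e1 0 one_pos, self_mem_nhdsWithin,
        (P.eventually_all).2 fun p hp => e1 (sn p) (hP p hp), e1 (1 - δ) (by linarith)] with T a b c d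
      exact ⟨a, b, c, d.le⟩
    exact this.exists
  have hnP : ∀ w, T < sn w → w ∉ P := fun w hw hwP => by
    have := hTP w hwP; linarith
  have hHc : ContinuousOn H {w | T < sn w ∧ sn w < 1} := by
    have : ContinuousOn (fun w => ∑ p ∈ P, r p * (w - p)⁻¹ + R w) {w | T < sn w ∧ sn w < 1} := by
      refine ContinuousOn.add ?_ (hR.continuousOn.mono fun w hw => hw.2)
      refine continuousOn_finsetSum P fun p hp => ?_
      refine continuousOn_const.mul (ContinuousOn.inv₀ (by fun_prop) ?_)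
      intro w hw h
      rw [sub_eq_zero.1 h] at hw
      exact absurd hw.1 (hTP p hp).not_gt
    exact this.congr fun w hw => hH w hw.2 (hnP w hw.1)
  have hHb : ∀ w, T < sn w → sn w < 1 → ‖H w‖ ≤ K := fun w a b => hb w (by linarith) b
  have cre : ContinuousOn (fun w => (H w).re) {w | T < sn w ∧ sn w < 1} :=
    continuous_re.comp_continuousOn hHc
  have cim : ContinuousOn (fun w => (H w).im) {w | T < sn w ∧ sn w < 1} :=
    continuous_im.comp_continuousOn hHc
  have bre : ∀ w, T < sn w → sn w < 1 → |(H w).re| ≤ K := fun w a b =>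
    (abs_re_le_norm _).trans (hHb w a b)
  have bim : ∀ w, T < sn w → sn w < 1 → |(H w).im| ≤ K := fun w a b =>
    (abs_im_le_norm _).trans (hHb w a b)
  have bno : ∀ w, T < sn w → sn w < 1 → |‖H w‖| ≤ K := fun w a b => by
    rw [abs_norm]; exact hHb w a b
  have ev1 : ∀ᶠ t : ℝ in 𝓝[<] 1, T < t ∧ t < 1 := Ioo_mem_nhdsLT hT1
  have s1 := side_tendsto (K := K + K) g1_cont (fun _ => sn_g1) hT0 hT1
    (Φ := fun w => ‖H w‖ + (H w).im) (hHc.norm.add cim)
    (fun w a b => (abs_add_le _ _).trans (add_le_add (bno w a b) (bim w a b))) h1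
  have s2 := side_tendsto (K := K + K) g2_cont (fun _ => sn_g2) hT0 hT1
    (Φ := fun w => ‖H w‖ - (H w).im) (hHc.norm.sub cim)
    (fun w a b => (abs_sub _ _).trans (add_le_add (bno w a b) (bim w a b))) h2
  have s3 := side_tendsto (K := K + K) g3_cont (fun _ => sn_g3) hT0 hT1
    (Φ := fun w => ‖H w‖ + (H w).re) (hHc.norm.add cre)
    (fun w a b => (abs_add_le _ _).trans (add_le_add (bno w a b) (bre w a b))) h3
  have s4 := side_tendsto (K := K + K) g4_cont (fun _ => sn_g4) hT0 hT1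
    (Φ := fun w => ‖H w‖ - (H w).re) (hHc.norm.sub cre)
    (fun w a b => (abs_sub _ _).trans (add_le_add (bno w a b) (bre w a b))) h4
  have serr := ((s1.add s2).add s3).add s4
  simp only [add_zero] at serr
  -- the integral identity
  have hscale : ∀ t : ℝ, T < t → t < 1 → ∀ w, sn w = 1 → sn ((t:ℂ) * w) = t := by
    intro t ht ht1 w hw
    rw [sn_smul, hw, mul_one, abs_of_pos (hT0.trans ht)]
  have hCH : ∀ t : ℝ, T < t → t < 1 → CB fun w => H (t * w) := by
    intro t ht ht1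
    refine ContinuousOn.comp hHc (by fun_prop) ?_
    intro w hw
    have := hscale t ht ht1 w hw
    exact ⟨ht.trans_eq this.symm, this.trans_lt ht1⟩
  have hid : ∀ t : ℝ, T < t → t < 1 → (bi fun w => H (t * w)).im =
      ∑ p ∈ P, r p * (bi fun w => (t * w - p)⁻¹).im := by
    intro t ht ht1
    have ht0 : 0 < t := hT0.trans ht
    have e1 : bi (fun w => H (t * w)) =
        bi (fun w => ∑ p ∈ P, (r p : ℂ) * (t * w - p)⁻¹ + R (t * w)) := by
      refine bi_congr fun w hw => ?_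
      have := hscale t ht ht1 w hw
      exact hH _ (this.trans_lt ht1) (hnP _ (ht.trans_eq this.symm))
    have hCp : ∀ p ∈ P, CB fun w => (r p : ℂ) * (t * w - p)⁻¹ := fun p hp =>
      (CB_pole ht0 ((hTP p hp).trans ht)).const_mul _
    rw [e1, bi_add (CB_sum hCp) (CB_scale ht0 ht1 hR.continuousOn), bi_sum hCp, bi_diff (f := fun w =>
      R (t * w)), add_zero, im_sum]
    · refine Finset.sum_congr rfl fun p _ => ?_
      rw [bi_const_mul, im_ofReal_mul]
    · refine hR.comp (by fun_prop) ?_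
      intro w hw
      show sn _ < 1
      have hw' : sn w ≤ 1 := hw
      rw [sn_smul, abs_of_pos ht0]
      nlinarith [sn_nonneg w]
  -- main inequality
  have hmain : ∀ t : ℝ, T < t → t < 1 → bn (fun w => H (t * w)) + ∑ p ∈ P, r p * (t - sn p) ≤
      (∫ x in (-1:ℝ)..1, (‖H (t * g1 x)‖ + (H (t * g1 x)).im)) +
      (∫ x in (-1:ℝ)..1, (‖H (t * g2 x)‖ - (H (t * g2 x)).im)) +
      (∫ x in (-1:ℝ)..1, (‖H (t * g3 x)‖ + (H (t * g3 x)).re)) +
      (∫ x in (-1:ℝ)..1, (‖H (t * g4 x)‖ - (H (t * g4 x)).re)) := by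
    intro t ht ht1
    have ht0 : 0 < t := hT0.trans ht
    have hC := hCH t ht ht1
    have k1 := hid t ht ht1
    rw [bi_im hC] at k1
    have k2 : ∑ p ∈ P, r p * (t - sn p) ≤ ∑ p ∈ P, r p * (bi fun w => (t * w - p)⁻¹).im :=
      Finset.sum_le_sum fun p hp => mul_le_mul_of_nonneg_left
        (bi_pole ht0 ht1.le ((hTP p hp).trans ht)) (hr p hp)
    have i1 := hC.c1.norm.intervalIntegrable (μ := volume)
    have i2 := hC.c2.norm.intervalIntegrable (μ := volume)
    have i3 := hC.c3.norm.intervalIntegrable (μ := volume)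
    have i4 := hC.c4.norm.intervalIntegrable (μ := volume)
    have j1 := (continuous_im.comp_continuousOn hC.c1).intervalIntegrable (μ := volume)
    have j2 := (continuous_im.comp_continuousOn hC.c2).intervalIntegrable (μ := volume)
    have j3 := (continuous_re.comp_continuousOn hC.c3).intervalIntegrable (μ := volume)
    have j4 := (continuous_re.comp_continuousOn hC.c4).intervalIntegrable (μ := volume)
    simp only [Function.comp_def] at j1 j2 j3 j4
    rw [intervalIntegral.integral_add i1 j1, intervalIntegral.integral_sub i2 j2,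
      intervalIntegral.integral_add i3 j3, intervalIntegral.integral_sub i4 j4]
    unfold bn
    linarith
  have hbn0 : ∀ f : ℂ → ℂ, 0 ≤ bn f := fun f => by
    unfold bn
    have e : ∀ γ : ℝ → ℂ, 0 ≤ ∫ x in (-1:ℝ)..1, ‖f (γ x)‖ := fun γ =>
      intervalIntegral.integral_nonneg (by norm_num) fun _ _ => norm_nonneg _
    have := e g1; have := e g2; have := e g3; have := e g4
    linarith
  have hrs : ∀ t : ℝ, T < t → 0 ≤ ∑ p ∈ P, r p * (t - sn p) := fun t ht =>
    Finset.sum_nonneg fun p hp => mul_nonneg (hr p hp) (by linarith [hTP p hp])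
  have lim1 : Tendsto (fun t : ℝ => bn fun w => H (t * w)) (𝓝[<] 1) (𝓝 0) := by
    refine squeeze_zero' (Eventually.of_forall fun t => hbn0 _) ?_ serr
    filter_upwards [ev1] with t ht
    linarith [hmain t ht.1 ht.2, hrs t ht.1]
  have lim2 : Tendsto (fun t : ℝ => ∑ p ∈ P, r p * (t - sn p)) (𝓝[<] 1) (𝓝 0) := by
    refine squeeze_zero' ?_ ?_ serr
    · filter_upwards [ev1] with t ht
      exact hrs t ht.1
    · filter_upwards [ev1] with t ht
      linarith [hmain t ht.1 ht.2, hbn0 fun w => H (t * w)]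
  have hr0 : ∀ p ∈ P, r p = 0 := by
    have hc : Continuous fun t : ℝ => ∑ p ∈ P, r p * (t - sn p) := by fun_prop
    have hl : Tendsto (fun t : ℝ => ∑ p ∈ P, r p * (t - sn p)) (𝓝[<] 1)
      (𝓝 (∑ p ∈ P, r p * (1 - sn p))) := (hc.tendsto 1).mono_left nhdsWithin_le_nhds
    have h5 := tendsto_nhds_unique hl lim2
    have h6 := (Finset.sum_eq_zero_iff_of_nonneg fun p hp => mul_nonneg (hr p hp)
      (by linarith [hP p hp])).1 h5
    intro p hp
    rcases mul_eq_zero.1 (h6 p hp) with h7 | h7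
    · exact h7
    · linarith [hP p hp]
  refine ⟨hr0, fun w₀ hw₀ => ?_⟩
  -- Cauchy
  have hHR : ∀ w, sn w < 1 → w ∉ P → H w = R w := by
    intro w hw hwP
    rw [hH w hw hwP, Finset.sum_eq_zero fun p hp => by rw [hr0 p hp]; simp, zero_add]
  have ev2 : ∀ᶠ t : ℝ in 𝓝[<] 1, T < t ∧ t < 1 ∧ (1 + sn w₀) / 2 < t := by
    filter_upwards [ev1, (lt_mem_nhds (show (1 + sn w₀) / 2 < 1 by linarith)).filter_mono
      nhdsWithin_le_nhds] with t a b
    exact ⟨a.1, a.2, b⟩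
  have hkey : ∀ t : ℝ, T < t → t < 1 → (1 + sn w₀) / 2 < t →
      ‖R w₀‖ * ((1 - sn w₀) / 2) ≤ 2 / (1 - sn w₀) * bn fun w => H (t * w) := by
    intro t ht ht1 htw
    have ht0 : 0 < t := hT0.trans ht
    have hw1 : sn w₀ < t := by linarith
    set ds := dslope R w₀ with hds
    have hdsd : DifferentiableOn ℂ ds {w | sn w < 1} := by
      refine (differentiableOn_dslope ?_).2 hR
      exact (isOpen_lt sn_cont continuous_const).mem_nhds hw₀
    have e1 : bi (fun w => ds (t * w)) = 0 := by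
      refine bi_diff (hdsd.comp (by fun_prop) ?_)
      intro w hw
      show sn _ < 1
      have hw' : sn w ≤ 1 := hw
      rw [sn_smul, abs_of_pos ht0]
      nlinarith [sn_nonneg w]
    have hCp := CB_pole ht0 hw1
    have hCR := CB_scale ht0 ht1 hR.continuousOn
    have e2 : bi (fun w => (t * w - w₀)⁻¹ * R (t * w)) = R w₀ * bi fun w => (t * w - w₀)⁻¹ := by
      have e3 : bi (fun w => (t * w - w₀)⁻¹ * R (t * w)) =
          bi (fun w => R w₀ * (t * w - w₀)⁻¹ + ds (t * w)) := by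
        refine bi_congr fun w hw => ?_
        have hne : (t:ℂ) * w - w₀ ≠ 0 := by
          intro h
          have h5 := hscale t ht ht1 w hw
          rw [sub_eq_zero.1 h] at h5
          linarith
        have h6 := sub_smul_dslope R w₀ (t * w)
        rw [smul_eq_mul] at h6
        rw [hds]
        field_simp
        linear_combination -h6
      rw [e3, bi_add (hCp.const_mul _) (CB_scale ht0 ht1 hdsd.continuousOn), e1, add_zero,
        bi_const_mul]
    have h5 : ‖bi (fun w => (t * w - w₀)⁻¹ * R (t * w))‖ ≤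
        2 / (1 - sn w₀) * bn fun w => H (t * w) := by
      refine bi_norm_le.trans (bn_mono (hCp.mul hCR) (hCH t ht ht1) fun w hw => ?_)
      have h7 := hscale t ht ht1 w hw
      rw [norm_mul, norm_inv, hHR _ (h7.trans_lt ht1) (hnP _ (ht.trans_eq h7.symm))]
      refine mul_le_mul_of_nonneg_right ?_ (norm_nonneg _)
      have h8 := sn_sub (t * w) w₀
      rw [h7] at h8
      have h9 := sn_le (t * w - w₀)
      rw [inv_le_comm₀ (by linarith) (by have : 0 < 1 - sn w₀ := by linarith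
                                         positivity), inv_div]
      linarith
    rw [e2, norm_mul] at h5
    refine le_trans (mul_le_mul_of_nonneg_left ?_ (norm_nonneg _)) h5
    have h10 := bi_pole ht0 ht1.le hw1
    have h11 := (le_abs_self _).trans (abs_im_le_norm (bi fun w => ((t:ℂ) * w - w₀)⁻¹))
    linarith
  have hlim3 := lim1.const_mul (2 / (1 - sn w₀))
  rw [mul_zero] at hlim3
  have h12 : ‖R w₀‖ * ((1 - sn w₀) / 2) ≤ 0 := by
    refine ge_of_tendsto hlim3 ?_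
    filter_upwards [ev2] with t ht
    exact hkey t ht.1 ht.2.1 ht.2.2
  have h13 : 0 < (1 - sn w₀) / 2 := by linarith
  have h14 : ‖R w₀‖ ≤ 0 := by
    by_contra hc
    push Not at hc
    have := mul_pos hc h13
    linarith
  exact norm_le_zero_iff.1 h14

end main

end Vale.Agent.P144.H365
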