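import Vale.Agent.P144.H365.Loc
import Vale.Agent.P144.H170.Lim

/-!
Symmetrization of a spinor that branches around the origin.
-/

namespace Vale.Agent.P144.H365

open Finset MeasureTheory Filter Topology Vale.Agent.P144

/-- The sign of the relation between the faces `x` and `x + (1, 0)` for a spin at the origin. -/
noncomputable def ep (x : Site) : ℝ := if x.1 = -1 ∧ x.2 < 0 then -1 else 1

/-- The sign of the horizontal position. -/
noncomputable def sgn (i : ℤ) : ℝ := if i < 0 then -1 else 1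

theorem sgn_sq (i : ℤ) : sgn i * sgn i = 1 := by unfold sgn; split_ifs <;> norm_num

theorem ep_sq (x : Site) : ep x * ep x = 1 := by unfold ep; split_ifs <;> norm_num

/-- The Laplacian of the double cover. -/
noncomputable def slap (X : Site → ℝ) (x : Site) : ℝ :=
  X (x.1, x.2 + 1) + X (x.1, x.2 - 1) + ep x * X (x.1 + 1, x.2) + ep (x.1 - 1, x.2) * X (x.1 - 1, x.2)
    - 4 * X x

/-- The relations of a spinor that branches around the spin at the origin. -/
def RelO (A B C E : Site → ℝ) (x : Site) : Prop := H170.Rel 1 ep A B C E x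

theorem RelO.h1 {A B C E : Site → ℝ} {i j : ℤ} (h : RelO A B C E (i, j)) :
    C (i, j) = √2 * A (i, j + 1) - B (i, j + 1) := by
  have := h.1
  simpa using this

theorem RelO.h2 {A B C E : Site → ℝ} {i j : ℤ} (h : RelO A B C E (i, j)) :
    E (i, j) = √2 * B (i, j + 1) - A (i, j + 1) := by
  have := h.2.1
  simpa using this

theorem RelO.h3 {A B C E : Site → ℝ} {i j : ℤ} (h : RelO A B C E (i, j)) :
    B (i, j) = ep (i, j) * (√2 * A (i + 1, j) - C (i + 1, j)) := by
  have := h.2.2.1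
  simpa using this

theorem RelO.h4 {A B C E : Site → ℝ} {i j : ℤ} (h : RelO A B C E (i, j)) :
    E (i, j) = -(ep (i, j) * (√2 * C (i + 1, j) - A (i + 1, j))) := by
  have := h.2.2.2
  simpa using this

/-- First conjugate relation, around the vertex `(i, j)`. -/
theorem CR1 {A B C E : Site → ℝ} {i j : ℤ} (h1 : RelO A B C E (i, j - 1))
    (h2 : RelO A B C E (i - 1, j - 1)) :
    E (i, j - 1) - ep (i - 1, j - 1) * E (i - 1, j - 1) = A (i, j) - A (i, j - 1) := by
  have e1 := h1.h1
  have e2 := h1.h2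
  have e3 := h2.h4
  rw [sub_add_cancel] at e1 e2 e3
  have s := ep_sq (i - 1, j - 1)
  rw [e3, e1, e2]
  linear_combination (√2 * (√2 * A (i, j) - B (i, j)) - A (i, j - 1)) * s + A (i, j) * sqrt2_sq

/-- Second conjugate relation, around the vertex `(i, j)`. -/
theorem CR2 {A B C E : Site → ℝ} {i j : ℤ} (h1 : RelO A B C E (i - 1, j))
    (h2 : RelO A B C E (i - 1, j - 1)) :
    E (i - 1, j) - E (i - 1, j - 1) = A (i - 1, j) - ep (i - 1, j) * A (i, j) := by
  have e1 := h1.h3
  have e2 := h1.h4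
  have e3 := h2.h2
  rw [sub_add_cancel] at e1 e2 e3
  rw [e3, e1, e2]
  linear_combination (-ep (i - 1, j) * A (i, j)) * sqrt2_sq

theorem slap_A {A B C E : Site → ℝ} {i j : ℤ} (h1 : RelO A B C E (i, j))
    (h2 : RelO A B C E (i - 1, j)) (h3 : RelO A B C E (i, j - 1))
    (h4 : RelO A B C E (i - 1, j - 1)) :
    slap A (i, j) = (ep (i - 1, j - 1) - ep (i - 1, j)) * E (i - 1, j - 1) := by
  have c1 := CR1 h3 h4
  have c1' := CR1 (i := i) (j := j + 1) (by rwa [add_sub_cancel_right])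
    (by rwa [add_sub_cancel_right])
  have c2 := CR2 h2 h4
  have c2' := CR2 (i := i + 1) (j := j) (by rwa [add_sub_cancel_right])
    (by rwa [add_sub_cancel_right])
  simp only [add_sub_cancel_right] at c1' c2'
  unfold slap
  simp only
  have s1 := ep_sq (i, j)
  have s2 := ep_sq (i - 1, j)
  linear_combination c1 - c1' - ep (i - 1, j) * c2 + c2' + A (i, j) * s2

theorem slap_E {A B C E : Site → ℝ} {i j : ℤ} (h1 : RelO A B C E (i, j))
    (h2 : RelO A B C E (i + 1, j)) (h3 : RelO A B C E (i - 1, j))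
    (h4 : RelO A B C E (i, j + 1)) (h5 : RelO A B C E (i, j - 1)) :
    slap E (i, j) = (ep (i, j) - ep (i, j + 1)) * A (i + 1, j + 1) := by
  have c1 := CR1 (A := A) (B := B) (C := C) (E := E) (i := i + 1) (j := j + 1)
    (by rwa [add_sub_cancel_right]) (by rwa [add_sub_cancel_right, add_sub_cancel_right])
  have c1' := CR1 (A := A) (B := B) (C := C) (E := E) (i := i) (j := j + 1)
    (by rwa [add_sub_cancel_right]) (by rwa [add_sub_cancel_right])
  have c2 := CR2 (A := A) (B := B) (C := C) (E := E) (i := i + 1) (j := j + 1)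
    (by rwa [add_sub_cancel_right]) (by rwa [add_sub_cancel_right, add_sub_cancel_right])
  have c2' := CR2 (A := A) (B := B) (C := C) (E := E) (i := i + 1) (j := j)
    (by rwa [add_sub_cancel_right]) (by rwa [add_sub_cancel_right])
  simp only [add_sub_cancel_right] at c1 c1' c2 c2'
  unfold slap
  simp only
  have s1 := ep_sq (i, j)
  linear_combination ep (i, j) * c1 + (-1) * c1' + c2 - c2' + E (i, j) * s1

/-- The reflected field. -/
noncomputable def Em (E : Site → ℝ) (x : Site) : ℝ := sgn x.1 * E (-x.1 - 1, -x.2 - 1)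

theorem sgn_ep (i : ℤ) (j : ℤ) : sgn i * sgn (i - 1) * ep (-i - 1, -j - 1) = ep (i - 1, j) := by
  unfold sgn ep
  simp only
  split_ifs <;> first | (exfalso; lia) | norm_num

theorem slap_Em (E : Site → ℝ) (x : Site) :
    slap (Em E) x = sgn x.1 * slap E (-x.1 - 1, -x.2 - 1) := by
  obtain ⟨i, j⟩ := x
  have k1 := sgn_ep i j
  have k2 := sgn_ep (i + 1) j
  rw [add_sub_cancel_right] at k2
  have s1 := sgn_sq i
  have s2 := sgn_sq (i - 1)
  have s3 := sgn_sq (i + 1)
  unfold slap Em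
  simp only
  have e1 : -(j + 1) - 1 = -j - 1 - 1 := by ring
  have e2 : -(j - 1) - 1 = -j - 1 + 1 := by ring
  have e3 : -(i + 1) - 1 = -i - 1 - 1 := by ring
  have e4 : -(i - 1) - 1 = -i - 1 + 1 := by ring
  rw [e1, e2, e3, e4, ← k1, ← k2, e3]
  linear_combination (E (-i - 1 - 1, -j - 1) * sgn i * ep (-i - 1 - 1, -j - 1)) * s3 +
    (E (-i - 1 + 1, -j - 1) * sgn i * ep (-i - 1, -j - 1)) * s2

/-- Symmetrization. -/
noncomputable def Pm (X : Site → ℝ) (x : Site) : ℝ :=
  X (min x.1 x.2, max x.1 x.2) + sgn (max x.1 x.2) * X (max x.1 x.2, min x.1 x.2)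

theorem Pm_le {X : Site → ℝ} {i j : ℤ} (h : i ≤ j) : Pm X (i, j) = X (i, j) + sgn j * X (j, i) := by
  unfold Pm; simp only; rw [min_eq_left h, max_eq_right h]

theorem Pm_ge {X : Site → ℝ} {i j : ℤ} (h : j ≤ i) : Pm X (i, j) = X (j, i) + sgn i * X (i, j) := by
  unfold Pm; simp only; rw [min_eq_right h, max_eq_left h]

theorem Pm_swap (X : Site → ℝ) (i j : ℤ) : Pm X (j, i) = Pm X (i, j) := by
  unfold Pm; simp only; rw [min_comm, max_comm]

theorem Pm_slit {X : Site → ℝ} {i : ℤ} (h : i < 0) : Pm X (i, i) = 0 := by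
  rw [Pm_le le_rfl]; unfold sgn; rw [if_pos h]; ring

theorem Pm_tip (X : Site → ℝ) : Pm X (0, 0) = 2 * X (0, 0) := by
  rw [Pm_le le_rfl]; unfold sgn; rw [if_neg (lt_irrefl _)]; ring

theorem lap_mk (u : Site → ℝ) (i j : ℤ) : H170.lap u (i, j) =
    u (i + 1, j) + u (i - 1, j) + u (i, j + 1) + u (i, j - 1) - 4 * u (i, j) := by
  unfold H170.lap
  have n1 : ((i, j) + ((1, 0) : Site)) = (i + 1, j) := by ext <;> simp
  have n2 : ((i, j) - ((1, 0) : Site)) = (i - 1, j) := by ext <;> simp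
  have n3 : ((i, j) + ((0, 1) : Site)) = (i, j + 1) := by ext <;> simp
  have n4 : ((i, j) - ((0, 1) : Site)) = (i, j - 1) := by ext <;> simp
  rw [n1, n2, n3, n4]

theorem lap_Pm_lt {X : Site → ℝ} {i j : ℤ} (h : i < j) :
    H170.lap (Pm X) (i, j) = slap X (i, j) + sgn j * slap X (j, i) := by
  rw [lap_mk, Pm_le (by lia), Pm_le (by lia), Pm_le (by lia), Pm_le (by lia), Pm_le (by lia)]
  unfold slap
  simp only
  have e1 : ep (i, j) = 1 := by unfold ep; rw [if_neg (by simp only; lia)]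
  have e2 : ep (i - 1, j) = 1 := by unfold ep; rw [if_neg (by simp only; lia)]
  have e3 : sgn j * ep (j, i) = sgn (j + 1) := by
    unfold sgn ep; simp only; split_ifs <;> first | (exfalso; lia) | norm_num
  have e4 : sgn j * ep (j - 1, i) = sgn (j - 1) := by
    unfold sgn ep; simp only; split_ifs <;> first | (exfalso; lia) | norm_num
  rw [e1, e2, ← e3, ← e4]
  ring

theorem lap_Pm_diag {X : Site → ℝ} {i : ℤ} (h : 0 ≤ i) :
    H170.lap (Pm X) (i, i) = 2 * slap X (i, i) := by
  rw [lap_mk, Pm_ge (by lia), Pm_le (by lia), Pm_le (by lia), Pm_ge (by lia), Pm_le le_rfl]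
  unfold slap
  simp only
  have e1 : ep (i, i) = 1 := by unfold ep; rw [if_neg (by simp only; lia)]
  have e2 : ep (i - 1, i) = 1 := by unfold ep; rw [if_neg (by simp only; lia)]
  have e3 : sgn (i + 1) = 1 := by unfold sgn; rw [if_neg (by lia)]
  have e4 : sgn i = 1 := by unfold sgn; rw [if_neg (by lia)]
  rw [e1, e2, e3, e4]
  ring

theorem lap_Pm {X : Site → ℝ} {i j : ℤ} (h : ¬ (i = j ∧ i ≤ 0)) (h1 : slap X (i, j) = 0)
    (h2 : slap X (j, i) = 0) : H170.lap (Pm X) (i, j) = 0 := by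
  rcases lt_trichotomy i j with hh | hh | hh
  · rw [lap_Pm_lt hh, h1, h2]; ring
  · subst hh
    rw [lap_Pm_diag (by lia), h1]; ring
  · have : H170.lap (Pm X) (i, j) = H170.lap (Pm X) (j, i) := by
      rw [lap_mk, lap_mk, Pm_swap X (i + 1) j, Pm_swap X (i - 1) j, Pm_swap X i (j + 1),
        Pm_swap X i (j - 1), Pm_swap X i j]
      ring
    rw [this, lap_Pm_lt hh, h1, h2]; ring

end Vale.Agent.P144.H365
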