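import Vale.Agent.P144.H365.Loc2
import Vale.Agent.P144.H170.XjLim

/-!
The values of a spinor at a marked point.
-/

namespace Vale.Agent.P144.H365

open MeasureTheory Filter Topology Vale.Agent.P144 Complex

section core

variable {ι : Type*} {l : Filter ι} {a : ι → ℝ}

/-- The limit of the field `X` of type `E` near the branch point `0` is given by `g`. -/
def ELim (l : Filter ι) (a : ι → ℝ) (R : ℝ) (X : ι → Site → ℝ) (g : ℂ → ℂ) : Prop :=
  ∀ z : ℂ, z ≠ 0 → ‖z‖ < R → Tendsto (fun kx : ι × Site => (√(a kx.1))⁻¹ * X kx.1 kx.2 -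
    H170.phE (g z / H170.rtd (H170.pos (a kx.1) kx.2 (3 / 4) (3 / 4)))) (H170.nf l a z) (𝓝 0)

theorem ALim.mono {R R' : ℝ} (hR : R' ≤ R) {X : ι → Site → ℝ} {g : ℂ → ℂ} (h : ALim l a R X g) :
    ALim l a R' X g := fun z hz hzR => h z hz (hzR.trans_le hR)

theorem refl_nf (ha : Tendsto a l (𝓝[>] 0)) (z : ℂ) :
    Tendsto (fun kx : ι × Site => (kx.1, ((-kx.2.1 - 1, -kx.2.2 - 1) : Site))) (H170.nf l a z)
      (H170.nf l a (-z)) := by
  refine H170.tendsto_nf (φ := fun _ x => ((-x.1 - 1, -x.2 - 1) : Site)) ?_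
  have h1 : Tendsto (fun kx : ι × Site => ((a kx.1 : ℝ) : ℂ)) (H170.nf l a z) (𝓝 0) := by
    have := (continuous_ofReal.tendsto 0).comp (H170.a_nf ha z)
    rw [ofReal_zero] at this
    exact this
  have h2 := (H170.tendsto_pt_nf (l := l) (a := a) z).neg.sub (h1.mul_const (⟨1, 1⟩ : ℂ))
  rw [zero_mul, sub_zero] at h2
  refine h2.congr fun kx => ?_
  apply Complex.ext <;> simp [H170.pt] <;> ring

theorem ELim.em (ha : Tendsto a l (𝓝[>] 0)) {R : ℝ} {X : ι → Site → ℝ} {g : ℂ → ℂ}
    (h : ELim l a R X g) : ALim l a R (fun k => Em (X k)) (fun z => g (-z)) := by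
  intro z hz hzR
  have h1 := (h (-z) (neg_ne_zero.2 hz) (by rwa [norm_neg])).comp (refl_nf ha z)
  rw [tendsto_zero_iff_norm_tendsto_zero] at h1 ⊢
  refine h1.congr' ?_
  filter_upwards [H170.apos_nf ha z] with kx hk
  simp only [Function.comp_apply]
  obtain ⟨k, i, j⟩ := kx
  simp only at hk ⊢
  have e1 : H170.pos (a k) ((-i - 1, -j - 1) : Site) (3 / 4) (3 / 4) =
      -H170.pos (a k) (i, j) (1 / 4) (1 / 4) := by
    apply Complex.ext <;> simp [H170.pos] <;> ring
  have hre : (H170.pos (a k) (i, j) (1 / 4) (1 / 4)).re = a k * (i + 1 / 4) := rfl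
  have hne : (H170.pos (a k) (i, j) (1 / 4) (1 / 4)).re ≠ 0 := by
    rw [hre]
    intro h
    rcases mul_eq_zero.1 h with h | h
    · exact hk.ne' h
    · have : (4 * i + 1 : ℝ) = 0 := by linarith
      have h' : 4 * i + 1 = 0 := by exact_mod_cast this
      lia
  have e2 := H170.rtd_eq_sg hne
  rw [hre, sg_sgn hk] at e2
  rw [e1, H170.rtd_neg, e2, H170.phE_apply]
  have hs := sgn_sq i
  have hs' : (sgn i : ℂ) * (sgn i : ℂ) = 1 := by exact_mod_cast hs
  have hinv : (sgn i : ℂ)⁻¹ = sgn i := inv_eq_of_mul_eq_one_left hs'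
  have e3 : (g (-z) / ((sgn i : ℂ) * H170.rtu (H170.pos (a k) (i, j) (1 / 4) (1 / 4)))).re =
      sgn i * (g (-z) / H170.rtu (H170.pos (a k) (i, j) (1 / 4) (1 / 4))).re := by
    rw [← re_ofReal_mul]
    congr 1
    rw [div_eq_mul_inv, mul_inv, hinv, div_eq_mul_inv]
    ring
  have e4 : -(g (-z) / (I * H170.rtu (H170.pos (a k) (i, j) (1 / 4) (1 / 4)))).im =
      (g (-z) / H170.rtu (H170.pos (a k) (i, j) (1 / 4) (1 / 4))).re := by
    have : g (-z) / (I * H170.rtu (H170.pos (a k) (i, j) (1 / 4) (1 / 4))) =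
        -I * (g (-z) / H170.rtu (H170.pos (a k) (i, j) (1 / 4) (1 / 4))) := by
      rw [div_eq_mul_inv, mul_inv, inv_I, div_eq_mul_inv]; ring
    rw [this]; simp
  rw [e3, e4]
  unfold Em
  simp only
  set Q := (g (-z) / H170.rtu (H170.pos (a k) (i, j) (1 / 4) (1 / 4))).re
  have e5 : (√(a k))⁻¹ * (sgn i * X k (-i - 1, -j - 1)) - sgn i * Q =
      sgn i * ((√(a k))⁻¹ * X k (-i - 1, -j - 1) - Q) := by ring
  rw [e5, norm_mul]
  have : ‖sgn i‖ = 1 := by unfold sgn; split_ifs <;> simp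
  rw [this, one_mul]

/-- Local data of a spinor near a branch point. -/
structure BData (l : Filter ι) (a : ι → ℝ) (R : ℝ) (A B C E : ι → Site → ℝ) (g : ℂ → ℂ) :
    Prop where
  rel : ∀ᶠ kx in H170.nf l a 0, RelO (A kx.1) (B kx.1) (C kx.1) (E kx.1) kx.2
  limA : ALim l a R A g
  limE : ELim l a R E g
  diff : DifferentiableOn ℂ g (Metric.ball 0 R)

variable {R : ℝ} {A B C E : ι → Site → ℝ} {g : ℂ → ℂ}

theorem BData.slap_ev (ha : Tendsto a l (𝓝[>] 0)) (h : BData l a R A B C E g) :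
    ∃ r > 0, ∀ᶠ k in l, ∀ x : Site, ‖H170.pt (a k) x‖ < r →
      (x ≠ (0, 0) → slap (A k) x = 0) ∧ (x ≠ (0, 0) → slap (Em (E k)) x = 0) ∧
      (x = (0, 0) → slap (Em (E k)) x = -2 * A k (0, 0)) := by
  have h1 := H170.ev_near (P := fun k x => RelO (A k) (B k) (C k) (E k) x) ha h.rel 2
  have h2 := (refl_nf ha (0:ℂ))
  rw [neg_zero] at h2
  have h3 := h2.eventually h1
  obtain ⟨r1, hr1, k1⟩ := (H170.ev_nf (P := fun k x => ∀ y : Site, |y.1 - x.1| ≤ (2:ℕ) →
    |y.2 - x.2| ≤ (2:ℕ) → RelO (A k) (B k) (C k) (E k) y)).1 h1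
  obtain ⟨r2, hr2, k2⟩ := (H170.ev_nf (P := fun k x => ∀ y : Site, |y.1 - (-x.1 - 1)| ≤ (2:ℕ) →
    |y.2 - (-x.2 - 1)| ≤ (2:ℕ) → RelO (A k) (B k) (C k) (E k) y)).1 h3
  refine ⟨min r1 r2, by positivity, ?_⟩
  filter_upwards [k1, k2] with k g1 g2 x hx
  have m1 := g1 x (by rw [sub_zero]; exact hx.le.trans (min_le_left _ _))
  have m2 := g2 x (by rw [sub_zero]; exact hx.le.trans (min_le_right _ _))
  obtain ⟨i, j⟩ := x
  simp only at m1 m2
  have q : ∀ m n : ℤ, |m| ≤ 2 → |n| ≤ 2 → RelO (A k) (B k) (C k) (E k) (i + m, j + n) := by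
    intro m n hm hn
    exact m1 (i + m, j + n) (by simpa using hm) (by simpa using hn)
  have q' : ∀ m n : ℤ, |m| ≤ 2 → |n| ≤ 2 →
      RelO (A k) (B k) (C k) (E k) (-i - 1 + m, -j - 1 + n) := by
    intro m n hm hn
    exact m2 (-i - 1 + m, -j - 1 + n) (by simpa using hm) (by simpa using hn)
  have sE : slap (E k) (-i - 1, -j - 1) =
      (ep (-i - 1, -j - 1) - ep (-i - 1, -j - 1 + 1)) * A k (-i - 1 + 1, -j - 1 + 1) := by
    have b1 := q' 0 0 (by norm_num) (by norm_num)
    have b2 := q' 1 0 (by norm_num) (by norm_num)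
    have b3 := q' (-1) 0 (by norm_num) (by norm_num)
    have b4 := q' 0 1 (by norm_num) (by norm_num)
    have b5 := q' 0 (-1) (by norm_num) (by norm_num)
    simp only [add_zero, ← sub_eq_add_neg] at b1 b2 b3 b4 b5
    exact slap_E b1 b2 b3 b4 b5
  refine ⟨fun hne => ?_, fun hne => ?_, fun he => ?_⟩
  · have b1 := q 0 0 (by norm_num) (by norm_num)
    have b2 := q (-1) 0 (by norm_num) (by norm_num)
    have b3 := q 0 (-1) (by norm_num) (by norm_num)
    have b4 := q (-1) (-1) (by norm_num) (by norm_num)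
    simp only [add_zero, ← sub_eq_add_neg] at b1 b2 b3 b4
    rw [slap_A b1 b2 b3 b4]
    have : ep (i - 1, j - 1) = ep (i - 1, j) := by
      unfold ep
      simp only
      by_cases hi : i = 0
      · subst hi
        have hj : j ≠ 0 := fun h => hne (by rw [h])
        by_cases hj' : j < 0
        · rw [if_pos ⟨by ring, by lia⟩, if_pos ⟨by ring, hj'⟩]
        · rw [if_neg (by lia), if_neg (by lia)]
      · rw [if_neg (by lia), if_neg (by lia)]
    rw [this]; ring
  · rw [slap_Em]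
    simp only
    rw [sE]
    have : ep (-i - 1, -j - 1) = ep (-i - 1, -j - 1 + 1) := by
      unfold ep
      simp only
      by_cases hi : i = 0
      · subst hi
        have hj : j ≠ 0 := fun h => hne (by rw [h])
        by_cases hj' : 0 < j
        · rw [if_pos (by lia), if_pos (by lia)]
        · rw [if_neg (by lia), if_neg (by lia)]
      · rw [if_neg (by lia), if_neg (by lia)]
    rw [this]; ring
  · rw [Prod.mk.injEq] at he
    obtain ⟨rfl, rfl⟩ := he
    rw [slap_Em]
    simp only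
    rw [sE]
    have e1 : ep (-0 - 1, -0 - 1) = -1 := by unfold ep; rw [if_pos (by simp)]
    have e2 : ep (-0 - 1, -0 - 1 + 1) = 1 := by unfold ep; rw [if_neg (by simp)]
    have e3 : sgn 0 = 1 := by unfold sgn; simp
    rw [e1, e2, e3]
    norm_num

theorem BData.restr (h : BData l a R A B C E g) {R' : ℝ} (hR : R' ≤ R) :
    DifferentiableOn ℂ g (Metric.ball 0 R') := h.diff.mono (Metric.ball_subset_ball hR)

theorem BData.em_diff (h : BData l a R A B C E g) {R' : ℝ} (hR : R' ≤ R) :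
    DifferentiableOn ℂ (fun z => g (-z)) (Metric.ball 0 R') := by
  refine (h.restr hR).comp (differentiable_neg.differentiableOn) ?_
  intro z hz
  rw [Metric.mem_ball, dist_zero_right] at hz ⊢
  rwa [norm_neg]

/-- The value at the branch point. -/
theorem BData.t1 (ha : Tendsto a l (𝓝[>] 0)) (hR : 0 < R) (h : BData l a R A B C E g) :
    Tendsto (fun k => A k (0, 0)) l (𝓝 (√(2 * Real.pi) / 2 * (c0 * g 0).re)) := by
  obtain ⟨r, hr, k1⟩ := h.slap_ev ha
  refine T1 ha (R := min R r) (by positivity) (h.limA.mono (min_le_left _ _))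
    (h.restr (min_le_left _ _)) ?_
  filter_upwards [k1] with k h1 x hx
  exact (h1 x (hx.trans_le (min_le_right _ _))).1

/-- The value on the other side of the branch point. -/
theorem BData.t1e (ha : Tendsto a l (𝓝[>] 0)) (hR : 0 < R) (h : BData l a R A B C E g) :
    Tendsto (fun k => E k (-1, -1)) l (𝓝 (√(2 * Real.pi) / 2 * (c0 * g 0).re)) := by
  obtain ⟨r, hr, k1⟩ := h.slap_ev ha
  have := T1 ha (R := min R r) (by positivity) ((h.limE.em ha).mono (min_le_left _ _))
    (h.em_diff (min_le_left _ _)) (by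
      filter_upwards [k1] with k h1 x hx
      exact (h1 x (hx.trans_le (min_le_right _ _))).2.1)
  rw [neg_zero] at this
  refine this.congr fun k => ?_
  unfold Em sgn
  simp

/-- The values at distance one. -/
theorem BData.t1x (ha : Tendsto a l (𝓝[>] 0)) (hR : 0 < R) (h : BData l a R A B C E g) :
    Tendsto (fun k => A k (-1, 0) + A k (0, -1)) l
      (𝓝 (√(2 * Real.pi) * (c0 * g 0).re * W (-1, 0))) := by
  obtain ⟨r, hr, k1⟩ := h.slap_ev ha
  have := T1x ha (R := min R r) (by positivity) (h.limA.mono (min_le_left _ _))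
    (h.restr (min_le_left _ _)) (by
      filter_upwards [k1] with k h1 x hx
      exact (h1 x (hx.trans_le (min_le_right _ _))).1) (-1, 0)
  refine this.congr fun k => ?_
  rw [Pm_le (by norm_num)]
  unfold sgn
  simp

/-- The gradient. -/
theorem BData.t5 {l : Ultrafilter ι} (ha : Tendsto a l (𝓝[>] 0)) (hR : 0 < R)
    (h : BData (l : Filter ι) a R A B C E g) :
    Tendsto (fun k => (a k)⁻¹ * (E k (-1, -1) - A k (0, 0))) l
      (𝓝 (-(√(Real.pi / 2) / 2 * ((1 + I) * (c0 * deriv g 0)).re))) := by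
  obtain ⟨r, hr, k1⟩ := h.slap_ev ha
  have := T5u (R := min R r) ha (by positivity) (h.limA.mono (min_le_left _ _))
    ((h.limE.em ha).mono (min_le_left _ _)) (h.restr (min_le_left _ _)) (by
      filter_upwards [k1] with k h1 x hx
      exact (h1 x (hx.trans_le (min_le_right _ _))).1) (by
      filter_upwards [k1] with k h1 x hx
      exact (h1 x (hx.trans_le (min_le_right _ _))).2.1) (by
      filter_upwards [k1] with k h1
      exact (h1 (0, 0) (by
        have : H170.pt (a k) (0, 0) = 0 := by apply Complex.ext <;> simp [H170.pt]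
        rw [this, norm_zero]; positivity)).2.2 rfl)
  refine this.congr fun k => ?_
  unfold Em sgn
  simp

end core

end Vale.Agent.P144.H365
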