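import Vale.Agent.P144.H365.Wrap

/-!
Spinors near a marked spin and near a marked disorder.
-/

namespace Vale.Agent.P144.H365

open MeasureTheory Filter Topology Vale.Agent.P144 Complex

section

variable {ι κ κ' : Type*} [Fintype κ] [Fintype κ'] {l : Filter ι} {a : ι → ℝ}
  {r : κ → ι → Site} {v : κ' → ι → Site} {ζ : κ → ℂ} {ω : κ' → ℂ}
  {S : κ → Prop} {S' : κ' → Prop} {v0 : ι → Site} {ω0 : ℂ}

theorem shift_nf (hv0 : Tendsto (fun k => H170.pt (a k) (v0 k)) l (𝓝 ω0)) (z : ℂ) :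
    Tendsto (fun kx : ι × Site => (kx.1, v0 kx.1 + kx.2)) (H170.nf l a z)
      (H170.nf l a (ω0 + z)) := by
  refine H170.tendsto_nf (φ := fun k x => v0 k + x) ?_
  have h2 := (hv0.comp (H170.tendsto_fst_nf (a := a) z)).add
    (H170.tendsto_pt_nf (l := l) (a := a) z)
  refine h2.congr fun kx => ?_
  apply Complex.ext <;> simp [H170.pt] <;> ring

/-- Localisation of a limit near a marked point: `u = pos - (centre)` and `Rt` is a root. -/
theorem loc_field (ha : Tendsto a l (𝓝[>] 0))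
    (hr : ∀ p, Tendsto (fun k => H170.pt (a k) (r p k)) l (𝓝 (ζ p)))
    (hv : ∀ q, Tendsto (fun k => H170.pt (a k) (v q k)) l (𝓝 (ω q)))
    {w : ℂ} (hS : w ∈ H170.VS S S' ζ ω) {s : ℝ} (hs : s = 1 / 4 ∨ s = 3 / 4) (t : ℝ)
    (φ : ℂ →L[ℝ] ℝ) {X : ι → Site → ℝ} {qw : ℂ} {u : ι × Site → ℂ} {Rt : ℂ → ℂ} {z : ℂ}
    (hz : z ≠ 0) (hu : Tendsto u (H170.nf l a w) (𝓝 z)) (hRt : ∀ y, ‖Rt y‖ = √‖y‖)
    (h : Tendsto (fun kx : ι × Site => X kx.1 kx.2 -
      φ (qw / (H170.RR (a kx.1) (fun p => r p kx.1) (fun q => v q kx.1)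
        (H170.pos (a kx.1) kx.2 s t) * Rt (u kx)))) (H170.nf l a w) (𝓝 0)) :
    Tendsto (fun kx : ι × Site => H170.gs S S' (fun p => r p kx.1) (fun q => v q kx.1)
      ((kx.2.1 : ℝ) + s) * X kx.1 kx.2 -
      φ ((qw / H170.RS S S' ζ ω w) / Rt (u kx))) (H170.nf l a w) (𝓝 0) := by
  have h1 := H170.RS_lim ha hr hv hS s t
  have hne := H170.RS_ne hS
  -- the difference of the two expressions
  have h2 : Tendsto (fun kx : ι × Site => (qw / H170.RS S S' (fun p => H170.cF (a kx.1) (r p kx.1))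
      (fun q => H170.pt (a kx.1) (v q kx.1)) (H170.pos (a kx.1) kx.2 s t) -
      qw / H170.RS S S' ζ ω w) / Rt (u kx)) (H170.nf l a w) (𝓝 0) := by
    have e1 : Tendsto (fun kx : ι × Site => qw / H170.RS S S'
        (fun p => H170.cF (a kx.1) (r p kx.1))
        (fun q => H170.pt (a kx.1) (v q kx.1)) (H170.pos (a kx.1) kx.2 s t) -
        qw / H170.RS S S' ζ ω w) (H170.nf l a w) (𝓝 0) := by
      have := ((tendsto_const_nhds (x := qw)).div h1 hne).sub_const (qw / H170.RS S S' ζ ω w)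
      rw [sub_self] at this
      exact this
    rw [tendsto_zero_iff_norm_tendsto_zero] at e1 ⊢
    have e2 : Tendsto (fun kx => (√‖u kx‖)⁻¹) (H170.nf l a w) (𝓝 (√‖z‖)⁻¹) := by
      refine Tendsto.inv₀ ?_ (Real.sqrt_pos.2 (norm_pos_iff.2 hz)).ne'
      exact (Real.continuous_sqrt.tendsto _).comp hu.norm
    have e3 := e1.mul e2
    rw [zero_mul] at e3
    refine e3.congr fun kx => ?_
    rw [norm_div, hRt]
    exact (div_eq_mul_inv _ _).symm
  have h3 := (φ.continuous.tendsto 0).comp h2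
  rw [map_zero] at h3
  have h4 : Tendsto (fun kx : ι × Site => H170.gs S S' (fun p => r p kx.1) (fun q => v q kx.1)
      ((kx.2.1 : ℝ) + s) * (X kx.1 kx.2 -
      φ (qw / (H170.RR (a kx.1) (fun p => r p kx.1) (fun q => v q kx.1)
        (H170.pos (a kx.1) kx.2 s t) * Rt (u kx))))) (H170.nf l a w) (𝓝 0) := by
    rw [tendsto_zero_iff_norm_tendsto_zero] at h ⊢
    refine h.congr fun kx => ?_
    rw [norm_mul, Real.norm_eq_abs (H170.gs _ _ _ _ _), H170.gs_bdd, one_mul]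
  have h5 := h4.add h3
  rw [add_zero] at h5
  refine h5.congr' ?_
  filter_upwards [H170.apos_nf ha w] with kx h0
  have g2 := H170.gs_sq S S' (fun p => r p kx.1) (fun q => v q kx.1) ((kx.2.1:ℝ) + s)
  set g := H170.gs S S' (fun p => r p kx.1) (fun q => v q kx.1) ((kx.2.1:ℝ) + s) with hg
  rw [H170.RR_eq S S' h0 _ _ _ hs t, ← hg]
  have hg0 : (g:ℂ) ≠ 0 := by
    intro h; rw [ofReal_eq_zero] at h; rw [h] at g2; norm_num at g2
  have hgi : (g : ℂ)⁻¹ = g := inv_eq_of_mul_eq_one_left (by exact_mod_cast g2)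
  set T := H170.RS S S' (fun p => H170.cF (a kx.1) (r p kx.1))
      (fun q => H170.pt (a kx.1) (v q kx.1)) (H170.pos (a kx.1) kx.2 s t)
  have e6 : g * φ (qw / ((g:ℂ) * T * Rt (u kx))) = φ ((qw / T) / Rt (u kx)) := by
    have : qw / ((g:ℂ) * T * Rt (u kx)) = g • ((qw / T) / Rt (u kx)) := by
      rw [real_smul, div_eq_mul_inv, mul_inv, mul_inv, hgi, div_eq_mul_inv, div_eq_mul_inv]; ring
    rw [this, map_smul, smul_eq_mul, ← mul_assoc, g2, one_mul]
  simp only [Function.comp_apply]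
  rw [mul_sub, e6, sub_div, map_sub]
  ring

theorem chi_ep (v x : Site) : chi (AL.sw (v + x).1 (v + x).2) v = ep x := by
  unfold chi AL.sw ep
  have : (v.1 = (v + x).1 + 1 ∧ (v + x).2 < v.2) ↔ (x.1 = -1 ∧ x.2 < 0) := by
    simp only [Prod.fst_add, Prod.snd_add]
    constructor
    · rintro ⟨h1, h2⟩; exact ⟨by lia, by lia⟩
    · rintro ⟨h1, h2⟩; exact ⟨by lia, by lia⟩
  by_cases h : x.1 = -1 ∧ x.2 < 0
  · rw [if_pos h, if_pos (this.2 h)]
  · rw [if_neg h, if_neg fun h' => h (this.1 h')]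

/-- The gauge factor. -/
noncomputable def gf (S : κ → Prop) (S' : κ' → Prop) (r : κ → ι → Site) (v : κ' → ι → Site)
    (k : ι) (t : ℝ) : ℝ := H170.gs S S' (fun p => r p k) (fun q => v q k) t

/-- **Local data near a marked spin.** -/
theorem bdata_spin (ha : Tendsto a l (𝓝[>] 0))
    (hr : ∀ p, Tendsto (fun k => H170.pt (a k) (r p k)) l (𝓝 (ζ p)))
    (hv : ∀ q, Tendsto (fun k => H170.pt (a k) (v q k)) l (𝓝 (ω q)))
    (hv0 : Tendsto (fun k => H170.pt (a k) (v0 k)) l (𝓝 ω0)) {R : ℝ} (hR : 0 < R)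
    (hS : Metric.ball ω0 R ⊆ H170.VS S S' ζ ω) {A B C E : ι → Site → ℝ}
    (hrel : ∀ᶠ kx in H170.nf l a ω0, H170.Rel (H170.tauF fun p => r p kx.1)
      (fun x => chi (AL.sw x.1 x.2) (v0 kx.1) * H170.theF (fun q => v q kx.1) x)
      (A kx.1) (B kx.1) (C kx.1) (E kx.1) kx.2)
    {q : ℂ → ℂ} (hq : DifferentiableOn ℂ q (Metric.ball ω0 R))
    (hA : ∀ z ∈ Metric.ball ω0 R, z ≠ ω0 → Tendsto (fun kx : ι × Site =>
      (√(a kx.1))⁻¹ * A kx.1 kx.2 - H170.phA (q z / (H170.RR (a kx.1) (fun p => r p kx.1)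
        (fun q => v q kx.1) (H170.pos (a kx.1) kx.2 (1 / 4) (1 / 4)) *
        H170.rtd (H170.pos (a kx.1) kx.2 (1 / 4) (1 / 4) - H170.pt (a kx.1) (v0 kx.1)))))
      (H170.nf l a z) (𝓝 0))
    (hE : ∀ z ∈ Metric.ball ω0 R, z ≠ ω0 → Tendsto (fun kx : ι × Site =>
      (√(a kx.1))⁻¹ * E kx.1 kx.2 - H170.phE (q z / (H170.RR (a kx.1) (fun p => r p kx.1)
        (fun q => v q kx.1) (H170.pos (a kx.1) kx.2 (3 / 4) (3 / 4)) *
        H170.rtd (H170.pos (a kx.1) kx.2 (3 / 4) (3 / 4) - H170.pt (a kx.1) (v0 kx.1)))))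
      (H170.nf l a z) (𝓝 0)) :
    BData l a R (fun k x => gf S S' r v k (((v0 k + x).1 : ℝ) + 1 / 4) * A k (v0 k + x))
      (fun k x => gf S S' r v k (((v0 k + x).1 : ℝ) + 3 / 4) * B k (v0 k + x))
      (fun k x => gf S S' r v k (((v0 k + x).1 : ℝ) + 1 / 4) * C k (v0 k + x))
      (fun k x => gf S S' r v k (((v0 k + x).1 : ℝ) + 3 / 4) * E k (v0 k + x))
      (fun z => q (ω0 + z) / H170.RS S S' ζ ω (ω0 + z)) := by
  have hω0 : ω0 ∈ H170.VS S S' ζ ω := hS (Metric.mem_ball_self hR)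
  have hsh := shift_nf (a := a) hv0
  have mem : ∀ z : ℂ, ‖z‖ < R → ω0 + z ∈ Metric.ball ω0 R := fun z hz => by
    rw [Metric.mem_ball, dist_eq_norm, add_sub_cancel_left]; exact hz
  constructor
  · have h1 := hrel.and (H170.gauge_signs ha hr hv hω0)
    have h2 := hsh 0
    rw [add_zero] at h2
    have h3 := h2.eventually h1
    filter_upwards [h3] with kx h4
    obtain ⟨k, x⟩ := kx
    obtain ⟨⟨k1, k2, k3, k4⟩, t1, t2⟩ := h4
    simp only at k1 k2 k3 k4 t1 t2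
    have e1 : v0 k + x + (0, 1) = v0 k + (x + (0, 1)) := add_assoc _ _ _
    have e2 : v0 k + x + (1, 0) = v0 k + (x + (1, 0)) := add_assoc _ _ _
    rw [e1] at k1 k2
    rw [e2] at k3 k4
    have g1 := H170.gs_sq S S' (fun p => r p k) (fun q => v q k) (((v0 k + x).1:ℝ) + 1 / 4)
    have g3 := H170.gs_sq S S' (fun p => r p k) (fun q => v q k) (((v0 k + x).1:ℝ) + 3 / 4)
    have e5 : (((v0 k + (x + ((1:ℤ), (0:ℤ)))).1 : ℤ) : ℝ) + 1 / 4 = ((v0 k + x).1:ℝ) + 5 / 4 := by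
      simp only [Prod.fst_add]; push_cast; ring
    have e6 : (((v0 k + (x + ((0:ℤ), (1:ℤ)))).1 : ℤ) : ℝ) = ((v0 k + x).1:ℝ) := by simp
    unfold RelO H170.Rel gf
    simp only [e5, e6, Pi.one_apply, one_mul]
    rw [t1] at k1 k2
    rw [t2, chi_ep] at k3 k4
    set G1 := H170.gs S S' (fun p => r p k) (fun q => v q k) (((v0 k + x).1:ℝ) + 1 / 4)
    set G3 := H170.gs S S' (fun p => r p k) (fun q => v q k) (((v0 k + x).1:ℝ) + 3 / 4)
    set G5 := H170.gs S S' (fun p => r p k) (fun q => v q k) (((v0 k + x).1:ℝ) + 5 / 4)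
    refine ⟨?_, ?_, ?_, ?_⟩
    · rw [k1]; linear_combination (-G3 * B k (v0 k + (x + (0, 1)))) * g1
    · rw [k2]; linear_combination (-G1 * A k (v0 k + (x + (0, 1)))) * g3
    · rw [k3]; linear_combination (ep x * G5 * (√2 * A k (v0 k + (x + (1, 0))) -
        C k (v0 k + (x + (1, 0))))) * g3
    · rw [k4]; linear_combination (-ep x * G5 * (√2 * C k (v0 k + (x + (1, 0))) -
        A k (v0 k + (x + (1, 0))))) * g3
  · intro z hz hzR
    have hm := mem z hzR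
    have hne : ω0 + z ≠ ω0 := fun h => hz (by simpa using h)
    have hu : Tendsto (fun kx : ι × Site => H170.pos (a kx.1) kx.2 (1 / 4) (1 / 4) -
        H170.pt (a kx.1) (v0 kx.1)) (H170.nf l a (ω0 + z)) (𝓝 z) := by
      have := (H170.pos_nf ha (ω0 + z) (1 / 4) (1 / 4)).sub (hv0.comp (H170.tendsto_fst_nf
        (a := a) (ω0 + z)))
      rwa [add_sub_cancel_left] at this
    have h1 := loc_field ha hr hv (hS hm) (Or.inl rfl) (1 / 4) H170.phA
      (X := fun k x => (√(a k))⁻¹ * A k x) hz hu H170.norm_rtd (hA _ hm hne)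
    have h2 := h1.comp (hsh z)
    refine h2.congr fun kx => ?_
    simp only [Function.comp_apply, gf, H170.phA_apply]
    have e7 : H170.pos (a kx.1) (v0 kx.1 + kx.2) (1 / 4) (1 / 4) - H170.pt (a kx.1) (v0 kx.1) =
        H170.pos (a kx.1) kx.2 (1 / 4) (1 / 4) := by
      apply Complex.ext <;> simp [H170.pos, H170.pt] <;> ring
    rw [e7]; ring
  · intro z hz hzR
    have hm := mem z hzR
    have hne : ω0 + z ≠ ω0 := fun h => hz (by simpa using h)
    have hu : Tendsto (fun kx : ι × Site => H170.pos (a kx.1) kx.2 (3 / 4) (3 / 4) -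
        H170.pt (a kx.1) (v0 kx.1)) (H170.nf l a (ω0 + z)) (𝓝 z) := by
      have := (H170.pos_nf ha (ω0 + z) (3 / 4) (3 / 4)).sub (hv0.comp (H170.tendsto_fst_nf
        (a := a) (ω0 + z)))
      rwa [add_sub_cancel_left] at this
    have h1 := loc_field ha hr hv (hS hm) (Or.inr rfl) (3 / 4) H170.phE
      (X := fun k x => (√(a k))⁻¹ * E k x) hz hu H170.norm_rtd (hE _ hm hne)
    have h2 := h1.comp (hsh z)
    refine h2.congr fun kx => ?_
    simp only [Function.comp_apply, gf]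
    have e7 : H170.pos (a kx.1) (v0 kx.1 + kx.2) (3 / 4) (3 / 4) - H170.pt (a kx.1) (v0 kx.1) =
        H170.pos (a kx.1) kx.2 (3 / 4) (3 / 4) := by
      apply Complex.ext <;> simp [H170.pos, H170.pt] <;> ring
    rw [e7]; ring
  · intro z hz
    have hm := mem z (by rwa [Metric.mem_ball, dist_zero_right] at hz)
    have h1 : DifferentiableAt ℂ (fun y => q y / H170.RS S S' ζ ω y) (ω0 + z) :=
      (hq.differentiableAt (Metric.isOpen_ball.mem_nhds hm)).div (H170.RS_diff (hS hm))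
        (H170.RS_ne (hS hm))
    exact (h1.comp z (differentiableAt_id.const_add ω0)).differentiableWithinAt

theorem sg_sgn' {b : ℝ} (hb : 0 < b) (i : ℤ) : H170.sg (b * (i + 3 / 4)) = sgn i := by
  unfold H170.sg sgn
  by_cases h : i < 0
  · have : (i:ℝ) ≤ -1 := by exact_mod_cast (by lia : i ≤ -1)
    rw [if_pos h, if_neg (by nlinarith)]
  · have : (0:ℝ) ≤ i := by exact_mod_cast (not_lt.1 h)
    rw [if_neg h, if_pos (by positivity)]

theorem div_sgn (i : ℤ) (f s : ℂ) : f / ((sgn i : ℂ) * s) = (sgn i : ℂ) * (f / s) := by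
  have hs' : (sgn i : ℂ) * (sgn i : ℂ) = 1 := by exact_mod_cast sgn_sq i
  have hinv : (sgn i : ℂ)⁻¹ = sgn i := inv_eq_of_mul_eq_one_left hs'
  rw [div_eq_mul_inv, mul_inv, hinv, div_eq_mul_inv]
  ring

theorem cut_sgn (r : Site) (i j : ℤ) :
    ep (i, j) * sgn (i + 1) * AL.cut1 r (r.1 + i + 1, r.2 + j + 1) = sgn i := by
  unfold ep sgn AL.cut1
  simp only
  split_ifs <;> first | (exfalso; lia) | norm_num

/-- **Local data near a marked disorder.** -/
theorem bdata_dis (ha : Tendsto a l (𝓝[>] 0))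
    (hr : ∀ p, Tendsto (fun k => H170.pt (a k) (r p k)) l (𝓝 (ζ p)))
    (hv : ∀ q, Tendsto (fun k => H170.pt (a k) (v q k)) l (𝓝 (ω q)))
    {r0 : ι → Site} {ζ0 : ℂ}
    (hr0 : Tendsto (fun k => H170.pt (a k) (r0 k)) l (𝓝 ζ0)) {R : ℝ} (hR : 0 < R)
    (hS : Metric.ball ζ0 R ⊆ H170.VS S S' ζ ω) {A B C E : ι → Site → ℝ}
    (hrel : ∀ᶠ kx in H170.nf l a ζ0, H170.Rel
      (fun x => AL.cut1 (r0 kx.1) (x.1, x.2 + 1) * H170.tauF (fun p => r p kx.1) x)
      (H170.theF (fun q => v q kx.1))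
      (A kx.1) (B kx.1) (C kx.1) (E kx.1) kx.2)
    {q : ℂ → ℂ} (hq : DifferentiableOn ℂ q (Metric.ball ζ0 R))
    (hA : ∀ z ∈ Metric.ball ζ0 R, z ≠ ζ0 → Tendsto (fun kx : ι × Site =>
      (√(a kx.1))⁻¹ * A kx.1 kx.2 - H170.phA (q z / (H170.RR (a kx.1) (fun p => r p kx.1)
        (fun q => v q kx.1) (H170.pos (a kx.1) kx.2 (1 / 4) (1 / 4)) *
        H170.rtu (H170.pos (a kx.1) kx.2 (1 / 4) (1 / 4) - H170.cF (a kx.1) (r0 kx.1)))))
      (H170.nf l a z) (𝓝 0))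
    (hE : ∀ z ∈ Metric.ball ζ0 R, z ≠ ζ0 → Tendsto (fun kx : ι × Site =>
      (√(a kx.1))⁻¹ * E kx.1 kx.2 - H170.phE (q z / (H170.RR (a kx.1) (fun p => r p kx.1)
        (fun q => v q kx.1) (H170.pos (a kx.1) kx.2 (3 / 4) (3 / 4)) *
        H170.rtu (H170.pos (a kx.1) kx.2 (3 / 4) (3 / 4) - H170.cF (a kx.1) (r0 kx.1)))))
      (H170.nf l a z) (𝓝 0)) :
    BData l a R
      (fun k x => sgn x.1 * (gf S S' r v k (((r0 k + x).1 : ℝ) + 3 / 4) * E k (r0 k + x)))
      (fun k x => -(sgn x.1 * (gf S S' r v k (((r0 k + x).1 : ℝ) + 5 / 4) *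
        C k (r0 k + x + (1, 0)))))
      (fun k x => sgn x.1 * (gf S S' r v k (((r0 k + x).1 : ℝ) + 3 / 4) *
        B k (r0 k + x + (0, 1))))
      (fun k x => -(sgn x.1 * (gf S S' r v k (((r0 k + x).1 : ℝ) + 5 / 4) *
        A k (r0 k + x + (1, 1)))))
      (fun z => I * (q (ζ0 + z) / H170.RS S S' ζ ω (ζ0 + z))) := by
  have hζ0 : ζ0 ∈ H170.VS S S' ζ ω := hS (Metric.mem_ball_self hR)
  have hsh := shift_nf (a := a) hr0
  have mem : ∀ z : ℂ, ‖z‖ < R → ζ0 + z ∈ Metric.ball ζ0 R := fun z hz => by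
    rw [Metric.mem_ball, dist_eq_norm, add_sub_cancel_left]; exact hz
  have nsgn : ∀ i : ℤ, ‖sgn i‖ = 1 := fun i => by unfold sgn; split_ifs <;> simp
  have nm : ∀ (i : ℤ) (x y : ℝ), y = sgn i * x → ‖x‖ = ‖y‖ := fun i x y h => by
    rw [h, norm_mul, nsgn, one_mul]
  have nm' : ∀ (i : ℤ) (x y : ℝ), y = -(sgn i * x) → ‖x‖ = ‖y‖ := fun i x y h => by
    rw [h, norm_neg, norm_mul, nsgn, one_mul]
  constructor
  · have h1 := hrel.and (H170.gauge_signs ha hr hv hζ0)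
    have h2 := hsh 0
    rw [add_zero] at h2
    have h3 := H170.ev_near (P := fun k x => H170.Rel
      (fun x => AL.cut1 (r0 k) (x.1, x.2 + 1) * H170.tauF (fun p => r p k) x)
      (H170.theF (fun q => v q k)) (A k) (B k) (C k) (E k) x ∧
      H170.tauF (fun p => r p k) x = H170.gs S S' (fun p => r p k) (fun q => v q k)
      ((x.1:ℝ) + 1 / 4) * H170.gs S S' (fun p => r p k) (fun q => v q k)
      ((x.1:ℝ) + 3 / 4) ∧
    H170.theF (fun q => v q k) x = H170.gs S S' (fun p => r p k) (fun q => v q k)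
      ((x.1:ℝ) + 3 / 4) * H170.gs S S' (fun p => r p k) (fun q => v q k)
      ((x.1:ℝ) + 5 / 4)) ha h1 1
    have h4 := h2.eventually h3
    filter_upwards [h4] with kx h5
    obtain ⟨k, i, j⟩ := kx
    simp only at h5
    have f1 := h5 (r0 k + (i, j) + (0, 1)) (by simp) (by simp)
    have f2 := h5 (r0 k + (i, j) + (1, 0)) (by simp) (by simp)
    obtain ⟨⟨-, -, k3, k4⟩, -, t2⟩ := f1
    obtain ⟨⟨k1, k2, -, -⟩, t1, -⟩ := f2
    simp only [Prod.fst_add, Prod.snd_add, add_zero] at k1 k2 k3 k4 t1 t2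
    have c1 := cut_sgn (r0 k) i j
    rw [t2] at k3 k4
    rw [t1] at k1 k2
    unfold RelO H170.Rel gf
    simp only [Pi.one_apply, one_mul, Prod.fst_add, Prod.mk_add_mk, add_zero]
    have x1 : r0 k + (i, j) + (0, 1) + (1, 0) = r0 k + (i, j) + (1, 1) := by
      ext <;> simp
    have x2 : r0 k + (i, j) + (1, 0) + (0, 1) = r0 k + (i, j) + (1, 1) := by
      ext <;> simp
    have x3 : r0 k + (i, j + 1) = r0 k + (i, j) + (0, 1) := by
      ext
      · simp
      · simp; ring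
    have x4 : r0 k + (i + 1, j) = r0 k + (i, j) + (1, 0) := by
      ext
      · simp; ring
      · simp
    have x5 : r0 k + (i, j) + (0, 1) + (1, 0) = r0 k + (i, j) + (1, 1) := x1
    have x6 : r0 k + (i, j) + (1, 0) + (0, 1) = r0 k + (i, j) + (1, 1) := x2
    have x7 : r0 k + (i, j) + (0, 1) + (1, 1) = r0 k + (i, j) + (0, 1) + (1, 1) := rfl
    rw [x1] at k3 k4
    rw [x2] at k1 k2
    rw [x3, x4, x5, x6]
    have y1 : ((((r0 k).1 + i : ℤ) : ℝ) + 5 / 4) = (((r0 k).1 + i + 1 : ℤ) : ℝ) + 1 / 4 := by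
      push_cast; ring
    have y2 : ((((r0 k).1 + (i + 1) : ℤ) : ℝ) + 3 / 4) = (((r0 k).1 + i + 1 : ℤ) : ℝ) + 3 / 4 := by
      push_cast; ring
    rw [y1] at k3 k4
    rw [y1, y2]
    have g3 := H170.gs_sq S S' (fun p => r p k) (fun q => v q k) ((((r0 k).1 + i : ℤ) : ℝ) + 3 / 4)
    have g7 := H170.gs_sq S S' (fun p => r p k) (fun q => v q k)
      ((((r0 k).1 + i + 1 : ℤ) : ℝ) + 3 / 4)
    have g5 := H170.gs_sq S S' (fun p => r p k) (fun q => v q k)
      ((((r0 k).1 + i + 1 : ℤ) : ℝ) + 1 / 4)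
    set G3 := H170.gs S S' (fun p => r p k) (fun q => v q k) ((((r0 k).1 + i : ℤ) : ℝ) + 3 / 4)
    set G5 := H170.gs S S' (fun p => r p k) (fun q => v q k)
      ((((r0 k).1 + i + 1 : ℤ) : ℝ) + 1 / 4)
    set G7 := H170.gs S S' (fun p => r p k) (fun q => v q k)
      ((((r0 k).1 + i + 1 : ℤ) : ℝ) + 3 / 4)
    set As := A k (r0 k + (i, j) + (1, 1))
    set Bs := B k (r0 k + (i, j) + (1, 1))
    set Cs := C k (r0 k + (i, j) + (1, 1))
    set cc := AL.cut1 (r0 k) ((r0 k).1 + i + 1, (r0 k).2 + j + 1)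
    have s2 := s22
    have cc2 : cc * cc = 1 := by
      simp only [cc]; unfold AL.cut1; split_ifs <;> norm_num
    refine ⟨?_, ?_, ?_, ?_⟩
    · rw [k3, k4]
      linear_combination (sgn i * G5 * Cs) * g3 + (sgn i * G3 * G3 * G5 * Cs) * s2
    · rw [k4]
      linear_combination (-(sgn i * G5 * (√2 * Cs - As))) * g3
    · rw [k1, k2]
      linear_combination (G5 * (√2 * As - cc * (G5 * G7) * Bs)) * c1 +
        (ep (i, j) * sgn (i + 1) * √2 * cc * G5 * As) * g7 +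
        (ep (i, j) * sgn (i + 1) * G7 * Bs * G5 * G5) * cc2 +
        (ep (i, j) * sgn (i + 1) * G7 * Bs) * g5 - (ep (i, j) * sgn (i + 1) * G7 * Bs) * s2
    · rw [k2]
      linear_combination (G5 * As) * c1 + (ep (i, j) * sgn (i + 1) * cc * G5 * As) * g7
  · intro z hz hzR
    have hm := mem z hzR
    have hne : ζ0 + z ≠ ζ0 := fun h => hz (by simpa using h)
    have hu : Tendsto (fun kx : ι × Site => H170.pos (a kx.1) kx.2 (3 / 4) (3 / 4) -
        H170.cF (a kx.1) (r0 kx.1)) (H170.nf l a (ζ0 + z)) (𝓝 z) := by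
      have := (H170.pos_nf ha (ζ0 + z) (3 / 4) (3 / 4)).sub ((H170.cF_lim ha hr0).comp
        (H170.tendsto_fst_nf (a := a) (ζ0 + z)))
      rwa [add_sub_cancel_left] at this
    have h1 := loc_field ha hr hv (hS hm) (Or.inr rfl) (3 / 4) H170.phE
      (X := fun k x => (√(a k))⁻¹ * E k x) hz hu H170.norm_rtu (hE _ hm hne)
    have h2 := h1.comp (hsh z)
    rw [tendsto_zero_iff_norm_tendsto_zero] at h2 ⊢
    refine h2.congr' ?_
    filter_upwards [H170.apos_nf ha z] with kx hk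
    simp only [Function.comp_apply, gf, H170.phE_apply]
    have e7 : H170.pos (a kx.1) (r0 kx.1 + kx.2) (3 / 4) (3 / 4) - H170.cF (a kx.1) (r0 kx.1) =
        H170.pos (a kx.1) kx.2 (1 / 4) (1 / 4) := by
      apply Complex.ext <;> simp [H170.pos, H170.cF] <;> ring
    have hre : (H170.pos (a kx.1) kx.2 (1 / 4) (1 / 4)).re = a kx.1 * (kx.2.1 + 1 / 4) := rfl
    have hne : (H170.pos (a kx.1) kx.2 (1 / 4) (1 / 4)).re ≠ 0 := by
      rw [hre]
      intro h
      rcases mul_eq_zero.1 h with h | h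
      · exact hk.ne' h
      · have : (4 * kx.2.1 + 1 : ℝ) = 0 := by linarith
        have h' : 4 * kx.2.1 + 1 = 0 := by exact_mod_cast this
        lia
    have e2 := H170.rtd_eq_sg hne
    rw [hre, sg_sgn hk] at e2
    rw [e7, e2, div_sgn, re_ofReal_mul, mul_div_assoc, I_mul_re]
    refine nm kx.2.1 _ _ ?_
    ring
  · intro z hz hzR
    have hm := mem z hzR
    have hne : ζ0 + z ≠ ζ0 := fun h => hz (by simpa using h)
    have hu : Tendsto (fun kx : ι × Site => H170.pos (a kx.1) kx.2 (1 / 4) (1 / 4) -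
        H170.cF (a kx.1) (r0 kx.1)) (H170.nf l a (ζ0 + z)) (𝓝 z) := by
      have := (H170.pos_nf ha (ζ0 + z) (1 / 4) (1 / 4)).sub ((H170.cF_lim ha hr0).comp
        (H170.tendsto_fst_nf (a := a) (ζ0 + z)))
      rwa [add_sub_cancel_left] at this
    have h1 := loc_field ha hr hv (hS hm) (Or.inl rfl) (1 / 4) H170.phA
      (X := fun k x => (√(a k))⁻¹ * A k x) hz hu H170.norm_rtu (hA _ hm hne)
    have h2 := h1.comp ((H170.tendsto_shift ha (ζ0 + z) (1, 1)).comp (hsh z))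
    rw [tendsto_zero_iff_norm_tendsto_zero] at h2 ⊢
    refine h2.congr' ?_
    filter_upwards [H170.apos_nf ha z] with kx hk
    simp only [Function.comp_apply, gf, H170.phA_apply, H170.phE_apply]
    have e7 : H170.pos (a kx.1) (r0 kx.1 + kx.2 + (1, 1)) (1 / 4) (1 / 4) -
        H170.cF (a kx.1) (r0 kx.1) = H170.pos (a kx.1) kx.2 (3 / 4) (3 / 4) := by
      apply Complex.ext <;> simp [H170.pos, H170.cF] <;> ring
    have hre : (H170.pos (a kx.1) kx.2 (3 / 4) (3 / 4)).re = a kx.1 * (kx.2.1 + 3 / 4) := rfl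
    have hne : (H170.pos (a kx.1) kx.2 (3 / 4) (3 / 4)).re ≠ 0 := by
      rw [hre]
      intro h
      rcases mul_eq_zero.1 h with h | h
      · exact hk.ne' h
      · have : (4 * kx.2.1 + 3 : ℝ) = 0 := by linarith
        have h' : 4 * kx.2.1 + 3 = 0 := by exact_mod_cast this
        lia
    have e2 := H170.rtd_eq_sg hne
    rw [hre, sg_sgn' hk] at e2
    have e8 : (((r0 kx.1 + kx.2 + ((1:ℤ), (1:ℤ))).1 : ℤ) : ℝ) + 1 / 4 =
        ((r0 kx.1 + kx.2).1:ℝ) + 5 / 4 := by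
      simp only [Prod.fst_add]; push_cast; ring
    rw [e7, e2, div_sgn, im_ofReal_mul, mul_div_assoc, I_mul_im, e8]
    refine nm' kx.2.1 _ _ ?_
    ring
  · intro z hz
    have hm := mem z (by rwa [Metric.mem_ball, dist_zero_right] at hz)
    have h1 : DifferentiableAt ℂ (fun y => q y / H170.RS S S' ζ ω y) (ζ0 + z) :=
      (hq.differentiableAt (Metric.isOpen_ball.mem_nhds hm)).div (H170.RS_diff (hS hm))
        (H170.RS_ne (hS hm))
    exact ((h1.comp z (differentiableAt_id.const_add ζ0)).const_mul I).differentiableWithinAt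

end

end Vale.Agent.P144.H365
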