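import Vale.Agent.P144.H365.Wrap2
import Vale.Agent.P144.H365.Cont2
import Vale.Agent.P144.H436.Path3

/-!
The logarithmic gradients of the disorder correlations.
-/

namespace Vale.Agent.P144.H365

open MeasureTheory Filter Topology Vale.Agent.P144 Complex

section

variable {ι κ : Type*} [Fintype κ]

/-- No marked spins. -/
def vE (ι : Type*) : Empty → ι → Site := fun x => x.elim

/-- No marked points. -/
def wE : Empty → ℂ := fun x => x.elim

theorem RR_unit (a : ℝ) (r : κ → Site) (v : Site) (w : ℂ) :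
    H170.RR a r (fun _ : Unit => v) w =
      H170.RR a r (fun q : Empty => (q.elim : Site)) w * H170.rtd (w - H170.pt a v) := by
  unfold H170.RR
  simp

theorem theF_unit (v : Site) : H170.theF (fun _ : Unit => v) =
    fun x => chi (AL.sw x.1 x.2) v * H170.theF (fun q : Empty => (q.elim : Site)) x := by
  funext x
  unfold H170.theF
  simp

variable {l : Ultrafilter ι} {a : ι → ℝ} {N : ι → ℕ} {r : κ → ι → Site} {v : ι → Site}
    {ζ : κ → ℂ} {ω : ℂ}

theorem xj_spr (ha : Tendsto a l (𝓝[>] 0))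
    (hN : Tendsto (fun k => a k * ((N k : ℝ) + 1)) l (𝓝 1))
    (hv : Tendsto (fun k => H170.pt (a k) (v k)) l (𝓝 ω)) (hω : ω ∈ Dia) :
    ∀ᶠ k in l, AL.Spr (dia (N k)) (H170.tauF fun p => r p k) (H170.theF fun _ : Unit => v k)
      (H170.jA (N k) (fun p => r p k) (v k)) (H170.jB (N k) (fun p => r p k) (v k))
      (H170.jC (N k) (fun p => r p k) (v k)) (H170.jD (N k) (fun p => r p k) (v k)) := by
  filter_upwards [H170.deep_ev ha hN hω hv 1] with k k1
  have h1 := AL.spr_QQ (Λ := dia (N k)) (H170.rM fun p => r p k) (A := {v k}) (by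
    intro x hx
    rw [Multiset.mem_singleton] at hx
    subst hx
    rw [AL.mem_dia]
    lia) (AL.zj (dia (N k)) (H170.rM fun p => r p k) (v k))
  rw [H170.tauR_rM, H170.theA_single] at h1
  exact h1

theorem xj_relOn (ha : Tendsto a l (𝓝[>] 0))
    (hN : Tendsto (fun k => a k * ((N k : ℝ) + 1)) l (𝓝 1))
    (hv : Tendsto (fun k => H170.pt (a k) (v k)) l (𝓝 ω)) (hω : ω ∈ Dia) :
    H170.RelOn (l : Filter ι) a Dia r (fun _ : Unit => v)
      (fun k => H170.jA (N k) (fun p => r p k) (v k))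
      (fun k => H170.jB (N k) (fun p => r p k) (v k))
      (fun k => H170.jC (N k) (fun p => r p k) (v k))
      (fun k => H170.jD (N k) (fun p => r p k) (v k)) := by
  have h1 : H170.RelB (l : Filter ι) a N Set.univ r (fun _ : Unit => v)
      (fun k => H170.jA (N k) (fun p => r p k) (v k))
      (fun k => H170.jB (N k) (fun p => r p k) (v k))
      (fun k => H170.jC (N k) (fun p => r p k) (v k))
      (fun k => H170.jD (N k) (fun p => r p k) (v k)) := by
    intro z _
    exact H170.ev_nf_of (P := fun k => ∀ i j : ℤ, H170.SRel (fun x y => (x, y) ∈ dia (N k))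
      (H170.tauF fun p => r p k) (H170.theF fun _ : Unit => v k)
      (H170.jA (N k) (fun p => r p k) (v k)) (H170.jB (N k) (fun p => r p k) (v k))
      (H170.jC (N k) (fun p => r p k) (v k)) (H170.jD (N k) (fun p => r p k) (v k)) i j)
      ((xj_spr ha hN hv hω).mono fun k h i j => H170.SRel.of_spr h i j) |>.mono
      fun kx h => h _ _
  have h2 := h1.relOn ha hN
  rwa [Set.univ_inter] at h2

/-- The function at the source. -/
noncomputable def gv (S : κ → Prop) (S' : Empty → Prop) (ζ : κ → ℂ) (ω : ℂ) (q : ℂ → ℂ) (z : ℂ) : ℂ :=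
  q (ω + z) / H170.RS S S' ζ wE (ω + z)

/-- The local data at the source. -/
theorem xj_b (ha : Tendsto a l (𝓝[>] 0))
    (hN : Tendsto (fun k => a k * ((N k : ℝ) + 1)) l (𝓝 1))
    (hr : ∀ p, Tendsto (fun k => H170.pt (a k) (r p k)) l (𝓝 (ζ p)))
    (hv : Tendsto (fun k => H170.pt (a k) (v k)) l (𝓝 ω)) (hω : ω ∈ Dia)
    {Hs Hf : ι → Site → ℝ} {q : ℂ → ℂ} {h : ℂ → ℝ}
    (hG : H170.GLim (l : Filter ι) a r (fun _ : Unit => v) ζ (fun _ => ω)
        (fun k => H170.jA (N k) (fun p => r p k) (v k))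
        (fun k => H170.jB (N k) (fun p => r p k) (v k))
        (fun k => H170.jC (N k) (fun p => r p k) (v k))
        (fun k => H170.jD (N k) (fun p => r p k) (v k)) Hs Hf q h)
    {S : κ → Prop} {S' : Empty → Prop} (hP : ω ∈ H170.VS S S' ζ wE) : ∃ R > 0,
    BData (l : Filter ι) a R
      (fun k x => gf S S' r (vE ι) k (((v k + x).1 : ℝ) + 1 / 4) *
        H170.jA (N k) (fun p => r p k) (v k) (v k + x))
      (fun k x => gf S S' r (vE ι) k (((v k + x).1 : ℝ) + 3 / 4) *
        H170.jB (N k) (fun p => r p k) (v k) (v k + x))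
      (fun k x => gf S S' r (vE ι) k (((v k + x).1 : ℝ) + 1 / 4) *
        H170.jC (N k) (fun p => r p k) (v k) (v k + x))
      (fun k x => gf S S' r (vE ι) k (((v k + x).1 : ℝ) + 3 / 4) *
        H170.jD (N k) (fun p => r p k) (v k) (v k + x))
      (gv S S' ζ ω q) := by
  obtain ⟨R, hR, hRs⟩ := Metric.mem_nhds_iff.1 (((H170.VS_open S S' ζ wE).inter Dia_open).mem_nhds
    ⟨hP, hω⟩)
  refine ⟨R, hR, ?_⟩
  have hmk : ∀ z ∈ Metric.ball ω R, z ≠ ω → z ∈ Dia \ H170.Mk ζ (fun _ : Unit => ω) := by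
    intro z hz hne
    refine ⟨(hRs hz).2, ?_⟩
    rw [H170.notMem_Mk]
    exact ⟨(H170.VS_ne (hRs hz).1).1, fun _ => hne⟩
  refine bdata_spin (v := vE ι) (ω := wE) ha hr (fun q => q.elim) hv hR
    (fun z hz => (hRs hz).1) ?_ (hG.diff.mono fun z hz => (hRs hz).2) ?_ ?_
  · have h1 := xj_relOn (r := r) ha hN hv hω ω hω
    refine h1.mono fun kx h2 => ?_
    simp only [theF_unit] at h2
    exact h2
  · intro z hz hne
    have h1 := hG.slim.A z (hmk z hz hne)
    refine h1.congr fun kx => ?_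
    rw [RR_unit]
    rfl
  · intro z hz hne
    have h1 := hG.slim.E z (hmk z hz hne)
    refine h1.congr fun kx => ?_
    rw [RR_unit]
    rfl

/-- The gauge factor does not change from one side of a column to the other. -/
theorem gf_side (S : κ → Prop) (S' : Empty → Prop) (r : κ → ι → Site) (k : ι) (m : ℤ) :
    gf S S' r (vE ι) k ((m : ℝ) - 1 / 4) = gf S S' r (vE ι) k ((m : ℝ) + 1 / 4) := by
  classical
  unfold gf H170.gs
  congr 1
  refine Finset.prod_congr rfl fun p _ => ?_
  split_ifs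
  · rcases lt_or_ge m ((r p k).1 + 1) with h | h
    · have h' : (m:ℝ) ≤ (r p k).1 := by exact_mod_cast (by lia : m ≤ (r p k).1)
      rw [H170.sg_neg (by linarith), H170.sg_neg (by linarith)]
    · have h' : ((r p k).1:ℝ) + 1 ≤ m := by exact_mod_cast h
      rw [H170.sg_pos (by linarith), H170.sg_pos (by linarith)]
  · rfl

theorem gf_sq (S : κ → Prop) (S' : Empty → Prop) (r : κ → ι → Site) (k : ι) (t : ℝ) :
    gf S S' r (vE ι) k t * gf S S' r (vE ι) k t = 1 := H170.gs_sq _ _ _ _ _

end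

end Vale.Agent.P144.H365
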